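import Crest.Agent.R112.Basic

/-! Row 112: the misalignment cost of the forest (`AlignStmt`). -/

set_option autoImplicit false

namespace Crest.Agent.R112

open MeasureTheory Set Metric Filter Topology
open scoped ENNReal NNReal Classical

noncomputable section

theorem align_pow (k : ℕ) (hk : 128 ≤ k) : 4 * (33 ^ 2 * 2 ^ 16) * (8 * k) ^ 2 ≤ 2 ^ k := by
  induction k, hk using Nat.le_induction with
  | base => norm_num
  | succ k hk ih =>
    have h1 : (8 * (k + 1)) ^ 2 ≤ 2 * (8 * k) ^ 2 := by nlinarith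
    calc 4 * (33 ^ 2 * 2 ^ 16) * (8 * (k + 1)) ^ 2
        ≤ 4 * (33 ^ 2 * 2 ^ 16) * (2 * (8 * k) ^ 2) := Nat.mul_le_mul_left _ h1
      _ = 2 * (4 * (33 ^ 2 * 2 ^ 16) * (8 * k) ^ 2) := by ring
      _ ≤ 2 * 2 ^ k := Nat.mul_le_mul_left _ ih
      _ = 2 ^ (k + 1) := by ring

theorem align_kappa {K : ℕ} (hK : 1024 ≤ K) (h8 : 8 ∣ K) :
    4 * (C1 / 2 ^ (K / 8)) * (K : ℝ) ^ 2 ≤ 1 := by
  obtain ⟨k, rfl⟩ := h8
  have hk : 128 ≤ k := by omega
  have e : 8 * k / 8 = k := by omega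
  rw [e]
  have h := align_pow k hk
  have h' : (4 : ℝ) * (33 ^ 2 * 2 ^ 16) * ((8 * k : ℕ) : ℝ) ^ 2 ≤ 2 ^ k := by exact_mod_cast h
  have hp : (0 : ℝ) < 2 ^ k := by positivity
  have e2 : 4 * (C1 / 2 ^ k) * ((8 * k : ℕ) : ℝ) ^ 2 =
      (4 * (33 ^ 2 * 2 ^ 16) * ((8 * k : ℕ) : ℝ) ^ 2) / 2 ^ k := by
    unfold C1; ring
  rw [e2, div_le_one hp]
  exact h'

theorem align_nbhd_win {K A : ℕ} (hA : A < K / 2) (a : ℤ × ℤ) : nbhd A a ⊆ win K a := by
  intro c hc
  simp only [nbhd, win, Finset.mem_product, Finset.mem_Icc, Finset.mem_Ico] at hc ⊢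
  have : (A : ℤ) < ((K / 2 : ℕ) : ℤ) := by exact_mod_cast hA
  obtain ⟨⟨h1, h2⟩, h3, h4⟩ := hc
  refine ⟨⟨?_, ?_⟩, ?_, ?_⟩ <;> linarith

theorem align_nbhd_mono {A B : ℕ} (h : A ≤ B) (a : ℤ × ℤ) : nbhd A a ⊆ nbhd B a := by
  intro c hc
  rw [mem_nbhd_iff_dinf] at hc ⊢
  exact hc.trans h

theorem align_ediv {K : ℤ} (hK : 0 < K) {s t : ℤ} (h : |s - t| ≤ K) : |s / K - t / K| ≤ 1 := by
  rw [abs_le] at h ⊢
  have h1 : s / K ≤ (t + K) / K := Int.ediv_le_ediv hK (by linarith)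
  have h2 : t / K ≤ (s + K) / K := Int.ediv_le_ediv hK (by linarith)
  rw [Int.add_ediv_of_dvd_right (dvd_refl K), Int.ediv_self hK.ne'] at h1 h2
  constructor <;> linarith

theorem align_up_mem {K A : ℕ} (hK : 1 ≤ K) (hA : A ≤ K) {a c : ℤ × ℤ} (hc : c ∈ nbhd A a) :
    up K c ∈ nbhd 1 (up K a) := by
  have hK' : (0 : ℤ) < K := by exact_mod_cast hK
  have hA' : (A : ℤ) ≤ K := by exact_mod_cast hA
  rw [mem_nbhd] at hc ⊢
  exact ⟨by simpa [up] using align_ediv hK' (hc.1.trans hA'),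
    by simpa [up] using align_ediv hK' (hc.2.trans hA')⟩

/-- a neighbourhood is covered by the children of the neighbours of the parent -/
theorem align_sum_le {K A : ℕ} (hK : 1 ≤ K) (hA : A ≤ K) (a : ℤ × ℤ) (f : ℤ × ℤ → ℝ)
    (hf : ∀ c, 0 ≤ f c) :
    ∑ c ∈ nbhd A a, f c ≤ ∑ a' ∈ nbhd 1 (up K a), ∑ c ∈ children K a', f c := by
  rw [← Finset.sum_fiberwise_of_maps_to (s := nbhd A a) (t := nbhd 1 (up K a)) (g := up K)
    (fun c hc => align_up_mem hK hA hc)]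
  refine Finset.sum_le_sum fun a' _ => Finset.sum_le_sum_of_subset_of_nonneg ?_ fun c _ _ => hf c
  intro c hc
  exact (mem_children hK a' c).mpr (Finset.mem_filter.mp hc).2

theorem align_Dhat_nonneg (K : ℕ) (u : ℕ → ℤ × ℤ → ℂ) (n : ℕ) (a : ℤ × ℤ) : 0 ≤ Dhat K u n a :=
  sub_nonneg.mpr (norm_sum_le _ _)

theorem align_Dch_nonneg {K : ℕ} {u : ℕ → ℤ × ℤ → ℂ}
    (hu : ∀ n a, u (n + 1) a = ∑ c ∈ children K a, u n c) (n : ℕ) (a : ℤ × ℤ) :
    0 ≤ Dch K u n a := by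
  unfold Dch; rw [hu]; exact sub_nonneg.mpr (norm_sum_le _ _)

theorem align_Mloc_nonneg (u : ℕ → ℤ × ℤ → ℂ) (P : Node) : 0 ≤ Mloc u P :=
  Finset.sum_nonneg fun _ _ => norm_nonneg _

theorem align_aexc_le_Dhat {K A : ℕ} (hA : A < K / 2) (u : ℕ → ℤ × ℤ → ℂ) (n : ℕ) (a : ℤ × ℤ) :
    ∑ c ∈ nbhd A a, aexc (thw K u (n, a)) (u n c) ≤ Dhat K u n a := by
  rw [← sum_aexc_thw]
  exact Finset.sum_le_sum_of_subset_of_nonneg (align_nbhd_win hA a)
    fun c _ _ => aexc_nonneg (norm_thw K u _).le _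

/-- the deviation from the label -/
def alignPhi (K : ℕ) (u : ℕ → ℤ × ℤ → ℂ) (root : Node → Node) (P : Node) : ℝ :=
  ‖thw K u P - thw K u (root P)‖

def alignY (K : ℕ) (u : ℕ → ℤ × ℤ → ℂ) (root : Node → Node) (P : Node) : ℝ :=
  Mloc u P * (max 0 (alignPhi K u root P - 1 / 8)) ^ 2

theorem alignY_nonneg (K : ℕ) (u : ℕ → ℤ × ℤ → ℂ) (root : Node → Node) (P : Node) :
    0 ≤ alignY K u root P := mul_nonneg (align_Mloc_nonneg u P) (sq_nonneg _)

theorem alignY_eq_zero {K : ℕ} {u : ℕ → ℤ × ℤ → ℂ} {root : Node → Node} {P : Node}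
    (h : alignPhi K u root P ≤ 1 / 8) : alignY K u root P = 0 := by
  unfold alignY
  rw [max_eq_left (by linarith)]; simp

theorem alignPhi_le (K : ℕ) (u : ℕ → ℤ × ℤ → ℂ) (root : Node → Node) (P : Node) :
    alignPhi K u root P ≤ 2 := by
  unfold alignPhi
  have := norm_sub_le (thw K u P) (thw K u (root P))
  rw [norm_thw, norm_thw] at this
  linarith

/-- the recursion in the long case -/
theorem align_long {K : ℕ} (hK : 1024 ≤ K) (h8 : 8 ∣ K) {u : ℕ → ℤ × ℤ → ℂ}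
    (hu : ∀ n a, u (n + 1) a = ∑ c ∈ children K a, u n c) {root : Node → Node} {n : ℕ}
    {a : ℤ × ℤ} (hL : Long K u (n, a)) (hr : root (n, a) = root (n + 1, up K a)) :
    alignY K u root (n, a) ≤ 2 * (C1 / 2 ^ (K / 8)) * alignY K u root (n + 1, up K a) +
      16 * ∑ a' ∈ nbhd 1 (up K a), Dch K u n a' + 8 * Dhat K u n a +
      8 * Dhat K u (n + 1) (up K a) := by
  have hK1 : 1 ≤ K := by omega
  set κ : ℝ := C1 / 2 ^ (K / 8) with hκ
  have hκ0 : 0 ≤ κ := by rw [hκ]; unfold C1; positivity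
  have hκ1 : κ ≤ 1 := by
    have h := align_kappa hK h8
    have hK' : (1 : ℝ) ≤ K := by exact_mod_cast hK1
    have : (1 : ℝ) ≤ (K : ℝ) ^ 2 := one_le_pow₀ hK'
    nlinarith
  set E : ℝ := ∑ a' ∈ nbhd 1 (up K a), Dch K u n a' with hE
  have hE0 : 0 ≤ E := Finset.sum_nonneg fun a' _ => align_Dch_nonneg hu n a'
  set δ : ℝ := ‖thw K u (n, a) - thw K u (n + 1, up K a)‖ with hδ
  have hδ0 : 0 ≤ δ := norm_nonneg _
  -- the mass
  have hM : Mloc u (n, a) ≤ κ * (Mloc u (n + 1, up K a) + E) := by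
    refine le_trans hL (mul_le_mul_of_nonneg_left ?_ hκ0)
    refine (align_sum_le hK1 (Nat.div_le_self K 4) a _ fun c => norm_nonneg _).trans ?_
    have e : ∑ a' ∈ nbhd 1 (up K a), ∑ c ∈ children K a', ‖u n c‖ =
        ∑ a' ∈ nbhd 1 (up K a), ‖u (n + 1) a'‖ + E := by
      rw [hE, ← Finset.sum_add_distrib]
      refine Finset.sum_congr rfl fun a' _ => ?_
      unfold Dch; ring
    rw [e]
    have : ∑ a' ∈ nbhd 1 (up K a), ‖u (n + 1) a'‖ ≤ Mloc u (n + 1, up K a) :=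
      Finset.sum_le_sum_of_subset_of_nonneg (align_nbhd_mono (by norm_num) _)
        fun c _ _ => norm_nonneg _
    linarith
  -- the change of direction
  have hD : Mloc u (n, a) * δ ^ 2 ≤ 4 * (Dhat K u n a + Dhat K u (n + 1) (up K a) + E) := by
    have h1 : Mloc u (n, a) * δ ^ 2 ≤ 4 * (∑ c ∈ nbhd 16 a, aexc (thw K u (n, a)) (u n c) +
        ∑ c ∈ nbhd 16 a, aexc (thw K u (n + 1, up K a)) (u n c)) := by
      unfold Mloc
      rw [Finset.sum_mul, ← Finset.sum_add_distrib, Finset.mul_sum]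
      exact Finset.sum_le_sum fun c _ =>
        norm_mul_sq_le_aexc (norm_thw K u _) (norm_thw K u _) (u n c)
    have h2 := align_aexc_le_Dhat (K := K) (A := 16) (by omega) u n a
    have h3 : ∑ c ∈ nbhd 16 a, aexc (thw K u (n + 1, up K a)) (u n c) ≤
        Dhat K u (n + 1) (up K a) + E := by
      refine (align_sum_le hK1 (by omega) a _
        fun c => aexc_nonneg (norm_thw K u _).le _).trans ?_
      have e : ∑ a' ∈ nbhd 1 (up K a), ∑ c ∈ children K a',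
          aexc (thw K u (n + 1, up K a)) (u n c) =
          ∑ a' ∈ nbhd 1 (up K a), aexc (thw K u (n + 1, up K a)) (u (n + 1) a') + E := by
        rw [hE, ← Finset.sum_add_distrib]
        refine Finset.sum_congr rfl fun a' _ => ?_
        rw [sum_aexc, ← hu]
        unfold Dch aexc; ring
      rw [e]
      have := align_aexc_le_Dhat (K := K) (A := 1) (by omega) u (n + 1) (up K a)
      linarith
    linarith
  -- the deviation
  set p : ℝ := max 0 (alignPhi K u root (n, a) - 1 / 8) with hp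
  set q : ℝ := max 0 (alignPhi K u root (n + 1, up K a) - 1 / 8) with hq
  have hp0 : 0 ≤ p := le_max_left _ _
  have hq0 : 0 ≤ q := le_max_left _ _
  have hq2 : q ≤ 2 := max_le (by norm_num)
    (by have := alignPhi_le K u root (n + 1, up K a); linarith)
  have hpq : p ≤ q + δ := by
    refine max_le (by linarith) ?_
    have h1 : alignPhi K u root (n, a) ≤ δ + alignPhi K u root (n + 1, up K a) := by
      unfold alignPhi
      rw [hr, hδ]
      exact norm_sub_le_norm_sub_add_norm_sub _ _ _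
    have h2 : alignPhi K u root (n + 1, up K a) - 1 / 8 ≤ q := le_max_right _ _
    linarith
  have hp2 : p ^ 2 ≤ 2 * q ^ 2 + 2 * δ ^ 2 := by
    have : p ^ 2 ≤ (q + δ) ^ 2 := pow_le_pow_left₀ hp0 hpq 2
    nlinarith [sq_nonneg (q - δ)]
  have hM0 := align_Mloc_nonneg u (n, a)
  have hq4 : q ^ 2 ≤ 4 := by nlinarith
  have hA : Mloc u (n, a) * q ^ 2 ≤ κ * (Mloc u (n + 1, up K a) * q ^ 2) + 4 * E := by
    have h1 : Mloc u (n, a) * q ^ 2 ≤ κ * (Mloc u (n + 1, up K a) + E) * q ^ 2 :=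
      mul_le_mul_of_nonneg_right hM (sq_nonneg _)
    have h2 : κ * E * q ^ 2 ≤ 1 * E * 4 :=
      mul_le_mul (mul_le_mul_of_nonneg_right hκ1 hE0) hq4 (sq_nonneg _) (by positivity)
    nlinarith
  have hB : Mloc u (n, a) * p ^ 2 ≤ Mloc u (n, a) * (2 * q ^ 2 + 2 * δ ^ 2) :=
    mul_le_mul_of_nonneg_left hp2 hM0
  change Mloc u (n, a) * p ^ 2 ≤ 2 * κ * (Mloc u (n + 1, up K a) * q ^ 2) + 16 * E +
    8 * Dhat K u n a + 8 * Dhat K u (n + 1) (up K a)
  nlinarith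

/-- the recursion in all cases -/
theorem align_rec {K : ℕ} (hK : 1024 ≤ K) (h8 : 8 ∣ K) {u : ℕ → ℤ × ℤ → ℂ}
    (hu : ∀ n a, u (n + 1) a = ∑ c ∈ children K a, u n c) {N : ℕ} {root : Node → Node}
    {fresh : Node → Prop} (hR : Rules K u N root fresh) {n : ℕ} (hn : n < N) (a : ℤ × ℤ) :
    alignY K u root (n, a) ≤ 2 * (C1 / 2 ^ (K / 8)) * alignY K u root (n + 1, up K a) +
      16 * ∑ a' ∈ nbhd 1 (up K a), Dch K u n a' + 8 * Dhat K u n a +
      8 * Dhat K u (n + 1) (up K a) := by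
  have hz : alignPhi K u root (n, a) ≤ 1 / 8 →
      alignY K u root (n, a) ≤ 2 * (C1 / 2 ^ (K / 8)) * alignY K u root (n + 1, up K a) +
      16 * ∑ a' ∈ nbhd 1 (up K a), Dch K u n a' + 8 * Dhat K u n a +
      8 * Dhat K u (n + 1) (up K a) := by
    intro h
    rw [alignY_eq_zero h]
    have h1 : 0 ≤ ∑ a' ∈ nbhd 1 (up K a), Dch K u n a' :=
      Finset.sum_nonneg fun a' _ => align_Dch_nonneg hu n a'
    have h2 := align_Dhat_nonneg K u n a
    have h3 := align_Dhat_nonneg K u (n + 1) (up K a)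
    have h4 := alignY_nonneg K u root (n + 1, up K a)
    have h5 : 0 ≤ C1 / 2 ^ (K / 8) := by unfold C1; positivity
    have h6 := mul_nonneg h5 h4
    linarith
  rcases hR.cases n a hn with ⟨hS, hr, -⟩ | ⟨-, -, hr, -⟩ | ⟨-, ⟨c, -, hS, hc, hr⟩, -⟩ |
    ⟨hL, hr, -⟩
  · refine hz ?_
    unfold alignPhi; rw [hr]
    exact le_trans hS (by norm_num)
  · refine hz ?_
    unfold alignPhi; rw [hr]; simp
  · refine hz ?_
    unfold alignPhi; rw [hr]
    have h1 := norm_sub_le_norm_sub_add_norm_sub (thw K u (n, a)) (thw K u (n, c))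
      (thw K u (root (n + 1, up K c)))
    have h2 : ‖thw K u (n, c) - thw K u (root (n + 1, up K c))‖ ≤ 1 / 16 := hS
    linarith
  · exact align_long hK h8 hu hL hr

theorem align_down (N : ℕ) : ∀ (y B : ℕ → ℝ≥0∞), y N = 0 →
    (∀ n < N, 2 * y n ≤ y (n + 1) + 2 * B n) →
    ∑ n ∈ Finset.range N, y n + y 0 ≤ 2 * ∑ n ∈ Finset.range N, B n := by
  induction N with
  | zero => intro y B h0 _; simp [h0]
  | succ N ih =>
    intro y B h0 h
    have h1 := ih (fun n => y (n + 1)) (fun n => B (n + 1)) h0 fun n hn => h (n + 1) (by omega)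
    have h2 := h 0 (by omega)
    rw [Finset.sum_range_succ', Finset.sum_range_succ', mul_add]
    calc ∑ n ∈ Finset.range N, y (n + 1) + y 0 + y 0
        = ∑ n ∈ Finset.range N, y (n + 1) + 2 * y 0 := by rw [two_mul, add_assoc]
      _ ≤ ∑ n ∈ Finset.range N, y (n + 1) + (y (0 + 1) + 2 * B 0) := add_le_add le_rfl h2
      _ = (∑ n ∈ Finset.range N, y (n + 1) + y (0 + 1)) + 2 * B 0 := by rw [add_assoc]
      _ ≤ _ := add_le_add h1 le_rfl

theorem align_tele {K : ℕ} (hK : 1 ≤ K) {u : ℕ → ℤ × ℤ → ℂ}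
    (hu : ∀ n a, u (n + 1) a = ∑ c ∈ children K a, u n c) (N : ℕ) :
    ∑ n ∈ Finset.range N, ∑' a, ENNReal.ofReal (Dch K u n a) + ∑' a, ‖u N a‖ₑ =
      ∑' a, ‖u 0 a‖ₑ := by
  induction N with
  | zero => simp
  | succ N ih =>
    rw [Finset.sum_range_succ, add_assoc, ← ih]
    congr 1
    rw [← ENNReal.tsum_add, ← tsum_children hK (fun a => ‖u N a‖ₑ)]
    refine tsum_congr fun a => ?_
    rw [← ofReal_norm, ← ENNReal.ofReal_add (align_Dch_nonneg hu N a) (norm_nonneg _)]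
    have e : Dch K u N a + ‖u (N + 1) a‖ = ∑ c ∈ children K a, ‖u N c‖ := by unfold Dch; ring
    rw [e, ENNReal.ofReal_sum_of_nonneg fun c _ => norm_nonneg _]
    exact Finset.sum_congr rfl fun c _ => ofReal_norm _

/-- the recursion summed over a level -/
theorem align_level {K : ℕ} (hK : 1024 ≤ K) (h8 : 8 ∣ K) {u : ℕ → ℤ × ℤ → ℂ}
    (hu : ∀ n a, u (n + 1) a = ∑ c ∈ children K a, u n c) {N : ℕ} {root : Node → Node}
    {fresh : Node → Prop} (hR : Rules K u N root fresh) {n : ℕ} (hn : n < N) :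
    2 * ∑' a, ENNReal.ofReal (alignY K u root (n, a)) ≤
      ∑' a, ENNReal.ofReal (alignY K u root (n + 1, a)) +
      2 * (144 * (K : ℝ≥0∞) ^ 2 * ∑' a, ENNReal.ofReal (Dch K u n a) +
        8 * ∑' a, ENNReal.ofReal (Dhat K u n a) +
        8 * (K : ℝ≥0∞) ^ 2 * ∑' a, ENNReal.ofReal (Dhat K u (n + 1) a)) := by
  have hK1 : 1 ≤ K := by omega
  set κ : ℝ := C1 / 2 ^ (K / 8) with hκ
  have hκ0 : 0 ≤ κ := by rw [hκ]; unfold C1; positivity
  have h1 : ∀ a, ENNReal.ofReal (alignY K u root (n, a)) ≤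
      ENNReal.ofReal (2 * κ) * ENNReal.ofReal (alignY K u root (n + 1, up K a)) +
      16 * ∑ a' ∈ nbhd 1 (up K a), ENNReal.ofReal (Dch K u n a') +
      8 * ENNReal.ofReal (Dhat K u n a) + 8 * ENNReal.ofReal (Dhat K u (n + 1) (up K a)) := by
    intro a
    refine (ENNReal.ofReal_le_ofReal (align_rec hK h8 hu hR hn a)).trans ?_
    refine ENNReal.ofReal_add_le.trans (add_le_add (ENNReal.ofReal_add_le.trans
      (add_le_add (ENNReal.ofReal_add_le.trans (add_le_add ?_ ?_)) ?_)) ?_)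
    · rw [ENNReal.ofReal_mul (by positivity)]
    · rw [ENNReal.ofReal_mul (by norm_num),
        ENNReal.ofReal_sum_of_nonneg fun a' _ => align_Dch_nonneg hu n a']
      simp
    · rw [ENNReal.ofReal_mul (by norm_num)]; simp
    · rw [ENNReal.ofReal_mul (by norm_num)]; simp
  have h2 := ENNReal.tsum_le_tsum h1
  rw [ENNReal.tsum_add, ENNReal.tsum_add, ENNReal.tsum_add, ENNReal.tsum_mul_left,
    ENNReal.tsum_mul_left, ENNReal.tsum_mul_left, ENNReal.tsum_mul_left,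
    tsum_up hK1 (fun a => ENNReal.ofReal (alignY K u root (n + 1, a))),
    tsum_up hK1 (fun a => ∑ a' ∈ nbhd 1 a, ENNReal.ofReal (Dch K u n a')),
    tsum_up hK1 (fun a => ENNReal.ofReal (Dhat K u (n + 1) a)), tsum_nbhd] at h2
  have h3 : 2 * (ENNReal.ofReal (2 * κ) * (K : ℝ≥0∞) ^ 2) ≤ 1 := by
    have h := align_kappa hK h8
    have e : 2 * (ENNReal.ofReal (2 * κ) * (K : ℝ≥0∞) ^ 2) =
        ENNReal.ofReal (2 * (2 * κ * (K : ℝ) ^ 2)) := by
      rw [ENNReal.ofReal_mul (p := 2) (q := 2 * κ * (K : ℝ) ^ 2) (by norm_num),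
        ENNReal.ofReal_mul (p := 2 * κ) (by positivity),
        ENNReal.ofReal_pow (Nat.cast_nonneg K), ENNReal.ofReal_natCast]
      simp
    rw [e, ENNReal.ofReal_le_one]
    linarith
  refine (mul_le_mul_right h2 2).trans ?_
  have e9 : (((2 * 1 + 1 : ℕ) : ℝ≥0∞)) ^ 2 = 9 := by norm_num
  rw [e9]
  generalize ∑' a, ENNReal.ofReal (alignY K u root (n + 1, a)) = y
  generalize ∑' a, ENNReal.ofReal (Dch K u n a) = e
  generalize ∑' a, ENNReal.ofReal (Dhat K u n a) = d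
  generalize ∑' a, ENNReal.ofReal (Dhat K u (n + 1) a) = d'
  calc _ = 2 * (ENNReal.ofReal (2 * κ) * (K : ℝ≥0∞) ^ 2) * y +
        2 * (144 * (K : ℝ≥0∞) ^ 2 * e + 8 * d + 8 * (K : ℝ≥0∞) ^ 2 * d') := by ring
    _ ≤ 1 * y + _ := add_le_add (mul_le_mul_left h3 y) le_rfl
    _ = _ := by rw [one_mul]

theorem align : AlignStmt := by
  intro K hK h8
  have hK1 : 1 ≤ K := by omega
  refine ⟨(K : ℝ≥0) ^ 2 + 256 * (152 * (K : ℝ≥0) ^ 2 + 8 * (K : ℝ≥0) ^ 4), ?_⟩
  intro u N m₀ root fresh hM hR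
  obtain ⟨hu, h0, hD⟩ := hM
  refine ⟨fun P => if alignPhi K u root P ≤ 1 / 4 then thw K u P else thw K u (root P), ?_, ?_⟩
  · intro P
    dsimp only
    split_ifs with h
    · exact ⟨norm_thw K u _, h⟩
    · exact ⟨norm_thw K u _, by simp⟩
  have hcost : ∀ n a, ENNReal.ofReal (∑ c ∈ nbhd 16 a,
      aexc (if alignPhi K u root (n, a) ≤ 1 / 4 then thw K u (n, a) else thw K u (root (n, a)))
        (u n c)) ≤
      ENNReal.ofReal (Dhat K u n a) + 128 * ENNReal.ofReal (alignY K u root (n, a)) := by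
    intro n a
    have e : (128 : ℝ≥0∞) * ENNReal.ofReal (alignY K u root (n, a)) =
        ENNReal.ofReal (128 * alignY K u root (n, a)) := by
      rw [ENNReal.ofReal_mul (by norm_num)]; simp
    split_ifs with h
    · exact (ENNReal.ofReal_le_ofReal
        (align_aexc_le_Dhat (K := K) (A := 16) (by omega) u n a)).trans le_self_add
    · rw [e]
      refine (ENNReal.ofReal_le_ofReal ?_).trans le_add_self
      have h1 : ∑ c ∈ nbhd 16 a, aexc (thw K u (root (n, a))) (u n c) ≤ 2 * Mloc u (n, a) := by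
        unfold Mloc
        rw [Finset.mul_sum]
        exact Finset.sum_le_sum fun c _ => aexc_le (norm_thw K u _).le _
      have h2 : 1 / 8 ≤ max 0 (alignPhi K u root (n, a) - 1 / 8) :=
        le_max_of_le_right (by linarith [not_le.mp h])
      have h3 : (1 / 8 : ℝ) ^ 2 ≤ (max 0 (alignPhi K u root (n, a) - 1 / 8)) ^ 2 :=
        pow_le_pow_left₀ (by norm_num) h2 2
      have h4 := mul_le_mul_of_nonneg_left h3 (align_Mloc_nonneg u (n, a))
      unfold alignY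
      linarith
  have hN : ∑' a, ENNReal.ofReal (alignY K u root (N, a)) = 0 := by
    rw [ENNReal.tsum_eq_zero]
    intro a
    rw [alignY_eq_zero, ENNReal.ofReal_zero]
    unfold alignPhi
    rw [(hR.top a).1]; simp
  have hY := align_down N (fun n => ∑' a, ENNReal.ofReal (alignY K u root (n, a)))
    (fun n => 144 * (K : ℝ≥0∞) ^ 2 * ∑' a, ENNReal.ofReal (Dch K u n a) +
        8 * ∑' a, ENNReal.ofReal (Dhat K u n a) +
        8 * (K : ℝ≥0∞) ^ 2 * ∑' a, ENNReal.ofReal (Dhat K u (n + 1) a)) hN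
    fun n hn => align_level hK h8 hu hR hn
  have hE : ∑ n ∈ Finset.range N, ∑' a, ENNReal.ofReal (Dch K u n a) ≤ m₀ :=
    le_self_add.trans ((align_tele hK1 hu N).le.trans h0)
  have hD1 : ∑ n ∈ Finset.range N, ∑' a, ENNReal.ofReal (Dhat K u n a) ≤
      (K : ℝ≥0∞) ^ 2 * m₀ := by
    rw [Finset.sum_range_succ] at hD
    exact le_self_add.trans hD
  have hD2 : ∑ n ∈ Finset.range N, ∑' a, ENNReal.ofReal (Dhat K u (n + 1) a) ≤
      (K : ℝ≥0∞) ^ 2 * m₀ := by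
    rw [Finset.sum_range_succ'] at hD
    exact le_self_add.trans hD
  rw [Finset.sum_add_distrib, Finset.sum_add_distrib, ← Finset.mul_sum, ← Finset.mul_sum,
    ← Finset.mul_sum] at hY
  have hY2 : ∑ n ∈ Finset.range (N + 1), ∑' a, ENNReal.ofReal (alignY K u root (n, a)) ≤
      2 * (144 * (K : ℝ≥0∞) ^ 2 * m₀ + 8 * ((K : ℝ≥0∞) ^ 2 * m₀) +
        8 * (K : ℝ≥0∞) ^ 2 * ((K : ℝ≥0∞) ^ 2 * m₀)) := by
    rw [Finset.sum_range_succ, hN, add_zero]
    refine le_self_add.trans (hY.trans ?_)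
    gcongr
  calc _ ≤ ∑ n ∈ Finset.range (N + 1), (∑' a, ENNReal.ofReal (Dhat K u n a) +
        128 * ∑' a, ENNReal.ofReal (alignY K u root (n, a))) := by
        refine Finset.sum_le_sum fun n _ => ?_
        rw [← ENNReal.tsum_mul_left, ← ENNReal.tsum_add]
        exact ENNReal.tsum_le_tsum fun a => hcost n a
    _ = ∑ n ∈ Finset.range (N + 1), ∑' a, ENNReal.ofReal (Dhat K u n a) +
        128 * ∑ n ∈ Finset.range (N + 1), ∑' a, ENNReal.ofReal (alignY K u root (n, a)) := by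
        rw [Finset.sum_add_distrib, ← Finset.mul_sum]
    _ ≤ (K : ℝ≥0∞) ^ 2 * m₀ + 128 * (2 * (144 * (K : ℝ≥0∞) ^ 2 * m₀ +
        8 * ((K : ℝ≥0∞) ^ 2 * m₀) + 8 * (K : ℝ≥0∞) ^ 2 * ((K : ℝ≥0∞) ^ 2 * m₀))) := by
        gcongr
    _ = _ := by push_cast; ring

end

end Crest.Agent.R112
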