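import Crest.Agent.R112.Basic

/-! Row 112: approximation of a `W^{1,1}` function by `C¹` functions of compact support. -/

set_option autoImplicit false

namespace Crest.Agent.R112

open MeasureTheory Set Metric Filter Topology ContinuousLinearMap
open scoped ENNReal NNReal Convolution

noncomputable section

/-- Riesz–Scheffé. -/
theorem ap1_scheffe {E : Type} [NormedAddCommGroup E] {u : ℂ → E} {us : ℕ → ℂ → E}
    (hu : Integrable u) (hs : ∀ n, Integrable (us n))
    (hle : ∀ n, ∫ y, ‖us n y‖ ≤ ∫ y, ‖u y‖)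
    (hae : ∀ᵐ y, Tendsto (fun n => us n y) atTop (𝓝 (u y))) :
    Tendsto (fun n => ∫ y, ‖us n y - u y‖) atTop (𝓝 0) := by
  have h1 : Tendsto (fun n => ∫ y, (‖us n y - u y‖ - ‖us n y‖)) atTop (𝓝 (∫ y, -‖u y‖)) := by
    refine tendsto_integral_of_dominated_convergence (fun y => ‖u y‖)
      (fun n => (((hs n).sub hu).norm.sub (hs n).norm).aestronglyMeasurable) hu.norm
      (fun n => Eventually.of_forall fun y => ?_) ?_
    · have := abs_norm_sub_norm_le (us n y - u y) (us n y)
      rwa [sub_sub_cancel_left, norm_neg] at this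
    · filter_upwards [hae] with y hy
      simpa using (hy.sub_const (u y)).norm.sub hy.norm
  have h2 := h1.add_const (∫ y, ‖u y‖)
  rw [integral_neg, neg_add_cancel] at h2
  refine squeeze_zero (fun n => integral_nonneg fun _ => norm_nonneg _) (fun n => ?_) h2
  have i1 : Integrable (fun y => ‖us n y - u y‖) := ((hs n).sub hu).norm
  rw [integral_sub i1 (hs n).norm]
  linarith [hle n]

theorem ap1_conv_le {E : Type} [NormedAddCommGroup E] [NormedSpace ℝ E] (φ : ContDiffBump (0 : ℂ))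
    {u : ℂ → E} (hu : Integrable u) :
    ∫ y, ‖(φ.normed volume ⋆[lsmul ℝ ℝ, volume] u) y‖ ≤ ∫ y, ‖u y‖ := by
  have h1 := integral_convolution (lsmul ℝ ℝ) (φ.integrable_normed (μ := volume)) hu.norm
  rw [φ.integral_normed, lsmul_apply, one_smul] at h1
  rw [← h1]
  refine integral_mono_of_nonneg (Eventually.of_forall fun _ => norm_nonneg _)
    (φ.integrable_normed.integrable_convolution _ hu.norm) (Eventually.of_forall fun y => ?_)
  simp only [convolution_lsmul]
  refine (norm_integral_le_integral_norm _).trans (le_of_eq ?_)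
  refine integral_congr_ae (Eventually.of_forall fun t => ?_)
  simp only
  rw [norm_smul, Real.norm_of_nonneg (φ.nonneg_normed t), smul_eq_mul]

/-- the mollifiers -/
def ap1φ (n : ℕ) : ContDiffBump (0 : ℂ) :=
  ⟨1 / ((n : ℝ) + 1) / 2, 1 / ((n : ℝ) + 1), by positivity, half_lt_self (by positivity)⟩

/-- the basic cutoff -/
def ap1χ0 : ContDiffBump (0 : ℂ) := ⟨1, 2, one_pos, one_lt_two⟩

/-- the cutoffs -/
def ap1χ (n : ℕ) (y : ℂ) : ℝ := ap1χ0 ((1 / ((n : ℝ) + 1)) • y)

theorem ap1χ_contDiff (n : ℕ) : ContDiff ℝ 1 (ap1χ n) :=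
  (ap1χ0.contDiff (n := 1)).comp (contDiff_id.const_smul _)

theorem ap1χ_supp (n : ℕ) : HasCompactSupport (ap1χ n) :=
  ap1χ0.hasCompactSupport.comp_smul (c := 1 / ((n : ℝ) + 1)) (by positivity)

theorem ap1χ_le (n : ℕ) (y : ℂ) : ‖ap1χ n y‖ ≤ 1 := by
  unfold ap1χ
  rw [Real.norm_of_nonneg ap1χ0.nonneg]
  exact ap1χ0.le_one

theorem ap1χ_tendsto (y : ℂ) : Tendsto (fun n => ap1χ n y) atTop (𝓝 1) := by
  have h := (tendsto_one_div_add_atTop_nhds_zero_nat (𝕜 := ℝ)).smul_const y
  rw [zero_smul] at h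
  have h1 : ap1χ0 0 = 1 := ap1χ0.one_of_mem_closedBall (mem_closedBall_self ap1χ0.rIn_pos.le)
  rw [← h1]
  exact (ap1χ0.continuous.tendsto 0).comp h

theorem ap1χ_grad : ∃ L : ℝ, 0 ≤ L ∧ ∀ (n : ℕ) (y : ℂ),
    ‖grad (ap1χ n) y‖ ≤ L * (1 / ((n : ℝ) + 1)) := by
  obtain ⟨L, hL, h⟩ := C1c.exists_bound ⟨ap1χ0.contDiff (n := 1), ap1χ0.hasCompactSupport⟩
  refine ⟨L, hL, fun n y => ?_⟩
  have hd := (((ap1χ0.contDiff (n := 1)).differentiable one_ne_zero)
    ((1 / ((n : ℝ) + 1)) • y)).hasFDerivAt.comp y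
      ((hasFDerivAt_id y).const_smul (1 / ((n : ℝ) + 1)))
  have e : fderiv ℝ (ap1χ n) y = _ := hd.fderiv
  rw [norm_grad_eq, e]
  refine (opNorm_comp_le _ _).trans (mul_le_mul ?_ ?_ (norm_nonneg _) hL)
  · rw [← norm_grad_eq]; exact h _
  · rw [norm_smul, norm_id, mul_one, Real.norm_of_nonneg (by positivity)]

theorem ap1_int {E : Type} [NormedAddCommGroup E] [NormedSpace ℝ E] {u : ℂ → E}
    (hu : Integrable u) (n : ℕ) :
    Integrable fun y => ap1χ n y • ((ap1φ n).normed volume ⋆[lsmul ℝ ℝ, volume] u) y := by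
  have h1 := (ap1φ n).integrable_normed.integrable_convolution (lsmul ℝ ℝ) hu
  refine h1.norm.mono' ((ap1χ_contDiff n).continuous.aestronglyMeasurable.smul h1.1)
    (Eventually.of_forall fun y => ?_)
  rw [norm_smul]
  exact mul_le_of_le_one_left (norm_nonneg _) (ap1χ_le n y)

theorem ap1_tendsto {E : Type} [NormedAddCommGroup E] [NormedSpace ℝ E] [CompleteSpace E]
    {u : ℂ → E} (hu : Integrable u) : Tendsto (fun n => ∫ y,
      ‖ap1χ n y • ((ap1φ n).normed volume ⋆[lsmul ℝ ℝ, volume] u) y - u y‖) atTop (𝓝 0) := by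
  refine ap1_scheffe hu (ap1_int hu) (fun n => ?_) ?_
  · refine (integral_mono (ap1_int hu n).norm
      ((ap1φ n).integrable_normed.integrable_convolution (lsmul ℝ ℝ) hu).norm fun y => ?_).trans
      (ap1_conv_le _ hu)
    simp only
    rw [norm_smul]
    exact mul_le_of_le_one_left (norm_nonneg _) (ap1χ_le n y)
  · have h := ContDiffBump.ae_convolution_tendsto_right_of_locallyIntegrable (φ := ap1φ)
      (l := atTop) (K := 2) (μ := volume) (tendsto_one_div_add_atTop_nhds_zero_nat (𝕜 := ℝ))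
      (Eventually.of_forall fun n => le_of_eq (by simp only [ap1φ]; ring)) hu.locallyIntegrable
    filter_upwards [h] with y hy
    simpa using (ap1χ_tendsto y).smul hy

theorem ap1_grad_conv {f : ℂ → ℝ} {g : ℂ → ℂ} (hw : WG f g) (φ : ContDiffBump (0 : ℂ)) (x : ℂ) :
    grad (φ.normed volume ⋆[lsmul ℝ ℝ, volume] f) x =
      (φ.normed volume ⋆[lsmul ℝ ℝ, volume] g) x := by
  set p : ℂ → ℝ := φ.normed volume with hp
  have hs : HasCompactSupport p := φ.hasCompactSupport_normed
  have h1 : ContDiff ℝ 1 p := φ.contDiff_normed (n := 1)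
  have key : ∀ v : ℂ, fderiv ℝ (p ⋆[lsmul ℝ ℝ, volume] f) x v =
      ∫ t, dot (g t) v * p (x - t) := by
    intro v
    rw [← convolution_flip, (hs.hasFDerivAt_convolution_right _ hw.1 h1 x).fderiv,
      convolution_precompR_apply _ hw.1 (hs.fderiv ℝ) (h1.continuous_fderiv one_ne_zero),
      convolution_def]
    have h2 := hw.2.2 (fun t => p (x - t))
      ((φ.contDiff_normed (n := ⊤)).comp (contDiff_const.sub contDiff_id))
      (hs.comp_homeomorph (Homeomorph.subLeft x)) v
    have h3 : ∀ t, fderiv ℝ (fun t => p (x - t)) t v = -fderiv ℝ p (x - t) v := by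
      intro t
      have hd := (h1.differentiable one_ne_zero (x - t)).hasFDerivAt.comp t
        ((hasFDerivAt_id t).const_sub x)
      have e : fderiv ℝ (fun t => p (x - t)) t = _ := hd.fderiv
      rw [e]
      simp
    simp only [h3, mul_neg, integral_neg, neg_inj] at h2
    rw [← h2]
    refine integral_congr_ae (Eventually.of_forall fun t => ?_)
    simp [mul_comm]
  have hi : Integrable fun t => p (x - t) • g t :=
    (hs.convolutionExists_left (lsmul ℝ ℝ) h1.continuous hw.2.1 x).integrable_swap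
  rw [convolution_lsmul_swap]
  apply Complex.ext
  · show fderiv ℝ _ x 1 = _
    rw [key, ← Complex.reCLM_apply, ← Complex.reCLM.integral_comp_comm hi]
    refine integral_congr_ae (Eventually.of_forall fun t => ?_)
    simp [dot, mul_comm]
  · show fderiv ℝ _ x Complex.I = _
    rw [key, ← Complex.imCLM_apply, ← Complex.imCLM.integral_comp_comm hi]
    refine integral_congr_ae (Eventually.of_forall fun t => ?_)
    simp [dot, mul_comm]

theorem ap1_grad_mul {a b : ℂ → ℝ} (ha : ContDiff ℝ 1 a) (hb : ContDiff ℝ 1 b) (y : ℂ) :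
    grad (fun y => a y • b y) y = a y • grad b y + b y • grad a y := by
  have e : fderiv ℝ (fun y => a y • b y) y = _ :=
    ((ha.differentiable one_ne_zero y).hasFDerivAt.mul
      (hb.differentiable one_ne_zero y).hasFDerivAt).fderiv
  apply Complex.ext <;> simp [grad, -smul_eq_mul, e] <;> simp

theorem ap1_enorm {E : Type} [NormedAddCommGroup E] {w : ℕ → ℂ → E} (hi : ∀ n, Integrable (w n))
    (h : Tendsto (fun n => ∫ y, ‖w n y‖) atTop (𝓝 0)) :
    Tendsto (fun n => ∫⁻ y, ‖w n y‖ₑ) atTop (𝓝 0) := by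
  simp only [← ofReal_integral_norm_eq_lintegral_enorm (hi _)]
  simpa using ENNReal.tendsto_ofReal h

theorem ap1 : Ap1Stmt := by
  intro f g hf hg hw
  set F : ℕ → ℂ → ℝ := fun n => (ap1φ n).normed volume ⋆[lsmul ℝ ℝ, volume] f with hF
  have hF1 : ∀ n, ContDiff ℝ 1 (F n) := fun n =>
    (ap1φ n).hasCompactSupport_normed.contDiff_convolution_left _
      ((ap1φ n).contDiff_normed (n := 1)) hw.1
  have hc : ∀ n, C1c fun y => ap1χ n y • F n y := fun n =>
    ⟨(ap1χ_contDiff n).smul (hF1 n), (ap1χ_supp n).smul_right⟩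
  refine ⟨fun n y => ap1χ n y • F n y, hc,
    ap1_enorm (fun n => (hc n).integrable.sub hf) (ap1_tendsto hf),
    ap1_enorm (fun n => (hc n).integrable_grad.sub hg) ?_⟩
  obtain ⟨L, hL, hχ⟩ := ap1χ_grad
  have h1 := (ap1_tendsto hg).add (((tendsto_one_div_add_atTop_nhds_zero_nat (𝕜 := ℝ)).const_mul
    L).mul_const (∫ y, ‖f y‖))
  rw [mul_zero, zero_mul, add_zero] at h1
  refine squeeze_zero (fun n => integral_nonneg fun _ => norm_nonneg _) (fun n => ?_) h1
  have iF : Integrable (F n) := (ap1φ n).integrable_normed.integrable_convolution _ hf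
  have i1 : Integrable fun y =>
      ‖ap1χ n y • ((ap1φ n).normed volume ⋆[lsmul ℝ ℝ, volume] g) y - g y‖ :=
    ((ap1_int hg n).sub hg).norm
  have i2 := iF.norm.const_mul (L * (1 / ((n : ℝ) + 1)))
  refine (integral_mono ((hc n).integrable_grad.sub hg).norm (i1.add i2) fun y => ?_).trans ?_
  · simp only [Pi.add_apply, Pi.sub_apply]
    rw [ap1_grad_mul (ap1χ_contDiff n) (hF1 n), ap1_grad_conv hw, add_sub_right_comm]
    refine (norm_add_le _ _).trans (add_le_add le_rfl ?_)
    rw [norm_smul, mul_comm]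
    exact mul_le_mul_of_nonneg_right (hχ n y) (norm_nonneg _)
  · rw [integral_add' i1 i2, integral_const_mul]
    exact add_le_add le_rfl (mul_le_mul_of_nonneg_left (ap1_conv_le _ hf) (by positivity))

end

end Crest.Agent.R112
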