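import Crest.Agent.R112.Basic

/-!
# Row 112: approximation of `|f|` by non-negative `C¹` functions with compact support
-/

set_option autoImplicit false

namespace Crest.Agent.R112

open MeasureTheory Set Metric Filter Topology
open scoped ENNReal NNReal Classical

noncomputable section

def ap2_q (ε t : ℝ) : ℝ := √(t ^ 2 + ε ^ 2)

def ap2_Φ (ε t : ℝ) : ℝ := ap2_q ε t - ε

def ap2_ψ (ε t : ℝ) : ℝ := t / ap2_q ε t

def ap2_sg (t : ℝ) : ℝ := if 0 < t then 1 else if t < 0 then -1 else 0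

theorem ap2_q_ge_eps {ε : ℝ} (hε : 0 < ε) (t : ℝ) : ε ≤ ap2_q ε t :=
  Real.le_sqrt_of_sq_le (by nlinarith [sq_nonneg t])

theorem ap2_q_pos {ε : ℝ} (hε : 0 < ε) (t : ℝ) : 0 < ap2_q ε t := hε.trans_le (ap2_q_ge_eps hε t)

theorem ap2_q_ge_abs (ε t : ℝ) : |t| ≤ ap2_q ε t :=
  Real.le_sqrt_of_sq_le (by rw [sq_abs]; nlinarith [sq_nonneg ε])

theorem ap2_q_le {ε : ℝ} (hε : 0 < ε) (t : ℝ) : ap2_q ε t ≤ |t| + ε := by
  refine Real.sqrt_le_iff.2 ⟨by positivity, ?_⟩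
  have := abs_nonneg t
  rw [← sq_abs t]
  nlinarith

theorem ap2_q_lip (ε s t : ℝ) : |ap2_q ε s - ap2_q ε t| ≤ |s - t| := by
  have e : ∀ t : ℝ, ap2_q ε t = ‖(⟨t, ε⟩ : ℂ)‖ := fun t => by
    rw [Complex.norm_eq_sqrt_sq_add_sq]; rfl
  rw [e, e]
  refine (abs_norm_sub_norm_le _ _).trans (le_of_eq ?_)
  have : (⟨s, ε⟩ : ℂ) - ⟨t, ε⟩ = ((s - t : ℝ) : ℂ) := by
    apply Complex.ext <;> simp
  rw [this, Complex.norm_real, Real.norm_eq_abs]

theorem ap2_Φ_nonneg {ε : ℝ} (hε : 0 < ε) (t : ℝ) : 0 ≤ ap2_Φ ε t :=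
  sub_nonneg.2 (ap2_q_ge_eps hε t)

theorem ap2_Φ_zero {ε : ℝ} (hε : 0 < ε) : ap2_Φ ε 0 = 0 := by
  unfold ap2_Φ ap2_q
  rw [show (0 : ℝ) ^ 2 + ε ^ 2 = ε ^ 2 by ring, Real.sqrt_sq hε.le, sub_self]

theorem ap2_Φ_lip (ε s t : ℝ) : |ap2_Φ ε s - ap2_Φ ε t| ≤ |s - t| := by
  unfold ap2_Φ
  rw [show ap2_q ε s - ε - (ap2_q ε t - ε) = ap2_q ε s - ap2_q ε t by ring]
  exact ap2_q_lip ε s t

theorem ap2_Φ_err {ε : ℝ} (hε : 0 < ε) (t : ℝ) :
    |ap2_Φ ε t - abs t| ≤ |t| ∧ |ap2_Φ ε t - abs t| ≤ ε := by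
  have h1 := ap2_Φ_nonneg hε t
  have h2 := ap2_q_le hε t
  have h3 := ap2_q_ge_abs ε t
  have h4 := abs_nonneg t
  unfold ap2_Φ at h1 ⊢
  constructor <;> rw [abs_le] <;> constructor <;> linarith

theorem ap2_ψ_le {ε : ℝ} (hε : 0 < ε) (t : ℝ) : |ap2_ψ ε t| ≤ 1 := by
  unfold ap2_ψ
  rw [abs_div, abs_of_pos (ap2_q_pos hε t), div_le_one (ap2_q_pos hε t)]
  exact ap2_q_ge_abs ε t

theorem ap2_ψ_lip {ε : ℝ} (hε : 0 < ε) (s t : ℝ) :
    |ap2_ψ ε s - ap2_ψ ε t| ≤ 2 / ε * |s - t| := by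
  have ha := ap2_q_pos hε s
  have hb := ap2_q_pos hε t
  have e : ap2_ψ ε s - ap2_ψ ε t =
      ((s - t) - ap2_ψ ε t * (ap2_q ε s - ap2_q ε t)) / ap2_q ε s := by
    unfold ap2_ψ
    field_simp
    ring
  rw [e, abs_div, abs_of_pos ha]
  have h1 : |(s - t) - ap2_ψ ε t * (ap2_q ε s - ap2_q ε t)| ≤ 2 * |s - t| := by
    refine (abs_sub _ _).trans ?_
    rw [abs_mul]
    have := mul_le_mul (ap2_ψ_le hε t) (ap2_q_lip ε s t) (abs_nonneg _) zero_le_one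
    linarith
  calc _ ≤ 2 * |s - t| / ε :=
        div_le_div₀ (by positivity) h1 hε (ap2_q_ge_eps hε s)
    _ = _ := by ring

theorem ap2_sg_le (t : ℝ) : |ap2_sg t| ≤ 1 := by
  unfold ap2_sg
  split_ifs <;> simp

theorem ap2_sg_eq (t : ℝ) : ap2_sg t = t / |t| := by
  unfold ap2_sg
  split_ifs with h1 h2
  · rw [abs_of_pos h1, div_self h1.ne']
  · rw [abs_of_neg h2, div_neg, div_self h2.ne]
  · have : t = 0 := le_antisymm (not_lt.1 h1) (not_lt.1 h2)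
    simp [this]

theorem ap2_measurable_sg : Measurable ap2_sg := by
  have : ap2_sg = fun t => t / |t| := funext ap2_sg_eq
  rw [this]
  exact measurable_id.div continuous_abs.measurable

theorem ap2_continuous_q (ε : ℝ) : Continuous (ap2_q ε) := by
  unfold ap2_q; fun_prop

theorem ap2_ψ_tendsto {ε : ℕ → ℝ} (hε : Tendsto ε atTop (𝓝 0)) (t : ℝ) :
    Tendsto (fun k => ap2_ψ (ε k) t) atTop (𝓝 (ap2_sg t)) := by
  rcases eq_or_ne t 0 with rfl | ht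
  · simp [ap2_ψ, ap2_sg]
  · rw [ap2_sg_eq]
    unfold ap2_ψ
    refine tendsto_const_nhds.div ?_ (abs_ne_zero.2 ht)
    have hc : Continuous (fun e : ℝ => ap2_q e t) := by unfold ap2_q; fun_prop
    have := (hc.tendsto 0).comp hε
    have e : ap2_q 0 t = |t| := by
      unfold ap2_q
      rw [show t ^ 2 + (0 : ℝ) ^ 2 = t ^ 2 by ring, Real.sqrt_sq_eq_abs]
    rwa [e] at this

theorem ap2_hasDerivAt {ε : ℝ} (hε : 0 < ε) (t : ℝ) : HasDerivAt (ap2_Φ ε) (ap2_ψ ε t) t := by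
  have h1 : HasDerivAt (fun t : ℝ => t ^ 2 + ε ^ 2) (2 * t) t := by
    simpa using (hasDerivAt_pow 2 t).add_const (ε ^ 2)
  have h2 := (h1.sqrt (by positivity)).sub_const ε
  have e : ap2_ψ ε t = 2 * t / (2 * √(t ^ 2 + ε ^ 2)) := by
    unfold ap2_ψ ap2_q
    rw [mul_div_mul_left _ _ two_ne_zero]
  rw [e]
  exact h2

theorem ap2_contDiff {ε : ℝ} (hε : 0 < ε) : ContDiff ℝ 1 (ap2_Φ ε) := by
  unfold ap2_Φ ap2_q
  refine ContDiff.sub (ContDiff.sqrt (by fun_prop) (fun t => by positivity)) contDiff_const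

theorem ap2_C1c {ε : ℝ} (hε : 0 < ε) {b : ℂ → ℝ} (hb : C1c b) : C1c (fun y => ap2_Φ ε (b y)) :=
  ⟨(ap2_contDiff hε).comp hb.1, hb.2.comp_left (g := ap2_Φ ε) (ap2_Φ_zero hε)⟩

theorem ap2_grad {ε : ℝ} (hε : 0 < ε) {b : ℂ → ℝ} (hb : C1c b) (y : ℂ) :
    grad (fun y => ap2_Φ ε (b y)) y = ap2_ψ ε (b y) • grad b y := by
  have hd : HasFDerivAt b (fderiv ℝ b y) y :=
    (hb.1.differentiable (by simp)).differentiableAt.hasFDerivAt
  have := ((ap2_hasDerivAt hε (b y)).comp_hasFDerivAt y hd).fderiv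
  have e : fderiv ℝ (fun y => ap2_Φ ε (b y)) y = ap2_ψ ε (b y) • fderiv ℝ b y := this
  unfold grad
  rw [e]
  apply Complex.ext <;> simp

theorem ap2_lint_le {E : Type} [NormedAddCommGroup E] {F : ℂ → E} {G : ℂ → ℝ} (hG : Integrable G)
    (h : ∀ y, ‖F y‖ ≤ G y) : ∫⁻ y, ‖F y‖ₑ ≤ ENNReal.ofReal (∫ y, G y) := by
  rw [ofReal_integral_eq_lintegral_ofReal hG
    (Eventually.of_forall fun y => (norm_nonneg _).trans (h y))]
  refine lintegral_mono fun y => ?_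
  rw [← ofReal_norm]
  exact ENNReal.ofReal_le_ofReal (h y)

/-- the error term which does not depend on the approximating sequence -/
def ap2_E (f : ℂ → ℝ) (g : ℂ → ℂ) (k : ℕ) (y : ℂ) : ℝ :=
  |ap2_Φ (1 / ((k : ℝ) + 1)) (f y) - abs (f y)| +
    |ap2_ψ (1 / ((k : ℝ) + 1)) (f y) - ap2_sg (f y)| * ‖g y‖ + 2 * max (‖g y‖ - k) 0

theorem ap2_E_meas {f : ℂ → ℝ} {g : ℂ → ℂ} (hf : Integrable f) (hg : Integrable g) (k : ℕ) :
    AEStronglyMeasurable (ap2_E f g k) volume := by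
  have mf : AEMeasurable f volume := hf.aemeasurable
  have mg : AEMeasurable (fun y => ‖g y‖) volume := hg.norm.aemeasurable
  have mq : AEMeasurable (fun y => ap2_q (1 / ((k : ℝ) + 1)) (f y)) volume :=
    (ap2_continuous_q _).measurable.comp_aemeasurable mf
  have ms : AEMeasurable (fun y => ap2_sg (f y)) volume := ap2_measurable_sg.comp_aemeasurable mf
  have ma : ∀ {u : ℂ → ℝ}, AEMeasurable u volume → AEMeasurable (fun y => |u y|) volume :=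
    fun hu => continuous_abs.measurable.comp_aemeasurable hu
  refine AEMeasurable.aestronglyMeasurable ?_
  unfold ap2_E ap2_Φ ap2_ψ
  exact ((ma ((mq.sub_const _).sub (ma mf))).add ((ma ((mf.div mq).sub ms)).mul mg)).add
    (((mg.sub_const _).max aemeasurable_const).const_mul 2)

theorem ap2_E_bound (f : ℂ → ℝ) (g : ℂ → ℂ) (k : ℕ) (y : ℂ) :
    ‖ap2_E f g k y‖ ≤ ‖f y‖ + 4 * ‖g y‖ := by
  have hε : (0 : ℝ) < 1 / ((k : ℝ) + 1) := by positivity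
  have h1 := (ap2_Φ_err hε (f y)).1
  have h2 : |ap2_ψ (1 / ((k : ℝ) + 1)) (f y) - ap2_sg (f y)| ≤ 2 := by
    have := abs_sub (ap2_ψ (1 / ((k : ℝ) + 1)) (f y)) (ap2_sg (f y))
    linarith [ap2_ψ_le hε (f y), ap2_sg_le (f y)]
  have h3 : max (‖g y‖ - k) 0 ≤ ‖g y‖ :=
    max_le (by linarith [Nat.cast_nonneg (α := ℝ) k]) (norm_nonneg _)
  have h4 := mul_le_mul_of_nonneg_right h2 (norm_nonneg (g y))
  have h5 : 0 ≤ max (‖g y‖ - k) 0 := le_max_right _ _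
  unfold ap2_E
  rw [Real.norm_of_nonneg (by positivity), Real.norm_eq_abs]
  linarith

theorem ap2_E_int {f : ℂ → ℝ} {g : ℂ → ℂ} (hf : Integrable f) (hg : Integrable g) (k : ℕ) :
    Integrable (ap2_E f g k) :=
  Integrable.mono' (hf.norm.add (hg.norm.const_mul 4)) (ap2_E_meas hf hg k)
    (Eventually.of_forall (ap2_E_bound f g k))

theorem ap2_E_tendsto {f : ℂ → ℝ} {g : ℂ → ℂ} (hf : Integrable f) (hg : Integrable g) :
    Tendsto (fun k => ∫ y, ap2_E f g k y) atTop (𝓝 0) := by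
  have := tendsto_integral_of_dominated_convergence (F := ap2_E f g) (f := fun _ => (0 : ℝ))
    (fun y => ‖f y‖ + 4 * ‖g y‖) (ap2_E_meas hf hg) (hf.norm.add (hg.norm.const_mul 4))
    (fun k => Eventually.of_forall (ap2_E_bound f g k)) (Eventually.of_forall fun y => ?_)
  · simpa using this
  have t0 : Tendsto (fun k : ℕ => 1 / ((k : ℝ) + 1)) atTop (𝓝 0) :=
    tendsto_one_div_add_atTop_nhds_zero_nat
  have t1 : Tendsto (fun k : ℕ => |ap2_Φ (1 / ((k : ℝ) + 1)) (f y) - abs (f y)|) atTop (𝓝 0) :=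
    squeeze_zero (fun _ => abs_nonneg _) (fun k => (ap2_Φ_err (by positivity) (f y)).2) t0
  have t2 : Tendsto (fun k : ℕ => |ap2_ψ (1 / ((k : ℝ) + 1)) (f y) - ap2_sg (f y)| * ‖g y‖)
      atTop (𝓝 0) := by
    have := (((ap2_ψ_tendsto t0 (f y)).sub_const (ap2_sg (f y))).abs).mul_const ‖g y‖
    simpa using this
  have t3 : Tendsto (fun k : ℕ => 2 * max (‖g y‖ - k) 0) atTop (𝓝 0) := by
    refine tendsto_const_nhds.congr' ?_
    filter_upwards [tendsto_natCast_atTop_atTop.eventually_ge_atTop ‖g y‖] with k hk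
    rw [max_eq_right (by linarith), mul_zero]
  have := (t1.add t2).add t3
  simpa [ap2_E] using this

theorem ap2_point (f : ℂ → ℝ) (g : ℂ → ℂ) (k : ℕ) (y : ℂ) (s : ℝ) (v : ℂ) :
    ‖ap2_ψ (1 / ((k : ℝ) + 1)) s • v - ap2_sg (f y) • g y‖ ≤
      ‖v - g y‖ + (1 + 2 * (k + 1) * k) * ‖s - f y‖ + ap2_E f g k y := by
  have hε : (0 : ℝ) < 1 / ((k : ℝ) + 1) := by positivity
  set ε : ℝ := 1 / ((k : ℝ) + 1) with hεdef
  have e : ap2_ψ ε s • v - ap2_sg (f y) • g y = ap2_ψ ε s • (v - g y) +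
      (ap2_ψ ε s - ap2_ψ ε (f y)) • g y + (ap2_ψ ε (f y) - ap2_sg (f y)) • g y := by
    simp only [smul_sub, sub_smul]; abel
  have h1 : ‖ap2_ψ ε s • (v - g y)‖ ≤ ‖v - g y‖ := by
    rw [norm_smul, Real.norm_eq_abs]
    exact mul_le_of_le_one_left (norm_nonneg _) (ap2_ψ_le hε s)
  have h2 : ‖(ap2_ψ ε s - ap2_ψ ε (f y)) • g y‖ ≤
      2 * (k + 1) * k * ‖s - f y‖ + 2 * max (‖g y‖ - k) 0 := by
    rw [norm_smul, Real.norm_eq_abs, Real.norm_eq_abs]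
    have a1 := ap2_ψ_lip hε s (f y)
    have a2 : 2 / ε = 2 * ((k : ℝ) + 1) := by rw [hεdef]; field_simp
    rw [a2] at a1
    have a3 : |ap2_ψ ε s - ap2_ψ ε (f y)| ≤ 2 := by
      have := abs_sub (ap2_ψ ε s) (ap2_ψ ε (f y))
      linarith [ap2_ψ_le hε s, ap2_ψ_le hε (f y)]
    have a4 : ‖g y‖ ≤ k + max (‖g y‖ - k) 0 := by linarith [le_max_left (‖g y‖ - k) 0]
    have a5 : 0 ≤ max (‖g y‖ - k) 0 := le_max_right _ _
    have a6 := mul_le_mul_of_nonneg_left a4 (abs_nonneg (ap2_ψ ε s - ap2_ψ ε (f y)))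
    have a7 := mul_le_mul_of_nonneg_right a1 (Nat.cast_nonneg (α := ℝ) k)
    have a8 := mul_le_mul_of_nonneg_right a3 a5
    nlinarith
  have h3 : ‖(ap2_ψ ε (f y) - ap2_sg (f y)) • g y‖ = |ap2_ψ ε (f y) - ap2_sg (f y)| * ‖g y‖ := by
    rw [norm_smul, Real.norm_eq_abs]
  rw [e]
  refine norm_add₃_le.trans ?_
  unfold ap2_E
  rw [← hεdef]
  have := abs_nonneg (ap2_Φ ε (f y) - abs (f y))
  have := norm_nonneg (s - f y)
  linarith

theorem ap2_point' (f : ℂ → ℝ) (g : ℂ → ℂ) (k : ℕ) (y : ℂ) (s : ℝ) (v : ℂ) :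
    ‖ap2_Φ (1 / ((k : ℝ) + 1)) s - abs (f y)‖ ≤
      ‖v - g y‖ + (1 + 2 * (k + 1) * k) * ‖s - f y‖ + ap2_E f g k y := by
  have h1 := ap2_Φ_lip (1 / ((k : ℝ) + 1)) s (f y)
  have h2 := abs_sub_le (ap2_Φ (1 / ((k : ℝ) + 1)) s) (ap2_Φ (1 / ((k : ℝ) + 1)) (f y)) (abs (f y))
  have h3 : 0 ≤ 2 * ((k : ℝ) + 1) * k * |s - f y| := by positivity
  have h4 : 0 ≤ |ap2_ψ (1 / ((k : ℝ) + 1)) (f y) - ap2_sg (f y)| * ‖g y‖ := by positivity
  have h5 : 0 ≤ max (‖g y‖ - k) 0 := le_max_right _ _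
  have h6 := norm_nonneg (v - g y)
  unfold ap2_E
  rw [Real.norm_eq_abs, Real.norm_eq_abs]
  linarith

theorem ap2 : Ap2Stmt := by
  rintro f g hf hg ⟨hs, hC, t1, t2⟩
  have hle : ∀ y, ‖ap2_sg (f y) • g y‖ ≤ ‖g y‖ := fun y => by
    rw [norm_smul, Real.norm_eq_abs]
    exact mul_le_of_le_one_left (norm_nonneg _) (ap2_sg_le _)
  refine ⟨fun y => ap2_sg (f y) • g y, ?_, hle, ?_⟩
  · refine Integrable.mono' hg.norm ?_ (Eventually.of_forall hle)
    exact (ap2_measurable_sg.comp_aemeasurable hf.aemeasurable).aestronglyMeasurable.smul hg.1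
  have i1 : ∀ n, Integrable (fun y => hs n y - f y) := fun n => (hC n).integrable.sub hf
  have i2 : ∀ n, Integrable (fun y => grad (hs n) y - g y) :=
    fun n => (hC n).integrable_grad.sub hg
  have r1 : Tendsto (fun n => ∫ y, ‖hs n y - f y‖) atTop (𝓝 0) := by
    have := (ENNReal.tendsto_toReal ENNReal.zero_ne_top).comp t1
    rw [ENNReal.toReal_zero] at this
    refine this.congr fun n => ?_
    exact (integral_norm_eq_lintegral_enorm (i1 n).1).symm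
  have r2 : Tendsto (fun n => ∫ y, ‖grad (hs n) y - g y‖) atTop (𝓝 0) := by
    have := (ENNReal.tendsto_toReal ENNReal.zero_ne_top).comp t2
    rw [ENNReal.toReal_zero] at this
    refine this.congr fun n => ?_
    exact (integral_norm_eq_lintegral_enorm (i2 n).1).symm
  have hch : ∀ k : ℕ, ∃ n, (∫ y, ‖grad (hs n) y - g y‖) +
      (1 + 2 * ((k : ℝ) + 1) * k) * (∫ y, ‖hs n y - f y‖) < 1 / ((k : ℝ) + 1) := by
    intro k
    have := r2.add (r1.const_mul (1 + 2 * ((k : ℝ) + 1) * k))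
    rw [mul_zero, add_zero] at this
    exact (this.eventually (gt_mem_nhds (by positivity))).exists
  choose n hn using hch
  have iG : ∀ k : ℕ, Integrable (fun y => ‖grad (hs (n k)) y - g y‖ +
      (1 + 2 * ((k : ℝ) + 1) * k) * ‖hs (n k) y - f y‖ + ap2_E f g k y) :=
    fun k => ((i2 _).norm.add ((i1 _).norm.const_mul _)).add (ap2_E_int hf hg k)
  have tG : Tendsto (fun k : ℕ => ENNReal.ofReal (1 / ((k : ℝ) + 1) + ∫ y, ap2_E f g k y))
      atTop (𝓝 0) := by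
    have := ENNReal.tendsto_ofReal
      (tendsto_one_div_add_atTop_nhds_zero_nat.add (ap2_E_tendsto hf hg))
    simpa using this
  have bG : ∀ k : ℕ, ENNReal.ofReal (∫ y, (‖grad (hs (n k)) y - g y‖ +
      (1 + 2 * ((k : ℝ) + 1) * k) * ‖hs (n k) y - f y‖ + ap2_E f g k y)) ≤
      ENNReal.ofReal (1 / ((k : ℝ) + 1) + ∫ y, ap2_E f g k y) := by
    intro k
    refine ENNReal.ofReal_le_ofReal ?_
    have j := integral_add ((i2 (n k)).norm.add ((i1 (n k)).norm.const_mul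
      (1 + 2 * ((k : ℝ) + 1) * k))) (ap2_E_int hf hg k)
    simp only [Pi.add_apply] at j
    rw [j, integral_add (i2 (n k)).norm ((i1 (n k)).norm.const_mul _), integral_const_mul]
    linarith [hn k]
  have hε : ∀ k : ℕ, (0 : ℝ) < 1 / ((k : ℝ) + 1) := fun k => by positivity
  refine ⟨fun k y => ap2_Φ (1 / ((k : ℝ) + 1)) (hs (n k) y), fun k => ap2_C1c (hε k) (hC _),
    fun k y => ap2_Φ_nonneg (hε k) _, ?_, ?_⟩
  · refine tendsto_of_tendsto_of_tendsto_of_le_of_le tendsto_const_nhds tG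
      (fun _ => zero_le) (fun k => le_trans (ap2_lint_le (iG k) fun y => ?_) (bG k))
    exact ap2_point' f g k y _ _
  · refine tendsto_of_tendsto_of_tendsto_of_le_of_le tendsto_const_nhds tG
      (fun _ => zero_le) (fun k => le_trans (ap2_lint_le (iG k) fun y => ?_) (bG k))
    rw [ap2_grad (hε k) (hC _)]
    exact ap2_point f g k y _ _

end

end Crest.Agent.R112
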