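import Crest.Agent.R112.Defs

/-! Small shared lemmas for row 112. -/

set_option autoImplicit false

namespace Crest.Agent.R112

open MeasureTheory Set Metric Filter Topology
open scoped ENNReal NNReal Classical

noncomputable section

theorem dot_comm (z w : ℂ) : dot z w = dot w z := by unfold dot; ring

theorem dot_add_left (z z' w : ℂ) : dot (z + z') w = dot z w + dot z' w := by
  simp [dot]; ring

theorem dot_add_right (z w w' : ℂ) : dot z (w + w') = dot z w + dot z w' := by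
  simp [dot]; ring

theorem dot_sub_left (z z' w : ℂ) : dot (z - z') w = dot z w - dot z' w := by
  simp [dot]; ring

theorem dot_sub_right (z w w' : ℂ) : dot z (w - w') = dot z w - dot z w' := by
  simp [dot]; ring

theorem dot_neg_left (z w : ℂ) : dot (-z) w = -dot z w := by simp [dot]; ring

theorem dot_neg_right (z w : ℂ) : dot z (-w) = -dot z w := by simp [dot]; ring

theorem dot_real_mul_left (t : ℝ) (z w : ℂ) : dot ((t : ℂ) * z) w = t * dot z w := by
  simp [dot]; ring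

theorem dot_real_mul_right (t : ℝ) (z w : ℂ) : dot z ((t : ℂ) * w) = t * dot z w := by
  simp [dot]; ring

theorem dot_smul_left (t : ℝ) (z w : ℂ) : dot (t • z) w = t * dot z w := by
  simp [dot]; ring

@[simp] theorem dot_zero_left (w : ℂ) : dot 0 w = 0 := by simp [dot]

@[simp] theorem dot_zero_right (w : ℂ) : dot w 0 = 0 := by simp [dot]

theorem dot_self (z : ℂ) : dot z z = ‖z‖ ^ 2 := by
  rw [Complex.sq_norm, Complex.normSq_apply]; rfl

theorem dot_eq_inner (z w : ℂ) : dot z w = inner ℝ z w := by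
  simp [dot, Complex.inner]; ring

theorem abs_dot_le (z w : ℂ) : |dot z w| ≤ ‖z‖ * ‖w‖ := by
  rw [dot_eq_inner]; exact abs_real_inner_le_norm z w

theorem dot_le (z w : ℂ) : dot z w ≤ ‖z‖ * ‖w‖ := (le_abs_self _).trans (abs_dot_le z w)

theorem dot_sum_right {ι : Type*} (s : Finset ι) (z : ℂ) (f : ι → ℂ) :
    dot z (∑ i ∈ s, f i) = ∑ i ∈ s, dot z (f i) := by
  classical
  induction s using Finset.induction_on with
  | empty => simp
  | insert i s hi ih => rw [Finset.sum_insert hi, Finset.sum_insert hi, dot_add_right, ih]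

theorem continuous_dot : Continuous (fun p : ℂ × ℂ => dot p.1 p.2) := by
  unfold dot; fun_prop

@[fun_prop] theorem Continuous.dot' {α : Type*} [TopologicalSpace α] {f g : α → ℂ}
    (hf : Continuous f) (hg : Continuous g) : Continuous (fun x => dot (f x) (g x)) := by
  unfold dot; fun_prop

@[fun_prop] theorem Measurable.dot' {α : Type*} [MeasurableSpace α] {f g : α → ℂ}
    (hf : Measurable f) (hg : Measurable g) : Measurable (fun x => dot (f x) (g x)) := by
  unfold dot; fun_prop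

/-- orthonormal decomposition along a unit vector -/
theorem sq_norm_eq_dot (θ v : ℂ) (hθ : ‖θ‖ = 1) :
    ‖v‖ ^ 2 = dot θ v ^ 2 + dot (Complex.I * θ) v ^ 2 := by
  have h : θ.re ^ 2 + θ.im ^ 2 = 1 := by
    have := Complex.sq_norm θ
    rw [hθ, Complex.normSq_apply] at this; nlinarith
  rw [Complex.sq_norm, Complex.normSq_apply]
  simp only [dot, Complex.mul_re, Complex.mul_im, Complex.I_re, Complex.I_im]
  linear_combination (-(v.re ^ 2) - v.im ^ 2) * h

theorem fderiv_eq_dot (b : ℂ → ℝ) (y v : ℂ) : fderiv ℝ b y v = dot (grad b y) v := by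
  have hv : v = v.re • (1 : ℂ) + v.im • Complex.I := by
    apply Complex.ext <;> simp
  conv_lhs => rw [hv]
  rw [map_add, map_smul, map_smul]
  simp [dot, grad]; ring

theorem norm_grad_eq (b : ℂ → ℝ) (y : ℂ) : ‖grad b y‖ = ‖fderiv ℝ b y‖ := by
  apply le_antisymm
  · by_cases h : grad b y = 0
    · rw [h, norm_zero]; exact norm_nonneg _
    · have hp : 0 < ‖grad b y‖ := norm_pos_iff.mpr h
      have h1 := (fderiv ℝ b y).le_opNorm (grad b y)
      rw [fderiv_eq_dot, dot_self, Real.norm_eq_abs, abs_of_nonneg (by positivity)] at h1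
      nlinarith
  · refine ContinuousLinearMap.opNorm_le_bound _ (norm_nonneg _) fun v => ?_
    rw [fderiv_eq_dot]; exact abs_dot_le _ _

theorem grad_eq (b : ℂ → ℝ) (y : ℂ) :
    grad b y = (fderiv ℝ b y 1 : ℝ) + (fderiv ℝ b y Complex.I : ℝ) * Complex.I := by
  apply Complex.ext <;> simp [grad]

theorem measurable_grad (b : ℂ → ℝ) : Measurable (grad b) := by
  have h1 := measurable_fderiv_apply_const ℝ b 1
  have h2 := measurable_fderiv_apply_const ℝ b Complex.I
  have : grad b = fun y => ((fderiv ℝ b y 1 : ℝ) : ℂ) + ((fderiv ℝ b y Complex.I : ℝ) : ℂ) * Complex.I :=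
    funext (grad_eq b)
  rw [this]
  exact (Complex.measurable_ofReal.comp h1).add
    ((Complex.measurable_ofReal.comp h2).mul_const _)

theorem continuous_grad {b : ℂ → ℝ} (hb : ContDiff ℝ 1 b) : Continuous (grad b) := by
  have h := hb.continuous_fderiv one_ne_zero
  have : grad b = fun y => ((fderiv ℝ b y 1 : ℝ) : ℂ) + ((fderiv ℝ b y Complex.I : ℝ) : ℂ) * Complex.I :=
    funext (grad_eq b)
  rw [this]
  fun_prop

theorem C1c.continuous {b : ℂ → ℝ} (hb : C1c b) : Continuous b := hb.1.continuous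

theorem C1c.continuous_grad {b : ℂ → ℝ} (hb : C1c b) : Continuous (grad b) :=
  Crest.Agent.R112.continuous_grad hb.1

theorem C1c.hasCompactSupport_grad {b : ℂ → ℝ} (hb : C1c b) : HasCompactSupport (grad b) := by
  have h := hb.2.fderiv ℝ
  refine h.mono ?_
  intro y hy h0
  apply hy
  simp only [grad]; rw [h0]; rfl

theorem C1c.integrable {b : ℂ → ℝ} (hb : C1c b) : Integrable b :=
  hb.continuous.integrable_of_hasCompactSupport hb.2

theorem C1c.integrable_grad {b : ℂ → ℝ} (hb : C1c b) : Integrable (grad b) :=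
  hb.continuous_grad.integrable_of_hasCompactSupport hb.hasCompactSupport_grad

theorem C1c.exists_bound {b : ℂ → ℝ} (hb : C1c b) : ∃ L : ℝ, 0 ≤ L ∧ ∀ y, ‖grad b y‖ ≤ L := by
  obtain ⟨L, hL⟩ := hb.hasCompactSupport_grad.exists_bound_of_continuous hb.continuous_grad
  exact ⟨L, (norm_nonneg _).trans (hL 0), hL⟩

theorem C1c.exists_lipschitz {b : ℂ → ℝ} (hb : C1c b) : ∃ L : ℝ≥0, LipschitzWith L b := by
  obtain ⟨L, hL0, hL⟩ := hb.exists_bound
  refine ⟨⟨L, hL0⟩, lipschitzWith_of_nnnorm_fderiv_le (hb.1.differentiable one_ne_zero) fun y => ?_⟩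
  have := hL y
  rw [norm_grad_eq] at this
  exact_mod_cast this

theorem Lip.lipschitzWith {F : Type} [NormedAddCommGroup F] {L : ℝ} {V : ℂ → F} (h : Lip L V) :
    LipschitzWith L.toNNReal V := by
  refine LipschitzWith.of_dist_le_mul fun y y' => ?_
  rw [dist_eq_norm, dist_eq_norm]
  exact (h y y').trans (mul_le_mul_of_nonneg_right (Real.le_coe_toNNReal L) (norm_nonneg _))

theorem Lip.continuous {F : Type} [NormedAddCommGroup F] {L : ℝ} {V : ℂ → F} (h : Lip L V) :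
    Continuous V := h.lipschitzWith.continuous

theorem Lip.mono {F : Type} [NormedAddCommGroup F] {L L' : ℝ} {V : ℂ → F} (h : Lip L V)
    (hL : L ≤ L') : Lip L' V := fun y y' =>
  (h y y').trans (mul_le_mul_of_nonneg_right hL (norm_nonneg _))

theorem Lip.add {F : Type} [NormedAddCommGroup F] {L L' : ℝ} {V V' : ℂ → F} (h : Lip L V)
    (h' : Lip L' V') : Lip (L + L') (fun y => V y + V' y) := fun y y' => by
  have e : V y + V' y - (V y' + V' y') = (V y - V y') + (V' y - V' y') := by abel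
  rw [e]
  exact (norm_add_le _ _).trans (by have := h y y'; have := h' y y'; linarith)

theorem Lip.sub {F : Type} [NormedAddCommGroup F] {L L' : ℝ} {V V' : ℂ → F} (h : Lip L V)
    (h' : Lip L' V') : Lip (L + L') (fun y => V y - V' y) := fun y y' => by
  have e : V y - V' y - (V y' - V' y') = (V y - V y') - (V' y - V' y') := by abel
  rw [e]
  exact (norm_sub_le _ _).trans (by have := h y y'; have := h' y y'; linarith)

/-- product of a bounded Lipschitz scalar and a bounded Lipschitz vector -/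
theorem Lip.smul {F : Type} [NormedAddCommGroup F] [NormedSpace ℝ F] {a a' L L' : ℝ}
    {τ : ℂ → ℝ} {V : ℂ → F} (h : Lip L τ) (h' : Lip L' V) (ha : ∀ y, |τ y| ≤ a)
    (ha' : ∀ y, ‖V y‖ ≤ a') : Lip (a * L' + a' * L) (fun y => τ y • V y) := fun y y' => by
  have e : τ y • V y - τ y' • V y' = τ y • (V y - V y') + (τ y - τ y') • V y' := by
    rw [smul_sub, sub_smul]; abel
  rw [e]
  refine (norm_add_le _ _).trans ?_
  rw [norm_smul, norm_smul]
  have h1 : ‖τ y‖ * ‖V y - V y'‖ ≤ a * (L' * ‖y - y'‖) :=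
    mul_le_mul (ha y) (h' y y') (norm_nonneg _) ((abs_nonneg _).trans (ha y))
  have h2 : ‖τ y - τ y'‖ * ‖V y'‖ ≤ (L * ‖y - y'‖) * a' :=
    mul_le_mul (h y y') (ha' y') (norm_nonneg _) ((norm_nonneg _).trans (h y y'))
  nlinarith

theorem Lip.mul {a a' L L' : ℝ} {τ τ' : ℂ → ℝ} (h : Lip L τ) (h' : Lip L' τ')
    (ha : ∀ y, |τ y| ≤ a) (ha' : ∀ y, |τ' y| ≤ a') :
    Lip (a * L' + a' * L) (fun y => τ y * τ' y) := h.smul h' ha ha'

/-- a radial profile -/
theorem Lip.radial {L : ℝ} (hL : 0 ≤ L) {g : ℝ → ℝ} (hg : ∀ s t, |g s - g t| ≤ L * |s - t|)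
    (x : ℂ) : Lip L (fun y => g ‖y - x‖) := fun y y' => by
  refine (hg _ _).trans (mul_le_mul_of_nonneg_left ?_ hL)
  have := abs_norm_sub_norm_le (y - x) (y' - x)
  simpa using this

theorem abs_clamp_sub_le (α β s t : ℝ) : |max α (min s β) - max α (min t β)| ≤ |s - t| :=
  (abs_max_sub_max_le_max _ _ _ _).trans (by
    simp only [sub_self, abs_zero, ge_iff_le, abs_nonneg, sup_of_le_right]
    exact (abs_min_sub_min_le_max _ _ _ _).trans (by simp))

theorem Atoms.mΓ_mono (d : Atoms) (h : ∀ i, 0 ≤ d.Γ i) {F G : Set ℂ} (hFG : F ⊆ G) :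
    d.mΓ F ≤ d.mΓ G :=
  Finset.sum_le_sum_of_subset_of_nonneg
    (fun i hi => by
      simp only [Finset.mem_filter] at hi ⊢
      exact ⟨hi.1, hFG hi.2⟩) (fun i _ _ => h i)

theorem Atoms.mν_mono (d : Atoms) (h : ∀ i, 0 ≤ d.ν i) {F G : Set ℂ} (hFG : F ⊆ G) :
    d.mν F ≤ d.mν G :=
  Finset.sum_le_sum_of_subset_of_nonneg
    (fun i hi => by
      simp only [Finset.mem_filter] at hi ⊢
      exact ⟨hi.1, hFG hi.2⟩) (fun i _ _ => h i)

theorem Atoms.mΓ_nonneg (d : Atoms) (h : ∀ i, 0 ≤ d.Γ i) (F : Set ℂ) : 0 ≤ d.mΓ F :=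
  Finset.sum_nonneg fun i _ => h i

theorem Atoms.mν_nonneg (d : Atoms) (h : ∀ i, 0 ≤ d.ν i) (F : Set ℂ) : 0 ≤ d.mν F :=
  Finset.sum_nonneg fun i _ => h i

theorem aexc_nonneg {θ : ℂ} (hθ : ‖θ‖ ≤ 1) (v : ℂ) : 0 ≤ aexc θ v := by
  have := dot_le θ v
  have h2 : ‖θ‖ * ‖v‖ ≤ ‖v‖ := mul_le_of_le_one_left (norm_nonneg _) hθ
  unfold aexc; linarith

theorem aexc_le {θ : ℂ} (hθ : ‖θ‖ ≤ 1) (v : ℂ) : aexc θ v ≤ 2 * ‖v‖ := by
  have := abs_dot_le θ v
  have h2 : ‖θ‖ * ‖v‖ ≤ ‖v‖ := mul_le_of_le_one_left (norm_nonneg _) hθ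
  have := neg_abs_le (dot θ v)
  unfold aexc; linarith

theorem sum_aexc {ι : Type*} (s : Finset ι) (θ : ℂ) (f : ι → ℂ) :
    ∑ i ∈ s, aexc θ (f i) = ∑ i ∈ s, ‖f i‖ - dot θ (∑ i ∈ s, f i) := by
  rw [dot_sum_right, ← Finset.sum_sub_distrib]; rfl

/-- two unit directions cannot both be aligned with `v` -/
theorem norm_mul_sq_le_aexc {θ e : ℂ} (hθ : ‖θ‖ = 1) (he : ‖e‖ = 1) (v : ℂ) :
    ‖v‖ * ‖θ - e‖ ^ 2 ≤ 4 * (aexc θ v + aexc e v) := by
  have h1 : ‖θ - e‖ ^ 2 + ‖θ + e‖ ^ 2 = 4 := by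
    have := parallelogram_law_with_norm ℝ θ e
    rw [hθ, he] at this; nlinarith
  have h2 : dot (θ + e) v ≤ ‖θ + e‖ * ‖v‖ := dot_le _ _
  rw [dot_add_left] at h2
  have h3 : ‖θ + e‖ ≤ 2 - ‖θ - e‖ ^ 2 / 4 := by nlinarith [sq_nonneg (‖θ + e‖ - 2)]
  have h4 := mul_le_mul_of_nonneg_right h3 (norm_nonneg v)
  unfold aexc; nlinarith

theorem norm_dirn (v : ℂ) : ‖dirn v‖ = 1 := by
  unfold dirn
  split_ifs with h
  · simp
  · have : ‖v‖ ≠ 0 := norm_ne_zero_iff.mpr h
    simp [this]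

theorem dot_dirn (v : ℂ) : dot (dirn v) v = ‖v‖ := by
  unfold dirn
  split_ifs with h
  · simp [h]
  · have hv : ‖v‖ ≠ 0 := norm_ne_zero_iff.mpr h
    have e : v / (‖v‖ : ℂ) = ((‖v‖⁻¹ : ℝ) : ℂ) * v := by push_cast; ring
    rw [e, dot_real_mul_left, dot_self]; field_simp

theorem norm_thw (K : ℕ) (u : ℕ → ℤ × ℤ → ℂ) (P : Node) : ‖thw K u P‖ = 1 := norm_dirn _

theorem sum_aexc_thw (K : ℕ) (u : ℕ → ℤ × ℤ → ℂ) (n : ℕ) (a : ℤ × ℤ) :
    ∑ c ∈ win K a, aexc (thw K u (n, a)) (u n c) = Dhat K u n a := by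
  rw [sum_aexc]; unfold thw Dhat; rw [dot_dirn]

theorem mem_children {K : ℕ} (hK : 1 ≤ K) (a c : ℤ × ℤ) : c ∈ children K a ↔ up K c = a := by
  have hK' : (0 : ℤ) < K := by exact_mod_cast hK
  have key : ∀ s t : ℤ, ((K : ℤ) * s ≤ t ∧ t < K * s + K) ↔ t / K = s := by
    intro s t
    constructor
    · rintro ⟨h1, h2⟩
      apply le_antisymm
      · have := (Int.ediv_lt_iff_lt_mul hK').mpr (show t < (s + 1) * K by linarith)
        omega
      · exact (Int.le_ediv_iff_mul_le hK').mpr (by linarith)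
    · intro h
      have h1 := Int.mul_ediv_add_emod t K
      have h2 := Int.emod_nonneg t hK'.ne'
      have h3 := Int.emod_lt_of_pos t hK'
      rw [h] at h1
      constructor <;> linarith
  simp only [children, up, Finset.mem_product, Finset.mem_Ico, key, Prod.ext_iff]

theorem mem_nbhd (A : ℕ) (a c : ℤ × ℤ) :
    c ∈ nbhd A a ↔ |c.1 - a.1| ≤ A ∧ |c.2 - a.2| ≤ A := by
  simp only [nbhd, Finset.mem_product, Finset.mem_Icc, abs_le]
  constructor
  · rintro ⟨⟨h1, h2⟩, h3, h4⟩; exact ⟨⟨by linarith, by linarith⟩, by linarith, by linarith⟩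
  · rintro ⟨⟨h1, h2⟩, h3, h4⟩; exact ⟨⟨by linarith, by linarith⟩, by linarith, by linarith⟩

theorem mem_nbhd_iff_dinf (A : ℕ) (a c : ℤ × ℤ) : c ∈ nbhd A a ↔ dinf a c ≤ A := by
  rw [mem_nbhd]; unfold dinf; rw [max_le_iff]
  constructor <;> rintro ⟨h1, h2⟩ <;> constructor <;>
    first | (rw [abs_le] at *; omega) | (rw [abs_le]; omega)

theorem mem_nbhd_comm (A : ℕ) (a c : ℤ × ℤ) : c ∈ nbhd A a ↔ a ∈ nbhd A c := by
  rw [mem_nbhd, mem_nbhd, abs_sub_comm c.1, abs_sub_comm c.2]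

theorem card_nbhd (A : ℕ) (a : ℤ × ℤ) : (nbhd A a).card = (2 * A + 1) ^ 2 := by
  simp only [nbhd, Finset.card_product, Int.card_Icc]
  have h1 : (a.1 + A + 1 - (a.1 - A)).toNat = 2 * A + 1 := by omega
  have h2 : (a.2 + A + 1 - (a.2 - A)).toNat = 2 * A + 1 := by omega
  rw [h1, h2, sq]

theorem card_children (K : ℕ) (a : ℤ × ℤ) : (children K a).card = K ^ 2 := by
  simp [children, Finset.card_product, Int.card_Ico, sq]

/-- summing over all nodes = summing over parents and children -/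
theorem tsum_children {K : ℕ} (hK : 1 ≤ K) (f : ℤ × ℤ → ℝ≥0∞) :
    ∑' a, ∑ c ∈ children K a, f c = ∑' c, f c := by
  have h : ∀ a, ∑ c ∈ children K a, f c = ∑' c, if up K c = a then f c else 0 := by
    intro a
    rw [tsum_eq_sum (s := children K a)]
    · exact Finset.sum_congr rfl fun c hc => by rw [if_pos ((mem_children hK a c).mp hc)]
    · intro c hc; rw [if_neg (fun h => hc ((mem_children hK a c).mpr h))]
  simp_rw [h]
  rw [ENNReal.tsum_comm]
  refine tsum_congr fun c => ?_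
  rw [tsum_eq_single (up K c)]
  · simp
  · intro a ha; rw [if_neg (fun h => ha h.symm)]

/-- a function of the parent, summed over all nodes -/
theorem tsum_up {K : ℕ} (hK : 1 ≤ K) (f : ℤ × ℤ → ℝ≥0∞) :
    ∑' c, f (up K c) = (K : ℝ≥0∞) ^ 2 * ∑' a, f a := by
  rw [← tsum_children hK, ← ENNReal.tsum_mul_left]
  refine tsum_congr fun a => ?_
  rw [Finset.sum_congr rfl (fun c hc => by rw [(mem_children hK a c).mp hc]), Finset.sum_const,
    card_children, nsmul_eq_mul]
  push_cast; rfl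

theorem tsum_nbhd (A : ℕ) (f : ℤ × ℤ → ℝ≥0∞) :
    ∑' a, ∑ c ∈ nbhd A a, f c = ((2 * A + 1 : ℕ) : ℝ≥0∞) ^ 2 * ∑' c, f c := by
  have h : ∀ a, ∑ c ∈ nbhd A a, f c = ∑' c, if c ∈ nbhd A a then f c else 0 := by
    intro a
    rw [tsum_eq_sum (s := nbhd A a)]
    · exact Finset.sum_congr rfl fun c hc => by rw [if_pos hc]
    · intro c hc; rw [if_neg hc]
  simp_rw [h]
  rw [ENNReal.tsum_comm, ← ENNReal.tsum_mul_left]
  refine tsum_congr fun c => ?_
  rw [tsum_eq_sum (s := nbhd A c)]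
  · rw [Finset.sum_congr rfl (fun a ha => if_pos ((mem_nbhd_comm A a c).mpr ha)),
      Finset.sum_const, card_nbhd, nsmul_eq_mul]
    push_cast; rfl
  · intro a ha; rw [if_neg (fun h => ha ((mem_nbhd_comm A a c).mp h))]

end

end Crest.Agent.R112
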