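import Crest.Agent.R112.Core0a

/-! Row 112: estimates for limits of smooth functions. -/

set_option autoImplicit false

namespace Crest.Agent.R112

open MeasureTheory Set Metric Filter Topology
open scoped ENNReal NNReal Classical

noncomputable section

theorem big_le_of_forall {X c I : ℝ≥0∞} (hc : c ≠ ⊤) (h : ∀ δ : ℝ≥0∞, 0 < δ → X ≤ c * (I + δ)) :
    X ≤ c * I := by
  have h1 : Tendsto (fun δ : ℝ≥0∞ => c * (I + δ)) (𝓝[>] 0) (𝓝 (c * (I + 0))) :=
    ENNReal.Tendsto.const_mul (tendsto_const_nhds.add (tendsto_id.mono_left nhdsWithin_le_nhds))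
      (Or.inr hc)
  rw [add_zero] at h1
  exact ge_of_tendsto h1 (eventually_nhdsWithin_of_forall fun δ hδ => h δ hδ)

theorem big_ev_le {hs : ℕ → ℂ → ℝ} {g : ℂ → ℂ} (hg : Integrable g)
    (h2 : Tendsto (fun n => ∫⁻ y, ‖grad (hs n) y - g y‖ₑ) atTop (𝓝 0)) (O : Set ℂ) (c : ℂ)
    {δ : ℝ≥0∞} (hδ : 0 < δ) :
    ∀ᶠ n in atTop, ∫⁻ y in O, ‖grad (hs n) y - c‖ₑ ≤ (∫⁻ y in O, ‖g y - c‖ₑ) + δ := by
  filter_upwards [h2.eventually (eventually_le_nhds hδ)] with n hn
  calc _ ≤ ∫⁻ y in O, (‖g y - c‖ₑ + ‖grad (hs n) y - g y‖ₑ) := by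
        refine lintegral_mono fun y => ?_
        have := enorm_add_le (g y - c) (grad (hs n) y - g y)
        rwa [show g y - c + (grad (hs n) y - g y) = grad (hs n) y - c by ring] at this
    _ = _ := lintegral_add_left' (hg.1.sub aestronglyMeasurable_const).enorm.restrict _
    _ ≤ _ := add_le_add le_rfl ((setLIntegral_le_lintegral _ _).trans hn)

/-- convergence of the truncated maximal functions -/
theorem big_conv (hU : UsupL1Stmt) {K : ℕ} (hK : 2 ≤ K) {h : ℂ → ℝ} {g : ℂ → ℂ}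
    (hh : Integrable h) (hg : Integrable g) {hs : ℕ → ℂ → ℝ} (hC : ∀ n, C1c (hs n))
    (h1 : Tendsto (fun n => ∫⁻ y, ‖hs n y - h y‖ₑ) atTop (𝓝 0))
    (h2 : Tendsto (fun n => ∫⁻ y, ‖grad (hs n) y - g y‖ₑ) atTop (𝓝 0)) {i l : ℤ} (hil : i < l) :
    (∀ x, Tendsto (fun n => Wr (hs n) K i l x) atTop (𝓝 (Wr h K i l x))) ∧
    (∃ L : ℝ≥0, ∀ n, LipschitzWith L (Wr (hs n) K i l)) ∧
    Lip ((∫ y, ‖g y‖) / (Real.pi * ((K : ℝ) ^ i) ^ 2)) (Wr h K i l) := by
  have hK1 : (1 : ℝ) ≤ K := by exact_mod_cast (show 1 ≤ K by omega)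
  have ha : (0 : ℝ) < (K : ℝ) ^ i := zpow_pos (by linarith) i
  have haR : (K : ℝ) ^ i ≤ (K : ℝ) ^ l := zpow_le_zpow_right₀ hK1 hil.le
  have t1 : Tendsto (fun n => ∫ y, |hs n y - h y|) atTop (𝓝 0) := by
    have := (ENNReal.tendsto_toReal ENNReal.zero_ne_top).comp h1
    refine this.congr fun n => ?_
    exact (integral_norm_eq_lintegral_enorm ((hC n).integrable.sub hh).1).symm
  have t2 : Tendsto (fun n => ∫ y, ‖grad (hs n) y‖) atTop (𝓝 (∫ y, ‖g y‖)) := by
    refine tendsto_integral_of_L1 _ hg.norm.1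
      (Eventually.of_forall fun n => (hC n).integrable_grad.norm) ?_
    refine tendsto_of_tendsto_of_tendsto_of_le_of_le tendsto_const_nhds h2 (fun _ => zero_le)
      fun n => lintegral_mono fun y => ?_
    rw [← ofReal_norm, ← ofReal_norm]
    exact ENNReal.ofReal_le_ofReal (abs_norm_sub_norm_le _ _)
  have t3 : ∀ x, Tendsto (fun n => Wr (hs n) K i l x) atTop (𝓝 (Wr h K i l x)) := by
    intro x
    rw [tendsto_iff_norm_sub_tendsto_zero]
    have := t1.div_const (Real.pi * ((K : ℝ) ^ i) ^ 2)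
    rw [zero_div] at this
    exact squeeze_zero (fun _ => norm_nonneg _)
      (fun n => hU.2.1 _ _ (hC n).integrable hh _ _ ha haR x) this
  refine ⟨t3, ?_, fun y y' => ?_⟩
  · obtain ⟨A, hA⟩ := t2.bddAbove_range
    refine ⟨(A / (Real.pi * ((K : ℝ) ^ i) ^ 2)).toNNReal, fun n => Lip.lipschitzWith ?_⟩
    exact (hU.1 _ (hC n) _ _ ha haR).mono
      (div_le_div_of_nonneg_right (hA ⟨n, rfl⟩) (by positivity))
  · exact le_of_tendsto_of_tendsto' ((t3 y).sub (t3 y')).norm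
      ((t2.div_const _).mul_const _) fun n => hU.1 _ (hC n) _ _ ha haR y y'

theorem big_strip {W : ℂ → ℝ} {L : ℝ≥0} (hW : LipschitzWith L W) (hc : HasCompactSupport W)
    (h0 : ∀ x, 0 ≤ W x) {S : ℝ} (hS : 0 < S) :
    ∫⁻ x in {x : ℂ | |x.re| < S}, ENNReal.ofReal (W x) ≤ ENNReal.ofReal S * ∫⁻ x, ‖grad W x‖ₑ := by
  set φ : ℂ → ℝ := fun y => max (-S) (min y.re S) with hφ
  have hL : Lip 1 φ := fun y y' => by
    refine (abs_clamp_sub_le _ _ _ _).trans ?_
    rw [one_mul, ← Complex.sub_re]; exact Complex.abs_re_le_norm _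
  have key := hL.lipschitzWith.integral_lineDeriv_mul_eq (μ := volume) hW hc 1
  have hnn : ∀ x, 0 ≤ lineDeriv ℝ φ x 1 := by
    intro x
    refine Monotone.deriv_nonneg fun s t hst => ?_
    simp only [hφ]
    refine max_le_max le_rfl (min_le_min ?_ le_rfl)
    simpa using hst
  have hone : ∀ x : ℂ, |x.re| < S → lineDeriv ℝ φ x 1 = 1 := by
    intro x hx
    have h1 : HasDerivAt (fun t : ℝ => x.re + t) 1 0 := (hasDerivAt_id (0 : ℝ)).const_add _
    have h2 : (fun t : ℝ => φ (x + t • (1 : ℂ))) =ᶠ[𝓝 0] fun t => x.re + t := by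
      have : ∀ᶠ t : ℝ in 𝓝 0, |x.re + t| < S :=
        (show Continuous fun t : ℝ => |x.re + t| by fun_prop).continuousAt.eventually_lt
          continuousAt_const (by simpa using hx)
      filter_upwards [this] with t ht
      rw [abs_lt] at ht
      simp only [hφ, Complex.add_re, Complex.real_smul, mul_one, Complex.ofReal_re]
      rw [min_eq_left ht.2.le, max_eq_right ht.1.le]
    exact (h1.congr_of_eventuallyEq h2).deriv
  have hint : Integrable fun x => lineDeriv ℝ φ x 1 * W x :=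
    (hW.continuous.integrable_of_hasCompactSupport hc).bdd_mul
      (aestronglyMeasurable_lineDeriv hL.continuous volume)
      (Eventually.of_forall fun x => norm_lineDeriv_le_of_lipschitz ℝ hL.lipschitzWith)
  have hopen : IsOpen {x : ℂ | |x.re| < S} := isOpen_lt (by fun_prop) continuous_const
  calc _ = ∫⁻ x in {x : ℂ | |x.re| < S}, ENNReal.ofReal (lineDeriv ℝ φ x 1 * W x) := by
        refine setLIntegral_congr_fun hopen.measurableSet fun x hx => ?_
        rw [hone x hx, one_mul]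
    _ ≤ ∫⁻ x, ENNReal.ofReal (lineDeriv ℝ φ x 1 * W x) := setLIntegral_le_lintegral _ _
    _ = ENNReal.ofReal (∫ x, lineDeriv ℝ W x (-1) * φ x) := by
        rw [← key, ofReal_integral_eq_lintegral_ofReal hint
          (Eventually.of_forall fun x => mul_nonneg (hnn x) (h0 x))]
    _ ≤ ∫⁻ x, ‖lineDeriv ℝ W x (-1) * φ x‖ₑ :=
        (Real.ofReal_le_enorm _).trans (enorm_integral_le_lintegral_enorm _)
    _ ≤ ∫⁻ x, ENNReal.ofReal S * ‖grad W x‖ₑ := by
        refine lintegral_mono_ae ?_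
        filter_upwards [hW.ae_differentiableAt (μ := volume)] with x hx
        rw [hx.lineDeriv_eq_fderiv, fderiv_eq_dot, ← ofReal_norm, ← ofReal_norm,
          ← ENNReal.ofReal_mul hS.le, norm_mul, mul_comm]
        refine ENNReal.ofReal_le_ofReal (mul_le_mul ?_ ?_ (norm_nonneg _) hS.le)
        · rw [Real.norm_eq_abs, abs_le]
          exact ⟨le_max_left _ _, max_le (by linarith) (min_le_right _ _)⟩
        · simpa using abs_dot_le (grad W x) (-1)
    _ = _ := lintegral_const_mul' _ _ ENNReal.ofReal_ne_top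

theorem big_usup_le {h : ℂ → ℝ} {a R : ℝ} (haR : a ≤ R) {x : ℂ} {B : ℝ}
    (hB : ∀ r ∈ Icc a R, avg h x r ≤ B) : Usup h (fun _ => a) R x ≤ B := by
  refine csSup_le ((nonempty_Icc.mpr haR).image _) ?_
  rintro _ ⟨r, hr, rfl⟩
  exact hB r hr

theorem big_Wr_support (hU : UsupL1Stmt) {K : ℕ} (hK : 2 ≤ K) {b : ℂ → ℝ} (hb : C1c b)
    (h0 : ∀ y, 0 ≤ b y) {i l : ℤ} (hil : i < l) :
    (∀ x, 0 ≤ Wr b K i l x) ∧ HasCompactSupport (Wr b K i l) := by
  have hK1 : (1 : ℝ) ≤ K := by exact_mod_cast (show 1 ≤ K by omega)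
  have ha : (0 : ℝ) < (K : ℝ) ^ i := zpow_pos (by linarith) i
  have haR : (K : ℝ) ^ i ≤ (K : ℝ) ^ l := zpow_le_zpow_right₀ hK1 hil.le
  have hnn : ∀ x, 0 ≤ Wr b K i l x := fun x =>
    le_trans (div_nonneg (integral_nonneg h0) (by positivity))
      ((hU.2.2 b hb.integrable _ _ ha haR x).1 _ ⟨le_rfl, haR⟩)
  refine ⟨hnn, ?_⟩
  obtain ⟨ρ, hρ⟩ := hb.2.isCompact.isBounded.subset_ball (0 : ℂ)
  refine HasCompactSupport.intro (isCompact_closedBall (0 : ℂ) (ρ + (K : ℝ) ^ l)) fun x hx => ?_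
  refine le_antisymm (big_usup_le haR fun r hr => le_of_eq ?_) (hnn x)
  unfold avg
  rw [setIntegral_eq_zero_of_forall_eq_zero, zero_div]
  intro y hy
  by_contra hne
  apply hx
  have h1 := hρ (subset_tsupport _ hne)
  rw [mem_ball] at h1 hy
  rw [mem_closedBall]
  have := dist_triangle_left x 0 y
  rw [dist_comm y 0] at h1
  have h3 := hr.2
  rw [dist_comm y 0] at this
  linarith

theorem bigAt (hU : UsupL1Stmt) (_hD : DerivStmt) (hL : LscStmt) (K : ℕ) (C : ℝ≥0) (hK : 2 ≤ K)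
    (h : CoreAt K C) : ∃ C' : ℝ≥0, BigAt K C' := by
  refine ⟨2 * C, fun f g hf hg ⟨hs, hC, h0, h1, h2⟩ i l hil => ?_⟩
  obtain ⟨t, ⟨L, hLip⟩, hlip⟩ := big_conv hU hK hf hg hC h1 h2 hil
  have hev : ∀ δ : ℝ≥0∞, 0 < δ → ∀ᶠ n in atTop,
      ∫⁻ x, ‖grad (Wr (hs n) K i l) x‖ₑ ≤ C * ((∫⁻ y, ‖g y‖ₑ) + δ) := by
    intro δ hδ
    filter_upwards [big_ev_le hg h2 univ 0 hδ] with n hn
    simp only [sub_zero, Measure.restrict_univ] at hn
    exact (h _ (hC n) i l hil).trans (mul_le_mul_right hn _)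
  refine ⟨hlip, ?_, fun S hS => ?_⟩
  · refine big_le_of_forall ENNReal.coe_ne_top fun δ hδ => ?_
    have := hL univ isOpen_univ _ _ L 0 (C * ((∫⁻ y, ‖g y‖ₑ) + δ)) hLip t
      (by simpa using hev δ hδ)
    simp only [sub_zero, Measure.restrict_univ] at this
    refine this.trans (le_of_eq ?_)
    push_cast; ring
  · refine big_le_of_forall (ENNReal.mul_ne_top ENNReal.coe_ne_top ENNReal.ofReal_ne_top)
      fun δ hδ => ?_
    have e1 : ∫⁻ x in {x : ℂ | |x.re| < S}, ENNReal.ofReal (Wr f K i l x) =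
        ∫⁻ x in {x : ℂ | |x.re| < S},
          liminf (fun n => ENNReal.ofReal (Wr (hs n) K i l x)) atTop :=
      lintegral_congr fun x => ((ENNReal.tendsto_ofReal (t x)).liminf_eq).symm
    rw [e1]
    refine (lintegral_liminf_le fun n => (hLip n).continuous.measurable.ennreal_ofReal).trans ?_
    refine liminf_le_of_frequently_le' (Eventually.frequently ?_)
    filter_upwards [hev δ hδ] with n hn
    obtain ⟨hnn, hcs⟩ := big_Wr_support hU hK (hC n) (h0 n) hil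
    refine (big_strip (hLip n) hcs hnn hS).trans ((mul_le_mul_right hn _).trans ?_)
    rw [← mul_assoc]
    refine mul_le_mul_left ?_ _
    rw [mul_comm]
    refine mul_le_mul_left ?_ _
    push_cast
    rw [two_mul]; exact le_self_add

theorem small_overlap {ρ : ℝ} (hρ : 0 < ρ) {F : ℂ → ℝ≥0∞} (hF : AEMeasurable F volume) :
    ∑' a : ℤ × ℤ, ∫⁻ y in ball (cen ρ a) (4 * ρ), F y ≤ 81 * ∫⁻ y, F y := by
  simp_rw [← lintegral_indicator measurableSet_ball]
  rw [← lintegral_tsum fun a => hF.indicator measurableSet_ball,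
    ← lintegral_const_mul' _ _ (by norm_num)]
  refine lintegral_mono fun y => ?_
  have key : ∀ (t : ℝ) (a : ℤ), |t - ρ * (a + 1 / 2)| < 4 * ρ → |a - ⌊t / ρ⌋| ≤ ((4 : ℕ) : ℤ) := by
    intro t a h
    have h1 := Int.floor_le (t / ρ)
    have h2 := Int.lt_floor_add_one (t / ρ)
    rw [le_div_iff₀ hρ] at h1
    rw [div_lt_iff₀ hρ] at h2
    rw [abs_lt] at h
    have h3 : (a : ℝ) - ⌊t / ρ⌋ < 5 := by nlinarith
    have h4 : (-5 : ℝ) < (a : ℝ) - ⌊t / ρ⌋ := by nlinarith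
    have h5 : a - ⌊t / ρ⌋ < 5 := by exact_mod_cast h3
    have h6 : -5 < a - ⌊t / ρ⌋ := by exact_mod_cast h4
    rw [abs_le]; constructor <;> omega
  rw [tsum_eq_sum (s := nbhd 4 (⌊y.re / ρ⌋, ⌊y.im / ρ⌋))]
  · refine (Finset.sum_le_card_nsmul _ _ (F y) fun a _ => indicator_le_self _ _ y).trans ?_
    rw [card_nbhd, nsmul_eq_mul]; norm_num
  · intro a ha
    refine indicator_of_notMem (fun hy => ha ?_) _
    rw [mem_ball, Complex.dist_eq] at hy
    rw [mem_nbhd]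
    exact ⟨key _ _ ((Complex.abs_re_le_norm (y - cen ρ a)).trans_lt hy),
      key _ _ ((Complex.abs_im_le_norm (y - cen ρ a)).trans_lt hy)⟩

theorem small_osc {g : ℂ → ℂ} (hg : Integrable g) {ε : ℝ≥0∞} (hε : 0 < ε) :
    ∃ ρ₀ : ℝ, 0 < ρ₀ ∧ ∀ ρ, 0 < ρ → ρ ≤ ρ₀ → ∃ c : ℤ × ℤ → ℂ,
      ∑' a : ℤ × ℤ, ∫⁻ y in ball (cen ρ a) (4 * ρ), ‖g y - c a‖ₑ ≤ ε := by
  obtain ⟨ε₁, hε₁, hε₁'⟩ := ENNReal.exists_nnreal_pos_mul_lt (a := 81 * 2) (by norm_num) hε.ne'
  have hε₁0 : (ε₁ : ℝ≥0∞) ≠ 0 := by exact_mod_cast hε₁.ne'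
  obtain ⟨g₀, hc, hI, hcont, -⟩ := hg.exists_hasCompactSupport_lintegral_sub_le hε₁0
  obtain ⟨ρ₁, hρ₁⟩ := hc.isCompact.isBounded.subset_ball (0 : ℂ)
  obtain ⟨η, hη, hη'⟩ := ENNReal.exists_nnreal_pos_mul_lt
    (a := volume (ball (0 : ℂ) (ρ₁ + 4))) measure_ball_lt_top.ne hε₁0
  obtain ⟨δ, hδ, hδ'⟩ := Metric.uniformContinuous_iff.mp
    (hcont.uniformContinuous_of_tendsto_cocompact hc.is_zero_at_infty) η hη
  refine ⟨min 1 (δ / 4), lt_min one_pos (by linarith), fun ρ hρ hρ' => ?_⟩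
  have hρ1 : ρ ≤ 1 := hρ'.trans (min_le_left _ _)
  have hρ2 : ρ ≤ δ / 4 := hρ'.trans (min_le_right _ _)
  refine ⟨fun a => g₀ (cen ρ a), ?_⟩
  have hm : AEMeasurable (fun y => ‖g y - g₀ y‖ₑ) volume :=
    (hg.1.sub hcont.aestronglyMeasurable).enorm
  set F : ℂ → ℝ≥0∞ := fun y =>
    ‖g y - g₀ y‖ₑ + (ball (0 : ℂ) (ρ₁ + 4)).indicator (fun _ => (η : ℝ≥0∞)) y with hF
  have hFm : AEMeasurable F volume :=
    hm.add (measurable_const.indicator measurableSet_ball).aemeasurable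
  calc _ ≤ ∑' a : ℤ × ℤ, ∫⁻ y in ball (cen ρ a) (4 * ρ), F y := by
        refine ENNReal.tsum_le_tsum fun a => setLIntegral_mono_ae' measurableSet_ball
          (Eventually.of_forall fun y hy => ?_)
        have h1 := enorm_add_le (g y - g₀ y) (g₀ y - g₀ (cen ρ a))
        rw [sub_add_sub_cancel] at h1
        refine h1.trans (add_le_add le_rfl ?_)
        rw [mem_ball] at hy
        by_cases hyB : y ∈ ball (0 : ℂ) (ρ₁ + 4)
        · rw [indicator_of_mem hyB, ← edist_eq_enorm_sub, edist_dist,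
            ← ENNReal.ofReal_coe_nnreal]
          exact ENNReal.ofReal_le_ofReal (hδ' (by linarith)).le
        · have hz : ∀ z : ℂ, dist y z ≤ 4 → g₀ z = 0 := by
            intro z hz
            by_contra hne
            apply hyB
            have h2 := hρ₁ (subset_tsupport _ hne)
            rw [mem_ball] at h2 ⊢
            have := dist_triangle y z 0
            linarith
          rw [hz y (by simp), hz (cen ρ a) (by linarith)]
          simp
    _ ≤ 81 * ∫⁻ y, F y := small_overlap hρ hFm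
    _ ≤ 81 * (ε₁ + ε₁) := by
        refine mul_le_mul_right ?_ _
        simp only [hF]
        rw [lintegral_add_left' hm, lintegral_indicator measurableSet_ball, setLIntegral_const]
        exact add_le_add hI hη'.le
    _ ≤ ε := by
        refine le_trans (le_of_eq ?_) hε₁'.le
        ring

theorem smallAt (hU : UsupL1Stmt) (hL : LscStmt) (K : ℕ) (C : ℝ≥0) (hK : 2 ≤ K)
    (h : LocalAt K C) : SmallAt K := by
  intro f g hf hg ⟨hs, hC, _, h1, h2⟩ ε hε
  have hK1 : (1 : ℝ) < K := by exact_mod_cast (show 1 < K by omega)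
  obtain ⟨ε₁, hε₁, hε₁'⟩ := ENNReal.exists_nnreal_pos_mul_lt (a := 2 * (C : ℝ≥0∞) + 1)
    (ENNReal.add_ne_top.mpr ⟨ENNReal.mul_ne_top (by norm_num) ENNReal.coe_ne_top, by norm_num⟩)
    hε.ne'
  obtain ⟨ρ₀, hρ₀, hosc⟩ := small_osc hg (ε := ε₁) (by exact_mod_cast hε₁)
  obtain ⟨m₀, hm₀, -⟩ := exists_mem_Ico_zpow hρ₀ hK1
  refine ⟨m₀, fun i m hm him => ?_⟩
  have hρ : (0 : ℝ) < (K : ℝ) ^ m := zpow_pos (by linarith) m
  obtain ⟨c, hc⟩ := hosc _ hρ ((zpow_le_zpow_right₀ hK1.le hm).trans hm₀)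
  obtain ⟨t, ⟨L, hLip⟩, -⟩ := big_conv hU hK hf hg hC h1 h2 him
  set ρ := (K : ℝ) ^ m with hρdef
  have hloc : ∀ a, ∫⁻ x in ball (cen ρ a) ρ, ‖grad (Wr f K i m) x - c a‖ₑ ≤
      (2 * C) * ∫⁻ y in ball (cen ρ a) (4 * ρ), ‖g y - c a‖ₑ := by
    intro a
    refine big_le_of_forall (ENNReal.mul_ne_top (by norm_num) ENNReal.coe_ne_top) fun δ hδ => ?_
    rw [mul_assoc]
    refine hL _ isOpen_ball _ _ L (c a) _ hLip t ?_
    filter_upwards [big_ev_le hg h2 (ball (cen ρ a) (4 * ρ)) (c a) hδ] with n hn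
    exact (h _ (hC n) i m him _ _).trans (mul_le_mul_right hn _)
  have hcov : (univ : Set ℂ) = ⋃ a : ℤ × ℤ, ball (cen ρ a) ρ := by
    refine (eq_univ_of_forall fun x => ?_).symm
    obtain ⟨a, ha⟩ := exists_cube_near hρ x
    exact mem_iUnion.mpr ⟨a, ha⟩
  calc _ = ∫⁻ x in ⋃ a : ℤ × ℤ, ball (cen ρ a) ρ, ‖grad (Wr f K i m) x - g x‖ₑ := by
        rw [← hcov, Measure.restrict_univ]
    _ ≤ ∑' a : ℤ × ℤ, ∫⁻ x in ball (cen ρ a) ρ, ‖grad (Wr f K i m) x - g x‖ₑ :=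
        lintegral_iUnion_le _ _
    _ ≤ ∑' a : ℤ × ℤ, (2 * C + 1) * ∫⁻ y in ball (cen ρ a) (4 * ρ), ‖g y - c a‖ₑ := by
        refine ENNReal.tsum_le_tsum fun a => ?_
        calc _ ≤ ∫⁻ x in ball (cen ρ a) ρ, (‖grad (Wr f K i m) x - c a‖ₑ + ‖g x - c a‖ₑ) := by
              refine lintegral_mono fun x => ?_
              have := enorm_sub_le (a := grad (Wr f K i m) x - c a) (b := g x - c a)
              rwa [sub_sub_sub_cancel_right] at this
          _ = _ := lintegral_add_left ((measurable_grad _).sub_const _).enorm _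
          _ ≤ _ := by
              rw [add_mul, one_mul]
              exact add_le_add (hloc a)
                (lintegral_mono_set (ball_subset_ball (by linarith)))
    _ ≤ (2 * C + 1) * ε₁ := by
        rw [ENNReal.tsum_mul_left]; exact mul_le_mul_right hc _
    _ ≤ ε := by rw [mul_comm]; exact hε₁'.le

end

end Crest.Agent.R112
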