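import Crest.Agent.R112.Basic

/-! Row 112: shifting and scaling the core estimate. -/

set_option autoImplicit false

namespace Crest.Agent.R112

open MeasureTheory Set Metric Filter Topology
open scoped ENNReal NNReal Classical Pointwise

noncomputable section

theorem core_grad_smul (W : ℂ → ℝ) (δ : ℝ) (x : ℂ) :
    grad (fun x => W (δ • x)) x = δ • grad W (δ • x) := by
  unfold grad
  rw [fderiv_comp_smul]
  apply Complex.ext <;> simp

theorem core_grad_add (W : ℂ → ℝ) (w x : ℂ) :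
    grad (fun x => W (x + w)) x = grad W (x + w) := by
  unfold grad
  rw [fderiv_comp_add_right]

theorem core_lint_smul (F : ℂ → ℝ≥0∞) (hF : Measurable F) {δ : ℝ} (hδ : 0 < δ) :
    ∫⁻ x, F (δ • x) = ENNReal.ofReal ((δ ^ 2)⁻¹) * ∫⁻ x, F x := by
  rw [← lintegral_map hF (measurable_const_smul δ), Measure.map_addHaar_smul _ hδ.ne',
    lintegral_smul_measure, Complex.finrank_real_complex, abs_of_pos (by positivity), smul_eq_mul]

theorem core_lint_grad (W : ℂ → ℝ) {δ : ℝ} (hδ : 0 < δ) (w : ℂ) :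
    ∫⁻ x, ‖grad (fun x => W (δ • (x + w))) x‖ₑ =
      ENNReal.ofReal δ * ENNReal.ofReal ((δ ^ 2)⁻¹) * ∫⁻ x, ‖grad W x‖ₑ := by
  have h1 : ∀ x, ‖grad (fun x => W (δ • (x + w))) x‖ₑ =
      ENNReal.ofReal δ * ‖grad W (δ • (x + w))‖ₑ := fun x => by
    rw [core_grad_add (fun x => W (δ • x)) w x, core_grad_smul, enorm_smul,
      Real.enorm_eq_ofReal hδ.le]
  simp_rw [h1]
  rw [lintegral_const_mul' _ _ ENNReal.ofReal_ne_top,
    lintegral_add_right_eq_self (fun x => ‖grad W (δ • x)‖ₑ) w,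
    core_lint_smul (fun x => ‖grad W x‖ₑ) (measurable_grad W).enorm hδ, mul_assoc]

theorem core_avg (b : ℂ → ℝ) {δ : ℝ} (hδ : 0 < δ) (w x : ℂ) {r : ℝ} (hr : 0 < r) :
    avg (fun y => b (δ • (y + w))) x r = avg b (δ • (x + w)) (δ * r) := by
  unfold avg
  have h1 : ∫ y in ball x r, b (δ • (y + w)) = ∫ y in ball (x + w) r, b (δ • y) := by
    rw [← integral_indicator measurableSet_ball, ← integral_indicator measurableSet_ball,
      ← integral_add_right_eq_self ((ball (x + w) r).indicator fun y => b (δ • y)) w]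
    congr 1
    funext y
    by_cases hy : y ∈ ball x r
    · have : y + w ∈ ball (x + w) r := by simpa [mem_ball] using hy
      rw [indicator_of_mem hy, indicator_of_mem this]
    · have : y + w ∉ ball (x + w) r := by simpa [mem_ball] using hy
      rw [indicator_of_notMem hy, indicator_of_notMem this]
  rw [h1, Measure.setIntegral_comp_smul_of_pos volume b _ hδ, Complex.finrank_real_complex,
    _root_.smul_ball hδ.ne', Real.norm_of_nonneg hδ.le, smul_eq_mul]
  field_simp

theorem core (h0 : Core0Stmt) (hS : ShiftStmt) : CoreStmt := by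
  obtain ⟨K₀, hK₀⟩ := h0
  obtain ⟨C, hC⟩ := hK₀ (8 * (K₀ + 1)) (by omega) (Dvd.intro _ rfl)
  set K : ℕ := 8 * (K₀ + 1) with hKdef
  have hK2 : 2 ≤ K := by omega
  have hKpos : (0 : ℝ) < K := by exact_mod_cast (by omega : 0 < K)
  refine ⟨K, C, hK2, fun b hb i l hil => ?_⟩
  set δ : ℝ := (K : ℝ) ^ (i + 1) with hδdef
  have hδ : 0 < δ := zpow_pos hKpos _
  set N : ℕ := (l - i - 1).toNat with hN
  have hNz : (N : ℤ) = l - i - 1 := Int.toNat_of_nonneg (by omega)
  have hC1 : ∀ w : ℂ, C1c fun y => b (δ • (y + w)) := fun w => by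
    refine ⟨hb.1.comp ((contDiff_id.add contDiff_const).const_smul δ), ?_⟩
    exact hb.2.comp_homeomorph
      ((Homeomorph.addRight w).trans (Homeomorph.smulOfNeZero δ hδ.ne'))
  have hb1 : C1c fun y => b (δ • y) := by simpa using hC1 0
  obtain ⟨w, hw⟩ := hS K hK2 (Dvd.intro (4 * (K₀ + 1)) (by omega)) (grad fun y => b (δ • y))
    hb1.integrable_grad N
  have hg : (grad fun y => b (δ • (y + w))) = fun y => grad (fun y => b (δ • y)) (y + w) :=
    funext fun y => core_grad_add (fun y => b (δ • y)) w y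
  have h1 := hC _ (hC1 w) N (by
    rw [hg, lintegral_add_right_eq_self (fun y => ‖grad (fun y => b (δ • y)) y‖ₑ) w]
    exact hw)
  have e1 : δ * (1 / (K : ℝ)) = (K : ℝ) ^ i := by
    rw [hδdef, zpow_add_one₀ hKpos.ne']; field_simp
  have e2 : δ * (K : ℝ) ^ N = (K : ℝ) ^ l := by
    rw [hδdef, ← zpow_natCast, ← zpow_add₀ hKpos.ne', hNz]; congr 1; ring
  have hU : Usup (fun y => b (δ • (y + w))) (fun _ => 1 / (K : ℝ)) ((K : ℝ) ^ N) =
      fun x => Wr b K i l (δ • (x + w)) := by
    funext x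
    unfold Wr Usup
    congr 1
    rw [← e1, ← e2, ← image_mul_left_Icc' hδ, image_image]
    refine image_congr fun r hr => core_avg b hδ w x (lt_of_lt_of_le (by positivity) hr.1)
  rw [hU, core_lint_grad _ hδ, core_lint_grad _ hδ, mul_left_comm] at h1
  refine (ENNReal.mul_le_mul_iff_right ?_ ?_).1 h1
  · exact mul_ne_zero (ENNReal.ofReal_pos.2 hδ).ne' (ENNReal.ofReal_pos.2 (by positivity)).ne'
  · exact ENNReal.mul_ne_top ENNReal.ofReal_ne_top ENNReal.ofReal_ne_top

end

end Crest.Agent.R112
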