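import Crest.Agent.R112.Core0a

/-! Row 112: assembly of the core estimate on the normalised lattice. -/

set_option autoImplicit false

namespace Crest.Agent.R112

open MeasureTheory Set Metric Filter Topology
open scoped ENNReal NNReal Classical

noncomputable section

/-- the maximal function of a tree -/
def WT (b : ℂ → ℝ) (K N : ℕ) (root : Node → Node) (R : Node) : ℂ → ℝ :=
  Usup b (loT K N root R) (sN K R)

theorem core0_cover (hD : DerivStmt) {b : ℂ → ℝ} (hb : C1c b) {K N : ℕ} (hK : 1 ≤ K)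
    {root : Node → Node} (hG : Geom K N root) :
    ∀ᵐ x, ‖grad (Usup b (fun _ => 1 / (K : ℝ)) ((K : ℝ) ^ N)) x‖ₑ ≤
      ∑' R : Node, (if R ∈ treeOf N root R then
        (ball (zN K R) (2 * sN K R)).indicator (fun x => ‖grad (WT b K N root R) x‖ₑ) x else 0) := by
  have hK1 : (1 : ℝ) ≤ K := by exact_mod_cast hK
  have hK0 : (0 : ℝ) < K := by linarith
  have hKN : 1 / (K : ℝ) ≤ (K : ℝ) ^ N := by
    have : 1 / (K : ℝ) ≤ 1 := by rw [div_le_one hK0]; exact hK1
    exact this.trans (one_le_pow₀ hK1)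
  obtain ⟨⟨L, hL⟩, hatt, -⟩ := hD b hb (fun _ => 1 / (K : ℝ)) ((K : ℝ) ^ N) (1 / K) 0
    (by positivity) le_rfl (fun _ => ⟨le_rfl, hKN⟩) (fun y y' => by simp)
  have hT := fun R => hD b hb (loT K N root R) (sN K R) (1 / K) (1 / 8)
    (by positivity) (by norm_num) (loT_bounds hK N root R) (lip_loT hK N root R)
  have h1 : ∀ᵐ x, ∀ R : Node, DifferentiableAt ℝ (WT b K N root R) x := by
    rw [ae_all_iff]
    intro R
    obtain ⟨L', hL'⟩ := (hT R).1
    exact hL'.ae_differentiableAt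
  filter_upwards [h1, hL.ae_differentiableAt] with x hx1 hx2
  obtain ⟨r, hr, hU, -⟩ := hatt x
  obtain ⟨R, hR, hxR, hlo, hhi⟩ := exists_tree hK hG x hr.1 hr.2
  have hsR : sN K R ≤ (K : ℝ) ^ N := pow_le_pow_right₀ hK1 hR.1
  have hle : ∀ y, WT b K N root R y ≤ Usup b (fun _ => 1 / (K : ℝ)) ((K : ℝ) ^ N) y := by
    intro y
    obtain ⟨r', hr', h', -⟩ := (hT R).2.1 y
    obtain ⟨r'', -, h'', hmax⟩ := hatt y
    unfold WT
    rw [h', h'']
    exact hmax r' ⟨(loT_bounds hK N root R y).1.trans hr'.1, hr'.2.trans hsR⟩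
  have hge : Usup b (fun _ => 1 / (K : ℝ)) ((K : ℝ) ^ N) x ≤ WT b K N root R x := by
    obtain ⟨r', -, h', hmax⟩ := (hT R).2.1 x
    unfold WT
    rw [h', hU]
    exact hmax r ⟨hlo, hhi⟩
  have hmin : IsLocalMin
      (fun y => Usup b (fun _ => 1 / (K : ℝ)) ((K : ℝ) ^ N) y - WT b K N root R y) x :=
    Filter.Eventually.of_forall fun y => by
      have := hle y; have := hle x; simp only; linarith
  have hf := hmin.fderiv_eq_zero
  rw [fderiv_fun_sub hx2 (hx1 R), sub_eq_zero] at hf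
  have hg : grad (Usup b (fun _ => 1 / (K : ℝ)) ((K : ℝ) ^ N)) x = grad (WT b K N root R) x := by
    unfold grad; rw [hf]
  refine le_trans ?_ (ENNReal.le_tsum R)
  rw [if_pos hR, indicator_of_mem hxR, hg]

theorem core0_norm_dir (e : ℂ) (he : ‖e‖ = 1) (t : ℝ) (ht : |t| = 1 / 4) :
    ‖e * (1 + t * Complex.I) - e‖ = 1 / 4 ∧ ‖e * (1 + t * Complex.I)‖ ≤ 5 / 4 := by
  have h1 : ‖e * (1 + t * Complex.I) - e‖ = 1 / 4 := by
    have : e * (1 + t * Complex.I) - e = e * (t * Complex.I) := by ring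
    rw [this, norm_mul, he, norm_mul, Complex.norm_I, Complex.norm_real, Real.norm_eq_abs, ht]
    norm_num
  refine ⟨h1, ?_⟩
  have := norm_add_le (e * (1 + t * Complex.I) - e) e
  rw [sub_add_cancel, h1, he] at this
  linarith

/-- the negative part of a directional derivative of a tree maximal function -/
theorem core0_neg (hD : DerivStmt) {b : ℂ → ℝ} (hb : C1c b) {K N : ℕ} (hK : 1 ≤ K)
    {root : Node → Node} (hG : Geom K N root) {R : Node} (hR : R ∈ treeOf N root R) (e' : ℂ)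
    (he' : ‖e'‖ ≤ 5 / 4) (Err : Node → ℂ → ℝ≥0∞)
    (hErr : ∀ P ∈ treeOf N root R, ∀ x ∈ ball (zN K P) (12 * sN K P), ∀ r κ : ℝ,
      sN K P / (2 * K) ≤ r → r ≤ sN K P → loT K N root R x ≤ r → r ≤ sN K R →
      (∀ r' ∈ Icc (loT K N root R x) (sN K R), avg b x r' ≤ avg b x r) → 0 ≤ κ → κ ≤ 1 / 5 →
      (κ = 0 ∨ r = loT K N root R x) →
      ENNReal.ofReal (-∫ y in ball x r, dot (e' + ((κ / r : ℝ) : ℂ) * (y - x)) (grad b y))
        ≤ Err P x)
    {x : ℂ} (hx : x ∈ ball (zN K R) (4 * sN K R)) (hd : DifferentiableAt ℝ (WT b K N root R) x) :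
    ENNReal.ofReal (-fderiv ℝ (WT b K N root R) x e') ≤
      ∑' P : Node, (if P ∈ treeOf N root R then
        ENNReal.ofReal ((2 * K) ^ 2 / sN K P ^ 2) * Err P x else 0) := by
  have hK1 : (1 : ℝ) ≤ K := by exact_mod_cast hK
  have hK0 : (0 : ℝ) < K := by linarith
  obtain ⟨-, hatt, hder⟩ := hD b hb (loT K N root R) (sN K R) (1 / K) (1 / 8)
    (by positivity) (by norm_num) (loT_bounds hK N root R) (lip_loT hK N root R)
  obtain ⟨r, hr, hU, hmax⟩ := hatt x
  obtain ⟨P, hP, hxP, hr1, hr2⟩ := exists_node hK hG hR hx hr.1 hr.2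
  have hsP := sN_pos hK P
  have hr0 : 0 < r := lt_of_lt_of_le (by positivity) hr1
  obtain ⟨κ, hκ0, hκ1, hκ2, hκ3⟩ : ∃ κ : ℝ, 0 ≤ κ ∧ κ ≤ 1 / 5 ∧ (κ = 0 ∨ r = loT K N root R x) ∧
      ((κ = 0 ∧ (loT K N root R x < r ∨ r = sN K R)) ∨ (1 / 8 * ‖e'‖ ≤ κ ∧ r < sN K R)) := by
    by_cases h : loT K N root R x < r ∨ r = sN K R
    · exact ⟨0, le_rfl, by norm_num, Or.inl rfl, Or.inl ⟨rfl, h⟩⟩
    · push Not at h
      exact ⟨1 / 5, by norm_num, le_rfl, Or.inr (le_antisymm h.1 hr.1),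
        Or.inr ⟨by linarith, lt_of_le_of_ne hr.2 h.2⟩⟩
  have h1 := hder x e' r κ hr hU hd hκ3
  have h2 := hErr P hP x hxP r κ hr1 hr2 hr.1 hr.2 hmax hκ0 hκ1 hκ2
  refine le_trans ?_ (ENNReal.le_tsum P)
  rw [if_pos hP]
  refine le_trans ?_ (mul_le_mul_right h2 _)
  rw [← ENNReal.ofReal_mul (by positivity)]
  set I := ∫ y in ball x r, dot (e' + ((κ / r : ℝ) : ℂ) * (y - x)) (grad b y)
  by_cases hI : 0 ≤ I
  · have : 0 ≤ I / (Real.pi * r ^ 2) := div_nonneg hI (by positivity)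
    rw [ENNReal.ofReal_of_nonpos (show -fderiv ℝ (WT b K N root R) x e' ≤ 0 by
      unfold WT; linarith)]
    exact zero_le
  · push Not at hI
    refine ENNReal.ofReal_le_ofReal ?_
    have h3 : -fderiv ℝ (WT b K N root R) x e' ≤ (-I) / (Real.pi * r ^ 2) := by
      rw [neg_div]; unfold WT; linarith
    refine h3.trans ?_
    rw [div_le_iff₀ (by positivity)]
    have h4 : sN K P ≤ r * (2 * K) := by rwa [div_le_iff₀ (by positivity)] at hr1
    have h5 : sN K P ^ 2 ≤ (r * (2 * K)) ^ 2 := pow_le_pow_left₀ hsP.le h4 2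
    have h6 : 1 ≤ (2 * K) ^ 2 / sN K P ^ 2 * r ^ 2 := by
      rw [div_mul_eq_mul_div, le_div_iff₀ (by positivity)]; nlinarith
    have h7 : 1 ≤ (2 * K) ^ 2 / sN K P ^ 2 * (Real.pi * r ^ 2) := by
      have := Real.pi_gt_three
      have h8 : 0 ≤ (2 * (K : ℝ)) ^ 2 / sN K P ^ 2 * r ^ 2 := by positivity
      nlinarith
    nlinarith

theorem core0_sum_err {N : ℕ} {root : Node → Node} {R : Node} {K : ℕ} (hK : 1 ≤ K) {CE : ℝ}
    (Err : Node → ℂ → ℝ≥0∞) (M : Node → ℝ) (hm : ∀ P, Measurable (Err P))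
    (hI : ∀ P, ∫⁻ x, Err P x ≤ ENNReal.ofReal (CE * sN K P ^ 2 * M P)) :
    Measurable (fun x => ∑' P : Node, (if P ∈ treeOf N root R then
        ENNReal.ofReal ((2 * K) ^ 2 / sN K P ^ 2) * Err P x else 0)) ∧
    ∫⁻ x, ∑' P : Node, (if P ∈ treeOf N root R then
        ENNReal.ofReal ((2 * K) ^ 2 / sN K P ^ 2) * Err P x else 0) ≤
      ∑' P : Node, (if P ∈ treeOf N root R then
        ENNReal.ofReal ((2 * K) ^ 2 * CE * M P) else 0) := by
  have hmeas : ∀ P : Node, Measurable (fun x => if P ∈ treeOf N root R then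
        ENNReal.ofReal ((2 * K) ^ 2 / sN K P ^ 2) * Err P x else 0) := by
    intro P
    by_cases h : P ∈ treeOf N root R
    · simp only [h, if_true]; exact (hm P).const_mul _
    · simp only [h, if_false]; exact measurable_const
  refine ⟨Measurable.ennreal_tsum hmeas, ?_⟩
  rw [lintegral_tsum fun P => (hmeas P).aemeasurable]
  refine ENNReal.tsum_le_tsum fun P => ?_
  by_cases h : P ∈ treeOf N root R
  · simp only [h, if_true]
    rw [lintegral_const_mul _ (hm P)]
    refine (mul_le_mul_right (hI P) _).trans ?_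
    have := sN_pos hK P
    rw [← ENNReal.ofReal_mul (by positivity)]
    refine le_of_eq (congrArg _ ?_)
    field_simp
  · simp [h]

theorem core0_ofReal_sum {C : ℝ} (hC : 0 ≤ C) (s : Finset (ℤ × ℤ)) (f g : ℤ × ℤ → ℝ)
    (hg : ∀ c, 0 ≤ g c) :
    ENNReal.ofReal (C * ∑ c ∈ s, (f c + g c)) ≤
      ENNReal.ofReal C * (ENNReal.ofReal (∑ c ∈ s, f c) + ∑ c ∈ s, ENNReal.ofReal (g c)) := by
  rw [ENNReal.ofReal_mul hC, Finset.sum_add_distrib,
    ← ENNReal.ofReal_sum_of_nonneg (fun c _ => hg c)]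
  exact mul_le_mul_right ENNReal.ofReal_add_le _

theorem core0 (hF : ForestStmt) (hL : LatStmt) (hN : NodeDataStmt) (hE : ELemmaStmt)
    (hD : DerivStmt) (hT : TopStmt) (hTr : TreeStmt) : Core0Stmt := by
  obtain ⟨K₀, hE⟩ := hE
  refine ⟨max 1024 ⌈K₀⌉₊, fun K hK h8 => ?_⟩
  have hK1024 : 1024 ≤ K := (le_max_left _ _).trans hK
  have hK1 : 1 ≤ K := by omega
  have hKK : K₀ ≤ (K : ℝ) :=
    (Nat.le_ceil K₀).trans (by exact_mod_cast (le_max_right _ _).trans hK)
  obtain ⟨CF, hF⟩ := hF K hK1024 h8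
  obtain ⟨CN, hCN, hN⟩ := hN
  obtain ⟨CE, hCE, hE⟩ := hE K hKK
  obtain ⟨CT, hCT, hT⟩ := hT K (by exact_mod_cast (show 4 ≤ K by omega))
  obtain ⟨CR, hTr⟩ := hTr
  refine ⟨CR * ((2 * Real.toNNReal ((2 * K) ^ 2 * CE * CN) + Real.toNNReal (CT * CN)) *
    (CF + 33 ^ 2 * 4)), fun b hb N hyp => ?_⟩
  have hγ := hb.integrable_grad
  obtain ⟨hadd, h0, hX0, -, hXs⟩ := hL K hK1 (grad b) hγ
  set m₀ := ∫⁻ y, ‖grad b y‖ₑ with hm₀
  set u := lat K (grad b) with hu
  obtain ⟨root, e, θ, hG, hθ, hS1, hS2⟩ := hF u N m₀ ⟨hadd, h0, hyp⟩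
  choose d hd using fun P : Node => hN K (by omega) (grad b) hγ (θ P) (hθ P).2.1 P.1 P.2
  set Mν : Node → ℝ := fun P =>
    CN * ∑ c ∈ nbhd 16 P.2, (aexc (θ P) (u P.1 c) + X K (grad b) P.1 c) with hMν
  set MΓ : Node → ℝ := fun P =>
    CN * ∑ c ∈ nbhd 16 P.2, (‖u P.1 c‖ + X K (grad b) P.1 c) with hMΓ
  have hMν0 : ∀ P, 0 ≤ Mν P := fun P => mul_nonneg hCN (Finset.sum_nonneg fun c _ =>
    add_nonneg (aexc_nonneg (hθ P).2.1.le _) (hX0 _ _))
  have hMΓ0 : ∀ P, 0 ≤ MΓ P := fun P => mul_nonneg hCN (Finset.sum_nonneg fun c _ =>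
    add_nonneg (norm_nonneg _) (hX0 _ _))
  have hdir : ∀ (P : Node) (t : ℝ), |t| = 1 / 4 →
      ‖e (root P) * (1 + t * Complex.I) - θ P‖ ≤ 1 / 2 := by
    intro P t ht
    have h1 := (core0_norm_dir (e (root P)) (hθ _).1 t ht).1
    have h2 := (hθ P).2.2
    have h3 := norm_sub_le (e (root P) * (1 + t * Complex.I) - e (root P)) (θ P - e (root P))
    rw [sub_sub_sub_cancel_right] at h3
    linarith
  have hEP := fun (t : ℝ) (ht : |t| = 1 / 4) (P : Node) =>
    hE b hb (θ P) (e (root P) * (1 + t * Complex.I)) (zN K P) (sN K P) (Mν P) (sN K (root P))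
      (d P) (loT K N root (root P)) (hθ P).2.1 (hdir P t ht) (sN_pos hK1 P) (hMν0 P)
      (fun j => (hd P j).1) (fun j => (hd P j).2.1)
      ((lip_loT hK1 N root (root P)).mono (by norm_num))
  have ht1 : |(1 / 4 : ℝ)| = 1 / 4 := by norm_num
  have ht2 : |(-(1 / 4) : ℝ)| = 1 / 4 := by norm_num
  choose Ep hEp1 hEp2 hEp3 using hEP _ ht1
  choose Em hEm1 hEm2 hEm3 using hEP _ ht2
  -- the bound for one tree
  have htree : ∀ R ∈ {R | R ∈ treeOf N root R},
      ∫⁻ x in ball (zN K R) (2 * sN K R), ‖grad (WT b K N root R) x‖ₑ ≤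
        CR * (2 * (∑' P : Node, (if P ∈ treeOf N root R then
          ENNReal.ofReal ((2 * K) ^ 2 * CE * Mν P) else 0)) + ENNReal.ofReal (CT * MΓ R)) := by
    intro R hR
    have hsR := sN_pos hK1 R
    obtain ⟨⟨L, hLip⟩, hatt, -⟩ := hD b hb (loT K N root R) (sN K R) (1 / K) (1 / 8)
      (by positivity) (by norm_num) (loT_bounds hK1 N root R) (lip_loT hK1 N root R)
    obtain ⟨κ₀, G, hGm, hGI, hGb⟩ := hT b hb (θ R) (zN K R) (sN K R) (MΓ R) (d R) hsR (hMΓ0 R)
      (fun j => (hd R j).1) (fun j => (hd R j).2.2)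
    obtain ⟨hp1, hp2⟩ := core0_sum_err (N := N) (root := root) (R := R) hK1 Ep Mν hEp1 hEp2
    obtain ⟨hm1, hm2⟩ := core0_sum_err (N := N) (root := root) (R := R) hK1 Em Mν hEm1 hEm2
    have key := hTr (WT b K N root R) L hLip (e R) (zN K R) (sN K R) κ₀ _ _ G (hθ R).1 hsR
      hp1 hm1 hGm ?_ ?_
    · refine key.trans (mul_le_mul_right ?_ _)
      refine add_le_add ((add_le_add hp2 hm2).trans (le_of_eq (two_mul _).symm)) ?_
      refine (mul_le_mul_right hGI _).trans ?_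
      rw [← ENNReal.ofReal_inv_of_pos hsR, ← ENNReal.ofReal_mul (by positivity)]
      refine le_of_eq (congrArg _ ?_)
      field_simp
    · intro x hx hdx
      have e1 : e R * (1 + Complex.I / 4) = e R * (1 + ((1 / 4 : ℝ) : ℂ) * Complex.I) := by
        push_cast; ring
      have e2 : e R * (1 - Complex.I / 4) = e R * (1 + ((-(1 / 4) : ℝ) : ℂ) * Complex.I) := by
        push_cast; ring
      rw [e1, e2]
      constructor
      · refine core0_neg hD hb hK1 hG hR _ (core0_norm_dir _ (hθ R).1 _ ht1).2 Ep ?_ hx hdx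
        intro P hP
        have := hEp3 P
        rw [hP.2] at this
        exact this
      · refine core0_neg hD hb hK1 hG hR _ (core0_norm_dir _ (hθ R).1 _ ht2).2 Em ?_ hx hdx
        intro P hP
        have := hEm3 P
        rw [hP.2] at this
        exact this
    · intro x hx
      obtain ⟨r, hr, hU, -⟩ := hatt x
      unfold WT
      rw [hU]
      refine hGb x hx r (lt_of_lt_of_le ?_ ((loT_bounds hK1 N root R x).1.trans hr.1)) hr.2
      positivity
  -- summation
  have hXn : ∑ n ∈ Finset.range (N + 1), ∑' a, ∑ c ∈ nbhd 16 a,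
      ENNReal.ofReal (X K (grad b) n c) ≤ 33 ^ 2 * 4 * m₀ := by
    simp_rw [tsum_nbhd]
    rw [← Finset.mul_sum, mul_assoc]
    exact mul_le_mul' (by norm_num) (hXs N)
  have hA : ∑ n ∈ Finset.range (N + 1), ∑' a, ENNReal.ofReal ((2 * K) ^ 2 * CE * Mν (n, a)) ≤
      ENNReal.ofReal ((2 * K) ^ 2 * CE * CN) * ((CF + 33 ^ 2 * 4) * m₀) := by
    calc _ ≤ ∑ n ∈ Finset.range (N + 1), ∑' a, ENNReal.ofReal ((2 * K) ^ 2 * CE * CN) *
          (ENNReal.ofReal (∑ c ∈ nbhd 16 a, aexc (θ (n, a)) (u n c)) +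
            ∑ c ∈ nbhd 16 a, ENNReal.ofReal (X K (grad b) n c)) := by
          refine Finset.sum_le_sum fun n _ => ENNReal.tsum_le_tsum fun a => ?_
          refine le_trans (le_of_eq (congrArg _ ?_))
            (core0_ofReal_sum (by positivity) _ _ _ (hX0 n))
          simp only [hMν]; ring
      _ ≤ _ := by
          simp_rw [ENNReal.tsum_mul_left, ENNReal.tsum_add]
          rw [← Finset.mul_sum, Finset.sum_add_distrib, add_mul]
          exact mul_le_mul_right (add_le_add hS1 hXn) _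
  have hB : ∑' R : Node, (if R ∈ treeOf N root R then ENNReal.ofReal (CT * MΓ R) else 0) ≤
      ENNReal.ofReal (CT * CN) * ((CF + 33 ^ 2 * 4) * m₀) := by
    calc _ = ∑' R : Node, (if R.1 ≤ N then
            (if root R = R then ENNReal.ofReal (CT * MΓ R) else 0) else 0) := by
          refine tsum_congr fun R => ?_
          by_cases h1 : R.1 ≤ N <;> by_cases h2 : root R = R <;> simp [treeOf, h1, h2]
      _ = ∑ n ∈ Finset.range (N + 1), ∑' a,
            (if root (n, a) = (n, a) then ENNReal.ofReal (CT * MΓ (n, a)) else 0) :=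
          tsum_node N _
      _ ≤ ∑ n ∈ Finset.range (N + 1), ∑' a, ENNReal.ofReal (CT * CN) *
          ((if root (n, a) = (n, a) then ENNReal.ofReal (Mloc u (n, a)) else 0) +
            ∑ c ∈ nbhd 16 a, ENNReal.ofReal (X K (grad b) n c)) := by
          refine Finset.sum_le_sum fun n _ => ENNReal.tsum_le_tsum fun a => ?_
          split_ifs with h
          · refine le_trans (le_of_eq (congrArg _ ?_))
              (core0_ofReal_sum (by positivity) _ _ _ (hX0 n))
            simp only [hMΓ]; ring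
          · exact zero_le
      _ ≤ _ := by
          simp_rw [ENNReal.tsum_mul_left, ENNReal.tsum_add]
          rw [← Finset.mul_sum, Finset.sum_add_distrib, add_mul]
          exact mul_le_mul_right (add_le_add hS2 hXn) _
  have hmeas : ∀ R : Node, Measurable (fun x => if R ∈ treeOf N root R then
      (ball (zN K R) (2 * sN K R)).indicator (fun x => ‖grad (WT b K N root R) x‖ₑ) x else 0) := by
    intro R
    by_cases h : R ∈ treeOf N root R
    · simp only [h, if_true]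
      exact (measurable_grad _).enorm.indicator measurableSet_ball
    · simp only [h, if_false]; exact measurable_const
  refine (lintegral_mono_ae (core0_cover hD hb hK1 hG)).trans ?_
  rw [lintegral_tsum fun R => (hmeas R).aemeasurable]
  calc _ ≤ ∑' R : Node, (CR : ℝ≥0∞) * (2 * (∑' P : Node, (if P ∈ treeOf N root R then
          ENNReal.ofReal ((2 * K) ^ 2 * CE * Mν P) else 0)) +
          (if R ∈ treeOf N root R then ENNReal.ofReal (CT * MΓ R) else 0)) := by
        refine ENNReal.tsum_le_tsum fun R => ?_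
        by_cases h : R ∈ treeOf N root R
        · simp only [h, if_true]
          rw [lintegral_indicator measurableSet_ball]
          exact htree R h
        · simp [h]
    _ ≤ _ := by
        rw [ENNReal.tsum_mul_left, ENNReal.tsum_add, ENNReal.tsum_mul_left, tsum_tree]
        refine (mul_le_mul_right (add_le_add (mul_le_mul_right hA 2) hB) _).trans (le_of_eq ?_)
        simp only [ENNReal.ofReal]
        push_cast
        ring

end

end Crest.Agent.R112
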