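import Crest.Agent.R112.Basic

/-! Row 112: geometry of the lower radius function of a tree. -/

set_option autoImplicit false

namespace Crest.Agent.R112

open MeasureTheory Set Metric Filter Topology
open scoped ENNReal NNReal Classical

noncomputable section

/-- side length of a node -/
def sN (K : ℕ) (P : Node) : ℝ := (K : ℝ) ^ P.1

/-- centre of a node -/
def zN (K : ℕ) (P : Node) : ℂ := cen (sN K P) P.2

def rhoP (K : ℕ) (P : Node) (x : ℂ) : ℝ := sN K P / K + 1 / 8 * max 0 (dist x (zN K P) - sN K P)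

def treeOf (N : ℕ) (root : Node → Node) (R : Node) : Set Node := {P | P.1 ≤ N ∧ root P = R}

/-- lower radius function of the tree with root `R` -/
def loT (K N : ℕ) (root : Node → Node) (R : Node) (x : ℂ) : ℝ :=
  min (sN K R) (max (1 / K) (sInf ((fun P => rhoP K P x) '' treeOf N root R)))

theorem one_le_sN {K : ℕ} (hK : 1 ≤ K) (P : Node) : 1 ≤ sN K P :=
  one_le_pow₀ (by exact_mod_cast hK)

theorem sN_pos {K : ℕ} (hK : 1 ≤ K) (P : Node) : 0 < sN K P :=
  lt_of_lt_of_le one_pos (one_le_sN hK P)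

theorem rhoP_nonneg {K : ℕ} (hK : 1 ≤ K) (P : Node) (x : ℂ) : 0 ≤ rhoP K P x := by
  have := sN_pos hK P
  unfold rhoP; positivity

theorem rhoP_le {K : ℕ} (P : Node) (x y : ℂ) : rhoP K P x ≤ rhoP K P y + 1 / 8 * ‖x - y‖ := by
  unfold rhoP
  have h1 : dist x (zN K P) ≤ dist y (zN K P) + ‖x - y‖ := by
    have := dist_triangle x y (zN K P)
    rw [dist_eq_norm x y] at this; linarith
  have h2 : max 0 (dist x (zN K P) - sN K P) ≤ max 0 (dist y (zN K P) - sN K P) + ‖x - y‖ := by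
    refine max_le ?_ ?_
    · have := le_max_left 0 (dist y (zN K P) - sN K P); have := norm_nonneg (x - y); linarith
    · have := le_max_right 0 (dist y (zN K P) - sN K P); linarith
  linarith

theorem bdd_rhoP {K : ℕ} (hK : 1 ≤ K) (T : Set Node) (x : ℂ) :
    BddBelow ((fun P => rhoP K P x) '' T) :=
  ⟨0, by rintro _ ⟨P, -, rfl⟩; exact rhoP_nonneg hK P x⟩

theorem sInf_rhoP_le {K : ℕ} (hK : 1 ≤ K) (T : Set Node) (x y : ℂ) :
    sInf ((fun P => rhoP K P x) '' T) ≤ sInf ((fun P => rhoP K P y) '' T) + 1 / 8 * ‖x - y‖ := by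
  rcases T.eq_empty_or_nonempty with rfl | hT
  · simp
  · have : sInf ((fun P => rhoP K P x) '' T) - 1 / 8 * ‖x - y‖
        ≤ sInf ((fun P => rhoP K P y) '' T) := by
      refine le_csInf (hT.image _) ?_
      rintro _ ⟨P, hP, rfl⟩
      have h1 := csInf_le (bdd_rhoP hK T x) ⟨P, hP, rfl⟩
      have h2 := rhoP_le (K := K) P x y
      simp only at h1 ⊢
      linarith
    linarith

theorem lip_loT {K : ℕ} (hK : 1 ≤ K) (N : ℕ) (root : Node → Node) (R : Node) :
    Lip (1 / 8) (loT K N root R) := by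
  intro x y
  have h1 := sInf_rhoP_le hK (treeOf N root R) x y
  have h2 := sInf_rhoP_le hK (treeOf N root R) y x
  rw [norm_sub_rev y x] at h2
  have h3 : |sInf ((fun P => rhoP K P x) '' treeOf N root R) -
      sInf ((fun P => rhoP K P y) '' treeOf N root R)| ≤ 1 / 8 * ‖x - y‖ :=
    abs_le.mpr ⟨by linarith, by linarith⟩
  unfold loT
  rw [Real.norm_eq_abs]
  refine (abs_min_sub_min_le_max _ _ _ _).trans (max_le (by simp) ?_)
  exact (abs_max_sub_max_le_max _ _ _ _).trans (max_le (by simp) h3)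

theorem loT_bounds {K : ℕ} (hK : 1 ≤ K) (N : ℕ) (root : Node → Node) (R : Node) (x : ℂ) :
    1 / (K : ℝ) ≤ loT K N root R x ∧ loT K N root R x ≤ sN K R := by
  refine ⟨le_min ?_ (le_max_left _ _), min_le_left _ _⟩
  have h1 : (1 : ℝ) ≤ K := by exact_mod_cast hK
  have h2 := one_le_sN hK R
  have : 1 / (K : ℝ) ≤ 1 := by rw [div_le_one (by linarith)]; exact h1
  linarith

theorem loT_le {K : ℕ} (hK : 1 ≤ K) {N : ℕ} {root : Node → Node} {R P : Node}
    (hP : P ∈ treeOf N root R) {x : ℂ} (hx : dist x (zN K P) ≤ sN K P) :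
    loT K N root R x ≤ sN K P / K := by
  refine (min_le_right _ _).trans (max_le ?_ ?_)
  · have h1 : (0 : ℝ) < K := by exact_mod_cast hK
    exact div_le_div_of_nonneg_right (one_le_sN hK P) h1.le
  · refine (csInf_le (bdd_rhoP hK _ x) ⟨P, hP, rfl⟩).trans ?_
    show rhoP K P x ≤ _
    unfold rhoP
    rw [max_eq_left (show dist x (zN K P) - sN K P ≤ 0 by linarith)]; simp

/-- an admissible pair `(x, r)` of the tree is close to a node of the tree of the right size -/
theorem exists_node {K N : ℕ} (hK : 1 ≤ K) {root : Node → Node} (hG : Geom K N root) {R : Node}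
    (hR : R ∈ treeOf N root R) {x : ℂ} (hx : x ∈ ball (zN K R) (4 * sN K R)) {r : ℝ}
    (h1 : loT K N root R x ≤ r) (h2 : r ≤ sN K R) :
    ∃ P ∈ treeOf N root R, x ∈ ball (zN K P) (12 * sN K P) ∧ sN K P / (2 * K) ≤ r ∧ r ≤ sN K P := by
  have hK1 : (1 : ℝ) ≤ K := by exact_mod_cast hK
  have hK0 : (0 : ℝ) < K := by linarith
  have hr0 : 0 < r := lt_of_lt_of_le (by positivity) ((loT_bounds hK N root R x).1.trans h1)
  by_cases hs : sN K R ≤ r
  · refine ⟨R, hR, ?_, ?_, h2⟩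
    · have := sN_pos hK R
      exact ball_subset_ball (by linarith) hx
    · have := sN_pos hK R
      have : sN K R / (2 * K) ≤ sN K R := div_le_self this.le (by linarith)
      linarith
  · have h3 : sInf ((fun P => rhoP K P x) '' treeOf N root R) ≤ r := by
      unfold loT at h1
      rcases min_le_iff.mp h1 with h | h
      · exact absurd h hs
      · exact (le_max_right _ _).trans h
    obtain ⟨_, ⟨P, hP, rfl⟩, hlt⟩ := exists_lt_of_csInf_lt
      ((show (treeOf N root R).Nonempty from ⟨R, hR⟩).image (fun P => rhoP K P x))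
      (show _ < 9 / 8 * r by linarith)
    simp only at hlt
    obtain ⟨hl1, hl2, -, hanc⟩ := hG P hP.1
    rw [hP.2] at hl1 hl2 hanc
    have hex : ∃ m, P.1 ≤ m ∧ r ≤ (K : ℝ) ^ m := ⟨R.1, hl1, h2⟩
    have hm := Nat.find_spec hex
    have hmR : Nat.find hex ≤ R.1 := Nat.find_min' hex ⟨hl1, h2⟩
    set m := Nat.find hex with hmdef
    obtain ⟨a, ha1, ha2, -⟩ := hanc m hm.1 hmR
    have hsP := sN_pos hK P
    have hmax := le_max_left 0 (dist x (zN K P) - sN K P)
    have hmax2 := le_max_right 0 (dist x (zN K P) - sN K P)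
    have hdiv : 0 < sN K P / K := by positivity
    have hPm : sN K P ≤ (K : ℝ) ^ m := pow_le_pow_right₀ hK1 hm.1
    unfold rhoP at hlt
    refine ⟨(m, a), ⟨hmR.trans hl2, ha1⟩, ?_, ?_, hm.2⟩
    · rw [mem_ball]
      have ht := dist_triangle x (zN K P) (zN K (m, a))
      have hd : dist (zN K P) (zN K (m, a)) ≤ (K : ℝ) ^ m := ha2
      have : sN K (m, a) = (K : ℝ) ^ m := rfl
      rw [this]
      have := hm.2
      linarith
    · show (K : ℝ) ^ m / (2 * K) ≤ r
      rw [div_le_iff₀ (by positivity)]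
      rcases eq_or_lt_of_le hm.1 with h | h
      · have h4 : sN K P / K < 9 / 8 * r := by linarith
        rw [div_lt_iff₀ hK0] at h4
        have : (K : ℝ) ^ m = sN K P := by rw [← h]; rfl
        rw [this]; nlinarith
      · obtain ⟨m', hm'⟩ : ∃ m', m = m' + 1 := ⟨m - 1, by omega⟩
        have h5 : ¬(P.1 ≤ m' ∧ r ≤ (K : ℝ) ^ m') := Nat.find_min hex (by omega)
        have h6 : (K : ℝ) ^ m' < r := by
          by_contra hc
          exact h5 ⟨by omega, not_lt.mp hc⟩
        rw [hm', pow_succ]; nlinarith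

theorem exists_cube_near {σ : ℝ} (hσ : 0 < σ) (x : ℂ) : ∃ a, dist x (cen σ a) < σ := by
  refine ⟨(⌊x.re / σ⌋, ⌊x.im / σ⌋), ?_⟩
  have key : ∀ t : ℝ, |t - σ * (⌊t / σ⌋ + 1 / 2)| ≤ σ / 2 := by
    intro t
    have h1 := Int.floor_le (t / σ)
    have h2 := Int.lt_floor_add_one (t / σ)
    rw [le_div_iff₀ hσ] at h1
    rw [div_lt_iff₀ hσ] at h2
    rw [abs_le]; constructor <;> nlinarith
  have h1 := key x.re
  have h2 := key x.im
  rw [Complex.dist_eq]
  have h3 : ‖x - cen σ (⌊x.re / σ⌋, ⌊x.im / σ⌋)‖ ^ 2 < σ ^ 2 := by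
    rw [Complex.sq_norm, Complex.normSq_apply]
    simp only [cen, Complex.sub_re, Complex.sub_im]
    rw [abs_le] at h1 h2
    nlinarith
  exact lt_of_pow_lt_pow_left₀ 2 hσ.le h3

/-- every pair `(x, r)` is admissible for some tree -/
theorem exists_tree {K N : ℕ} (hK : 1 ≤ K) {root : Node → Node} (hG : Geom K N root) (x : ℂ)
    {r : ℝ} (h1 : 1 / (K : ℝ) ≤ r) (h2 : r ≤ (K : ℝ) ^ N) :
    ∃ R ∈ treeOf N root R, x ∈ ball (zN K R) (2 * sN K R) ∧ loT K N root R x ≤ r ∧ r ≤ sN K R := by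
  have hK1 : (1 : ℝ) ≤ K := by exact_mod_cast hK
  have hK0 : (0 : ℝ) < K := by linarith
  have hex : ∃ n, r ≤ (K : ℝ) ^ n := ⟨N, h2⟩
  have hn := Nat.find_spec hex
  have hnN : Nat.find hex ≤ N := Nat.find_min' hex h2
  set n := Nat.find hex with hndef
  obtain ⟨a, ha⟩ := exists_cube_near (show (0 : ℝ) < (K : ℝ) ^ n by positivity) x
  obtain ⟨hl1, hl2, hrr, hanc⟩ := hG (n, a) hnN
  obtain ⟨a', -, hd, heq⟩ := hanc (root (n, a)).1 hl1 le_rfl
  have heq' := heq rfl
  have hle : (K : ℝ) ^ n ≤ sN K (root (n, a)) := pow_le_pow_right₀ hK1 hl1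
  refine ⟨root (n, a), ⟨hl2, hrr⟩, ?_, ?_, hn.trans hle⟩
  · rw [mem_ball]
    have hz : zN K (root (n, a)) = cen ((K : ℝ) ^ (root (n, a)).1) a' := by
      conv_lhs => rw [← heq']
      rfl
    have ht := dist_triangle x (cen ((K : ℝ) ^ n) a) (zN K (root (n, a)))
    rw [hz] at ht ⊢
    have hd' : dist (cen ((K : ℝ) ^ n) a) (cen ((K : ℝ) ^ (root (n, a)).1) a')
        ≤ sN K (root (n, a)) := hd
    linarith
  · refine (loT_le hK (P := (n, a)) ⟨hnN, rfl⟩ ha.le).trans ?_
    show (K : ℝ) ^ n / K ≤ r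
    rcases Nat.eq_zero_or_pos n with h | h
    · rw [h, pow_zero]; exact h1
    · obtain ⟨n', hn'⟩ : ∃ n', n = n' + 1 := ⟨n - 1, by omega⟩
      have h5 : ¬(r ≤ (K : ℝ) ^ n') := Nat.find_min hex (by omega)
      rw [hn', pow_succ, mul_div_assoc, div_self hK0.ne', mul_one]
      exact (not_le.mp h5).le

theorem tsum_node (N : ℕ) (f : Node → ℝ≥0∞) :
    ∑' P : Node, (if P.1 ≤ N then f P else 0) = ∑ n ∈ Finset.range (N + 1), ∑' a, f (n, a) := by
  rw [ENNReal.tsum_prod', tsum_eq_sum (s := Finset.range (N + 1))]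
  · refine Finset.sum_congr rfl fun n hn => tsum_congr fun a => ?_
    rw [if_pos (by simpa [Nat.lt_succ_iff] using hn)]
  · intro n hn
    have : ¬ n ≤ N := by simpa [Nat.lt_succ_iff] using hn
    simp [this]

theorem tsum_tree (N : ℕ) (root : Node → Node) (f : Node → ℝ≥0∞) :
    ∑' R : Node, ∑' P : Node, (if P ∈ treeOf N root R then f P else 0) =
      ∑ n ∈ Finset.range (N + 1), ∑' a, f (n, a) := by
  rw [ENNReal.tsum_comm, ← tsum_node]
  refine tsum_congr fun P => ?_
  rw [tsum_eq_single (root P)]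
  · simp [treeOf]
  · intro R hR
    rw [if_neg (fun h => hR h.2.symm)]

end

end Crest.Agent.R112
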