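import Mathlib
import Crest.Prelude.Def_MaximalSobolev

/-!
# Row 112 (S0147): definitions and statements of the lemmas

Everything is done on `ℂ` (real plane); the last step transfers to `EuclideanSpace ℝ (Fin 2)`.
Each `...Stmt : Prop` is proved in its own file from the statements named in the task.
-/

set_option autoImplicit false

namespace Crest.Agent.R112

open MeasureTheory Set Metric Filter Topology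
open scoped ENNReal NNReal Classical

noncomputable section

/-! ### Analysis on `ℂ` -/

/-- real scalar product -/
def dot (z w : ℂ) : ℝ := z.re * w.re + z.im * w.im

/-- gradient as a complex number: `fderiv ℝ b y v = dot (grad b y) v` -/
def grad (b : ℂ → ℝ) (y : ℂ) : ℂ := ⟨fderiv ℝ b y 1, fderiv ℝ b y Complex.I⟩

/-- average over the disc -/
def avg (b : ℂ → ℝ) (x : ℂ) (r : ℝ) : ℝ := (∫ y in ball x r, b y) / (Real.pi * r ^ 2)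

/-- supremum of disc averages over the radii in `[lo x, hi]` -/
def Usup (b : ℂ → ℝ) (lo : ℂ → ℝ) (hi : ℝ) (x : ℂ) : ℝ := sSup (avg b x '' Icc (lo x) hi)

/-- supremum of disc averages over the radii in `[K^i, K^l]` -/
def Wr (b : ℂ → ℝ) (K : ℕ) (i l : ℤ) : ℂ → ℝ := Usup b (fun _ => (K : ℝ) ^ i) ((K : ℝ) ^ l)

def C1c (b : ℂ → ℝ) : Prop := ContDiff ℝ 1 b ∧ HasCompactSupport b

/-- Lipschitz bound with a real constant -/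
def Lip {F : Type} [NormedAddCommGroup F] (L : ℝ) (V : ℂ → F) : Prop :=
  ∀ y y' : ℂ, ‖V y - V y'‖ ≤ L * ‖y - y'‖

/-- the wide cone around the unit vector `θ` -/
def Cone (θ v : ℂ) : Prop := |dot (Complex.I * θ) v| ≤ 4 * dot θ v

/-- points within distance `t` of `F` -/
def near (F : Set ℂ) (t : ℝ) : Set ℂ := {p | ∃ y ∈ F, dist p y ≤ t}

/-- closed thin annulus of half width `w` -/
def Ann (x : ℂ) (r w : ℝ) : Set ℂ := {p | |dist p x - r| ≤ w}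

/-! ### Level data: two finite atomic measures controlling `γ` at scale `σ` -/

structure Atoms where
  I : Finset (ℤ × ℤ)
  pos : ℤ × ℤ → ℂ
  Γ : ℤ × ℤ → ℝ
  ν : ℤ × ℤ → ℝ

/-- mass of a set -/
def Atoms.mΓ (d : Atoms) (F : Set ℂ) : ℝ := ∑ i ∈ d.I.filter (fun i => d.pos i ∈ F), d.Γ i

/-- error mass of a set -/
def Atoms.mν (d : Atoms) (F : Set ℂ) : ℝ := ∑ i ∈ d.I.filter (fun i => d.pos i ∈ F), d.ν i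

structure LevelData (γ : ℂ → ℂ) (θ : ℂ) (Ω : Set ℂ) (σ : ℝ) (d : Atoms) : Prop where
  Γ_nonneg : ∀ i, 0 ≤ d.Γ i
  ν_nonneg : ∀ i, 0 ≤ d.ν i
  ub : ∀ (V : ℂ → ℂ) (F : Set ℂ) (a Λ : ℝ), 0 ≤ a → 0 ≤ Λ → F ⊆ Ω → (∀ y, y ∉ F → V y = 0) →
    (∀ y, ‖V y‖ ≤ a) → Lip Λ V →
    |∫ y, dot (V y) (γ y)| ≤ (a + Λ * σ) * d.mΓ (near F (2 * σ))
  lb : ∀ (V : ℂ → ℂ) (F : Set ℂ) (a Λ : ℝ), 0 ≤ a → 0 ≤ Λ → F ⊆ Ω → (∀ y, y ∉ F → V y = 0) →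
    (∀ y, ‖V y‖ ≤ a) → Lip Λ V → (∀ y, Cone θ (V y)) →
    -((a + Λ * σ) * d.mν (near F (2 * σ))) ≤ ∫ y, dot (V y) (γ y)
  gain : ∀ (τ : ℂ → ℝ) (e : ℂ) (F G : Set ℂ) (a Λ c : ℝ), ‖e - θ‖ ≤ 1 / 2 → 0 ≤ a → 0 ≤ Λ → 0 ≤ c →
    F ⊆ Ω → (∀ y, y ∉ F → τ y = 0) → (∀ y, 0 ≤ τ y ∧ τ y ≤ a) → Lip Λ τ → (∀ y ∈ G, c ≤ τ y) →
    c / 100 * d.mΓ {p | closedBall p (2 * σ) ⊆ G} - (a + Λ * σ) * d.mν univ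
      ≤ ∫ y, τ y * dot e (γ y)

/-! ### Annuli and mixtures -/

def ann (x : ℂ) (α β : ℝ) : Set ℂ := ball x β \ ball x α

/-- unit vector from `x` to `y` -/
def nhat (x y : ℂ) : ℂ := (y - x) / (‖y - x‖ : ℂ)

def tauA (α β ρ : ℝ) : ℝ := (β - max α (min ρ β)) / ((β ^ 2 - α ^ 2) / 2)

def tailA (α β ρ : ℝ) : ℝ := (β ^ 2 - (max α (min ρ β)) ^ 2) / (β ^ 2 - α ^ 2)

def tauM (r σ t ρ : ℝ) : ℝ := (1 - t) * tauA (r - σ) r ρ + t * tauA r (r + σ) ρ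

/-- normalised excess of `b` over the disc average on an annulus -/
def Aav (b : ℂ → ℝ) (x : ℂ) (r α β : ℝ) : ℝ :=
  (∫ y in ann x α β, (b y - avg b x r)) / ((β ^ 2 - α ^ 2) / 2)

/-- the mixture of the inner and outer annulus with parameter `t` has excess zero -/
def Bal (b : ℂ → ℝ) (x : ℂ) (r σ t : ℝ) : Prop :=
  0 ≤ t ∧ t ≤ 1 ∧ (1 - t) * Aav b x r (r - σ) r + t * Aav b x r r (r + σ) = 0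

def yv (γ : ℂ → ℂ) (e x : ℂ) (r σ t : ℝ) : ℝ := -∫ y, tauM r σ t ‖y - x‖ * dot e (γ y)

def yk (γ : ℂ → ℂ) (e : ℂ) (κ : ℝ) (x : ℂ) (r σ t : ℝ) : ℝ :=
  -∫ y, tauM r σ t ‖y - x‖ * dot (e + ((κ / r : ℝ) : ℂ) * (y - x)) (γ y)

def IBP1Stmt : Prop :=
  ∀ (b : ℂ → ℝ), C1c b → ∀ (x e : ℂ) (α β c : ℝ), 0 < α → α < β →
    ∫ y, tauA α β ‖y - x‖ * dot e (grad b y) =
      (∫ y in ann x α β, (b y - c) * dot e (nhat x y)) / ((β ^ 2 - α ^ 2) / 2)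

def IBP2Stmt : Prop :=
  ∀ (b : ℂ → ℝ), C1c b → ∀ (x e : ℂ) (lam c α β α' β' : ℝ), 0 ≤ α → α < β → 0 ≤ α' → α' < β' →
    (∫ y in ann x α β, (b y - c) * (lam - dot e (nhat x y))) / ((β ^ 2 - α ^ 2) / 2) -
      (∫ y in ann x α' β', (b y - c) * (lam - dot e (nhat x y))) / ((β' ^ 2 - α' ^ 2) / 2) =
    ∫ y, (tailA α β ‖y - x‖ - tailA α' β' ‖y - x‖) * (lam - dot e (nhat x y)) / ‖y - x‖ *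
      dot (nhat x y) (grad b y)

def BalStmt : Prop :=
  ∀ (b : ℂ → ℝ), C1c b → ∀ (x : ℂ) (r σ : ℝ), 0 < σ → σ < r →
    avg b x (r - σ) ≤ avg b x r → avg b x (r + σ) ≤ avg b x r → ∃ t, Bal b x r σ t

def StartStmt : Prop :=
  ∃ C : ℝ, 0 ≤ C ∧ ∀ (f : ℂ → ℝ), Continuous f → ∀ (x : ℂ) (r σ t L : ℝ), 0 < σ → σ ≤ r / 2 →
    0 ≤ t → t ≤ 1 → (∀ y ∈ closedBall x (2 * r), |f y| ≤ L) →
    |r * (∫ y, tauM r σ t ‖y - x‖ * f y) - ∫ y in ball x r, f y| ≤ C * L * r * σ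

def BoundStmt : Prop :=
  ∃ C : ℝ, 0 ≤ C ∧ ∀ (γ : ℂ → ℂ) (θ e : ℂ) (Ω : Set ℂ) (σ : ℝ) (d : Atoms) (x : ℂ) (r t : ℝ),
    ‖θ‖ = 1 → ‖e - θ‖ ≤ 1 / 2 → LevelData γ θ Ω σ d → 0 < σ → σ ≤ r / 2 →
    closedBall x (2 * r) ⊆ Ω → 0 ≤ t → t ≤ 1 →
    r * yv γ e x r σ t ≤ C * d.mν univ ∧
      (0 ≤ yv γ e x r σ t → d.mΓ (ball x (r - 3 * σ)) ≤ C * d.mν univ)

def StepStmt : Prop :=
  ∃ C c₁ : ℝ, 0 ≤ C ∧ 0 < c₁ ∧ c₁ ≤ 1 ∧ ∀ (b : ℂ → ℝ), C1c b →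
    ∀ (θ e : ℂ) (Ω : Set ℂ) (σ' σ D : ℝ) (d : Atoms) (x q : ℂ) (r t t' : ℝ),
    ‖θ‖ = 1 → ‖e - θ‖ ≤ 1 / 2 → LevelData (grad b) θ Ω σ' d → 0 < σ' → 2 * σ' ≤ σ → σ ≤ D →
    D ≤ c₁ * r → closedBall x (2 * r) ⊆ Ω → Bal b x r σ t → Bal b x r σ' t' →
    0 ≤ yv (grad b) e x r σ' t' →
    r * yv (grad b) e x r σ' t' - C * (d.mΓ (Ann x r (2 * σ) \ ball q D) + D / r * d.mν univ)
      ≤ r * yv (grad b) e x r σ t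

def EndStmt : Prop :=
  ∃ C : ℝ, 0 ≤ C ∧ ∀ (γ : ℂ → ℂ), Integrable γ → ∀ (θ e : ℂ) (Ω : Set ℂ) (σ : ℕ → ℝ)
    (d : ℕ → Atoms) (j₁ j : ℕ) (x : ℂ) (r t κ : ℝ),
    ‖θ‖ = 1 → ‖e - θ‖ ≤ 1 / 2 → (∀ i, 0 < σ i) → (∀ i, 2 * σ (i + 1) ≤ σ i) → j₁ ≤ j →
    (∀ i, LevelData γ θ Ω (σ i) (d i)) → σ j₁ ≤ r / 4 → closedBall x (2 * r) ⊆ Ω →
    0 ≤ t → t ≤ 1 → 0 ≤ κ → κ ≤ 1 / 5 →
    r * yk γ e κ x r (σ j) t ≤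
      C * ((d j₁).mν univ + ∑ i ∈ Finset.Ioc j₁ j, (d i).mν (Ann x r (3 * σ (i - 1))))

def KinkStmt : Prop :=
  ∃ C : ℝ, 0 ≤ C ∧ ∀ (d : Atoms), (∀ i, 0 ≤ d.Γ i) → ∀ (z : ℂ) (s w D m T : ℝ),
    0 < w → w ≤ s → 0 < D → 0 < m → 0 ≤ T →
    volume {x ∈ ball z (12 * s) | ∃ r, 0 < r ∧ r ≤ s ∧ d.mΓ (ball x (r - w)) ≤ T ∧
        ∀ q : ℂ, m ≤ d.mΓ (Ann x r w \ ball q D)}
      ≤ ENNReal.ofReal (C * ((T + m) / m) ^ 2 * (s ^ 3 * w / D ^ 2))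

def StripStmt : Prop :=
  ∃ C : ℝ, 0 ≤ C ∧ ∀ (ρ : ℂ → ℝ), Lip (1 / 2) ρ → ∀ (p : ℂ) (L w : ℝ), 0 < L → 0 < w →
    volume {x : ℂ | |dist p x - ρ x| ≤ w ∧ dist p x ≤ L} ≤ ENNReal.ofReal (C * L * w)

/-- the main local estimate -/
def ELemmaStmt : Prop :=
  ∃ K₀ : ℝ, ∀ K : ℝ, K₀ ≤ K → ∃ C : ℝ, 0 ≤ C ∧ ∀ (b : ℂ → ℝ), C1c b →
    ∀ (θ e z : ℂ) (s M R : ℝ) (d : ℕ → Atoms) (ρ : ℂ → ℝ),
    ‖θ‖ = 1 → ‖e - θ‖ ≤ 1 / 2 → 0 < s → 0 ≤ M →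
    (∀ j, LevelData (grad b) θ (ball z (15 * s)) (s / K ^ j) (d j)) →
    (∀ j, (d j).mν univ ≤ 2 ^ j * M) → Lip (1 / 2) ρ →
    ∃ Err : ℂ → ℝ≥0∞, Measurable Err ∧ ∫⁻ x, Err x ≤ ENNReal.ofReal (C * s ^ 2 * M) ∧
      ∀ x ∈ ball z (12 * s), ∀ r κ : ℝ, s / (2 * K) ≤ r → r ≤ s → ρ x ≤ r → r ≤ R →
        (∀ r' ∈ Icc (ρ x) R, avg b x r' ≤ avg b x r) → 0 ≤ κ → κ ≤ 1 / 5 → (κ = 0 ∨ r = ρ x) →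
        ENNReal.ofReal (-∫ y in ball x r, dot (e + ((κ / r : ℝ) : ℂ) * (y - x)) (grad b y)) ≤ Err x

/-! ### Global analytic lemmas -/

def DerivStmt : Prop :=
  ∀ (b : ℂ → ℝ), C1c b → ∀ (lo : ℂ → ℝ) (hi a η : ℝ), 0 < a → 0 ≤ η →
    (∀ x, a ≤ lo x ∧ lo x ≤ hi) → Lip η lo →
    (∃ L : ℝ≥0, LipschitzWith L (Usup b lo hi)) ∧
    (∀ x, ∃ r ∈ Icc (lo x) hi, Usup b lo hi x = avg b x r ∧
      ∀ r' ∈ Icc (lo x) hi, avg b x r' ≤ avg b x r) ∧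
    (∀ (x e : ℂ) (r κ : ℝ), r ∈ Icc (lo x) hi → Usup b lo hi x = avg b x r →
      DifferentiableAt ℝ (Usup b lo hi) x →
      ((κ = 0 ∧ (lo x < r ∨ r = hi)) ∨ (η * ‖e‖ ≤ κ ∧ r < hi)) →
      (∫ y in ball x r, dot (e + ((κ / r : ℝ) : ℂ) * (y - x)) (grad b y)) / (Real.pi * r ^ 2)
        ≤ fderiv ℝ (Usup b lo hi) x e)

def TopStmt : Prop :=
  ∀ K : ℝ, 4 ≤ K → ∃ C : ℝ, 0 ≤ C ∧ ∀ (b : ℂ → ℝ), C1c b →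
    ∀ (θ z : ℂ) (s M : ℝ) (d : ℕ → Atoms), 0 < s → 0 ≤ M →
    (∀ j, LevelData (grad b) θ (ball z (15 * s)) (s / K ^ j) (d j)) →
    (∀ j, (d j).mΓ univ ≤ 2 ^ j * M) →
    ∃ (κ₀ : ℝ) (G : ℂ → ℝ≥0∞), Measurable G ∧ ∫⁻ x, G x ≤ ENNReal.ofReal (C * s * M) ∧
      ∀ x ∈ ball z (4 * s), ∀ r, 0 < r → r ≤ s → ENNReal.ofReal |avg b x r - κ₀| ≤ G x

def TreeStmt : Prop :=
  ∃ C : ℝ≥0, ∀ (W : ℂ → ℝ) (L : ℝ≥0), LipschitzWith L W → ∀ (e z : ℂ) (S κ₀ : ℝ)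
    (Np Nm G : ℂ → ℝ≥0∞), ‖e‖ = 1 → 0 < S → Measurable Np → Measurable Nm → Measurable G →
    (∀ x ∈ ball z (4 * S), DifferentiableAt ℝ W x →
      ENNReal.ofReal (-fderiv ℝ W x (e * (1 + Complex.I / 4))) ≤ Np x ∧
      ENNReal.ofReal (-fderiv ℝ W x (e * (1 - Complex.I / 4))) ≤ Nm x) →
    (∀ x ∈ ball z (4 * S), ENNReal.ofReal |W x - κ₀| ≤ G x) →
    ∫⁻ x in ball z (2 * S), ‖grad W x‖ₑ ≤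
      C * ((∫⁻ x, Np x) + (∫⁻ x, Nm x) + (ENNReal.ofReal S)⁻¹ * ∫⁻ x, G x)

/-! ### The lattice -/

def cube (σ : ℝ) (a : ℤ × ℤ) : Set ℂ :=
  {y | σ * a.1 ≤ y.re ∧ y.re < σ * (a.1 + 1) ∧ σ * a.2 ≤ y.im ∧ y.im < σ * (a.2 + 1)}

def cen (σ : ℝ) (a : ℤ × ℤ) : ℂ := ⟨σ * (a.1 + 1 / 2), σ * (a.2 + 1 / 2)⟩

def children (K : ℕ) (a : ℤ × ℤ) : Finset (ℤ × ℤ) :=
  Finset.Ico (K * a.1) (K * a.1 + K) ×ˢ Finset.Ico (K * a.2) (K * a.2 + K)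

def up (K : ℕ) (a : ℤ × ℤ) : ℤ × ℤ := (a.1 / K, a.2 / K)

def nbhd (A : ℕ) (a : ℤ × ℤ) : Finset (ℤ × ℤ) :=
  Finset.Icc (a.1 - A) (a.1 + A) ×ˢ Finset.Icc (a.2 - A) (a.2 + A)

/-- the `K × K` window around `a` (`K` even) -/
def win (K : ℕ) (a : ℤ × ℤ) : Finset (ℤ × ℤ) :=
  Finset.Ico (a.1 - (K / 2 : ℕ)) (a.1 + (K / 2 : ℕ)) ×ˢ
    Finset.Ico (a.2 - (K / 2 : ℕ)) (a.2 + (K / 2 : ℕ))

/-- integral of `γ` over the cube of side `K^n` with index `a` -/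
def lat (K : ℕ) (γ : ℂ → ℂ) (n : ℕ) (a : ℤ × ℤ) : ℂ := ∫ y in cube ((K : ℝ) ^ n) a, γ y

/-- misalignment of `v` with the direction `θ` -/
def aexc (θ v : ℂ) : ℝ := ‖v‖ - dot θ v

/-- cancellation among the children of the node `(n+1, a)` -/
def Dch (K : ℕ) (u : ℕ → ℤ × ℤ → ℂ) (n : ℕ) (a : ℤ × ℤ) : ℝ :=
  ∑ c ∈ children K a, ‖u n c‖ - ‖u (n + 1) a‖

/-- cancellation inside the window of the node `(n, a)` -/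
def Dhat (K : ℕ) (u : ℕ → ℤ × ℤ → ℂ) (n : ℕ) (a : ℤ × ℤ) : ℝ :=
  ∑ c ∈ win K a, ‖u n c‖ - ‖∑ c ∈ win K a, u n c‖

/-- discounted cancellation below a node -/
def X (K : ℕ) (γ : ℂ → ℂ) : ℕ → ℤ × ℤ → ℝ
  | 0, a => ∫ y in cube 1 a, ‖γ y‖
  | n + 1, a => Dch K (lat K γ) n a + 1 / 2 * ∑ c ∈ children K a, X K γ n c

def LatStmt : Prop :=
  ∀ (K : ℕ), 1 ≤ K → ∀ (γ : ℂ → ℂ), Integrable γ →
    (∀ n a, lat K γ (n + 1) a = ∑ c ∈ children K a, lat K γ n c) ∧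
    (∑' a, ‖lat K γ 0 a‖ₑ ≤ ∫⁻ y, ‖γ y‖ₑ) ∧
    (∀ n a, 0 ≤ X K γ n a) ∧
    (∀ n a, ∫ y in cube ((K : ℝ) ^ n) a, ‖γ y‖ ≤ 2 ^ n * X K γ n a) ∧
    (∀ N, ∑ n ∈ Finset.range (N + 1), ∑' a, ENNReal.ofReal (X K γ n a) ≤ 4 * ∫⁻ y, ‖γ y‖ₑ)

def ShiftStmt : Prop :=
  ∀ (K : ℕ), 2 ≤ K → 2 ∣ K → ∀ (γ : ℂ → ℂ), Integrable γ → ∀ N : ℕ, ∃ ω : ℂ,
    ∑ n ∈ Finset.range (N + 1), ∑' a, ENNReal.ofReal (Dhat K (lat K (fun y => γ (y + ω))) n a)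
      ≤ (K : ℝ≥0∞) ^ 2 * ∫⁻ y, ‖γ y‖ₑ

def LemmaPStmt : Prop :=
  ∀ (K : ℕ), 4 ≤ K → ∀ (γ : ℂ → ℂ), Integrable γ → ∀ (θ w : ℂ) (Cw Λ : ℝ) (τ : ℂ → ℝ),
    ‖θ‖ ≤ 1 → ‖w‖ ≤ Cw → (∀ v, -(Cw * aexc θ v) ≤ dot w v) → 0 ≤ Λ → Lip Λ τ →
    ∀ (n : ℕ) (a : ℤ × ℤ) (c₀ : ℝ),
      (∀ y ∈ cube ((K : ℝ) ^ n) a, c₀ ≤ τ y ∧ τ y ≤ c₀ + 2 * Λ * (K : ℝ) ^ n) →
      c₀ * dot w (lat K γ n a) -
          8 * Λ * (K : ℝ) ^ n * Cw * (aexc θ (lat K γ n a) + X K γ n a)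
        ≤ ∫ y in cube ((K : ℝ) ^ n) a, τ y * dot w (γ y)

def FineStmt : Prop :=
  ∃ C : ℝ, 0 ≤ C ∧ ∀ (K : ℕ), 4 ≤ K → ∀ (γ : ℂ → ℂ), Integrable γ → ∀ (θ : ℂ), ‖θ‖ = 1 →
    ∀ (m j : ℕ) (a : ℤ × ℤ), j ≤ m → ∃ d : Atoms,
      LevelData γ θ (ball (cen ((K : ℝ) ^ m) a) (15 * (K : ℝ) ^ m)) ((K : ℝ) ^ m / (K : ℝ) ^ j) d ∧
      d.mν univ ≤ 2 ^ j * (C * ∑ c ∈ nbhd 16 a, (aexc θ (lat K γ m c) + X K γ m c)) ∧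
      d.mΓ univ ≤ 2 ^ j * (C * ∑ c ∈ nbhd 16 a, (‖lat K γ m c‖ + X K γ m c))

def SubStmt : Prop :=
  ∀ (γ : ℂ → ℂ), Integrable γ → ∀ (θ z : ℂ) (ρ σ : ℝ), ‖θ‖ = 1 → 0 < σ → ∃ d : Atoms,
      LevelData γ θ (ball z ρ) σ d ∧ d.mν univ ≤ 2 * ∫ y in ball z ρ, ‖γ y‖ ∧
      d.mΓ univ ≤ ∫ y in ball z ρ, ‖γ y‖

def NodeDataStmt : Prop :=
  ∃ C : ℝ, 0 ≤ C ∧ ∀ (K : ℕ), 4 ≤ K → ∀ (γ : ℂ → ℂ), Integrable γ → ∀ (θ : ℂ), ‖θ‖ = 1 →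
    ∀ (m : ℕ) (a : ℤ × ℤ), ∃ d : ℕ → Atoms, ∀ j,
      LevelData γ θ (ball (cen ((K : ℝ) ^ m) a) (15 * (K : ℝ) ^ m))
        ((K : ℝ) ^ m / (K : ℝ) ^ j) (d j) ∧
      (d j).mν univ ≤ 2 ^ j * (C * ∑ c ∈ nbhd 16 a, (aexc θ (lat K γ m c) + X K γ m c)) ∧
      (d j).mΓ univ ≤ 2 ^ j * (C * ∑ c ∈ nbhd 16 a, (‖lat K γ m c‖ + X K γ m c))

/-! ### The forest -/

abbrev Node := ℕ × (ℤ × ℤ)

/-- direction of a vector -/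
def dirn (v : ℂ) : ℂ := if v = 0 then 1 else v / (‖v‖ : ℂ)

/-- direction of the window of a node -/
def thw (K : ℕ) (u : ℕ → ℤ × ℤ → ℂ) (P : Node) : ℂ := dirn (∑ c ∈ win K P.2, u P.1 c)

def Mloc (u : ℕ → ℤ × ℤ → ℂ) (P : Node) : ℝ := ∑ c ∈ nbhd 16 P.2, ‖u P.1 c‖

def dinf (a c : ℤ × ℤ) : ℕ := max (a.1 - c.1).natAbs (a.2 - c.2).natAbs

def C1 : ℝ := 33 ^ 2 * 2 ^ 16

def Heavy (K : ℕ) (u : ℕ → ℤ × ℤ → ℂ) (P : Node) : Prop :=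
  ∀ c ∈ nbhd (K / 8) P.2, ‖u P.1 c‖ ≤ 2 ^ dinf P.2 c * ‖u P.1 P.2‖

def Long (K : ℕ) (u : ℕ → ℤ × ℤ → ℂ) (P : Node) : Prop :=
  Mloc u P ≤ C1 / 2 ^ (K / 8) * ∑ c ∈ nbhd (K / 4) P.2, ‖u P.1 c‖

/-- the window direction is close to the label (= window direction of the root) of the parent -/
def Stay (K : ℕ) (u : ℕ → ℤ × ℤ → ℂ) (root : Node → Node) (P : Node) : Prop :=
  ‖thw K u P - thw K u (root (P.1 + 1, up K P.2))‖ ≤ 1 / 16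

structure Rules (K : ℕ) (u : ℕ → ℤ × ℤ → ℂ) (N : ℕ) (root : Node → Node) (fresh : Node → Prop) :
    Prop where
  top : ∀ a, root (N, a) = (N, a) ∧ fresh (N, a)
  heavy : ∀ n a, n < N → Heavy K u (n, a) → ¬Stay K u root (n, a) →
    root (n, a) = (n, a) ∧ fresh (n, a)
  cases : ∀ n a, n < N →
    (Stay K u root (n, a) ∧ root (n, a) = root (n + 1, up K a) ∧
      (fresh (n, a) ↔ fresh (n + 1, up K a))) ∨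
    (¬Stay K u root (n, a) ∧ (∃ c ∈ nbhd (K / 8) a, Heavy K u (n, c) ∧
        Mloc u (n, a) ≤ C1 * ‖u n c‖ ∧
        (¬Stay K u root (n, c) ∨ 1 / 16 < ‖thw K u (n, a) - thw K u (n, c)‖)) ∧
      root (n, a) = (n, a) ∧ fresh (n, a)) ∨
    (¬Stay K u root (n, a) ∧ (∃ c ∈ nbhd (K / 8) a, Stay K u root (n, c) ∧
        ‖thw K u (n, a) - thw K u (n, c)‖ ≤ 1 / 16 ∧ root (n, a) = root (n + 1, up K c)) ∧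
      ¬fresh (n, a)) ∨
    (Long K u (n, a) ∧ root (n, a) = root (n + 1, up K a) ∧
      (fresh (n, a) ↔ fresh (n + 1, up K a)))

/-- additivity and the two mass bounds -/
def Mass (K : ℕ) (u : ℕ → ℤ × ℤ → ℂ) (N : ℕ) (m₀ : ℝ≥0∞) : Prop :=
  (∀ n a, u (n + 1) a = ∑ c ∈ children K a, u n c) ∧ (∑' a, ‖u 0 a‖ₑ ≤ m₀) ∧
    ∑ n ∈ Finset.range (N + 1), ∑' a, ENNReal.ofReal (Dhat K u n a) ≤ (K : ℝ≥0∞) ^ 2 * m₀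

/-- tree geometry -/
def Geom (K N : ℕ) (root : Node → Node) : Prop :=
  ∀ P : Node, P.1 ≤ N → P.1 ≤ (root P).1 ∧ (root P).1 ≤ N ∧ root (root P) = root P ∧
    ∀ m, P.1 ≤ m → m ≤ (root P).1 → ∃ a, root (m, a) = root P ∧
      dist (cen ((K : ℝ) ^ P.1) P.2) (cen ((K : ℝ) ^ m) a) ≤ (K : ℝ) ^ m ∧
      (m = (root P).1 → (m, a) = root P)

def RulesStmt : Prop :=
  ∀ (K : ℕ), 128 ≤ K → 8 ∣ K → ∀ (u : ℕ → ℤ × ℤ → ℂ) (N : ℕ), ∃ root fresh, Rules K u N root fresh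

def GeomStmt : Prop :=
  ∀ (K : ℕ), 128 ≤ K → 8 ∣ K → ∀ (u : ℕ → ℤ × ℤ → ℂ) (N : ℕ) (root : Node → Node)
    (fresh : Node → Prop), Rules K u N root fresh → Geom K N root

def TopsStmt : Prop :=
  ∀ (K : ℕ), 128 ≤ K → 8 ∣ K → ∃ C : ℝ≥0, ∀ (u : ℕ → ℤ × ℤ → ℂ) (N : ℕ) (m₀ : ℝ≥0∞)
    (root : Node → Node) (fresh : Node → Prop), Mass K u N m₀ → Rules K u N root fresh →
    Geom K N root →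
    ∑ n ∈ Finset.range (N + 1), ∑' a,
      (if root (n, a) = (n, a) then ENNReal.ofReal (Mloc u (n, a)) else 0) ≤ C * m₀

def AlignStmt : Prop :=
  ∀ (K : ℕ), 1024 ≤ K → 8 ∣ K → ∃ C : ℝ≥0, ∀ (u : ℕ → ℤ × ℤ → ℂ) (N : ℕ) (m₀ : ℝ≥0∞)
    (root : Node → Node) (fresh : Node → Prop), Mass K u N m₀ → Rules K u N root fresh →
    ∃ θ : Node → ℂ, (∀ P, ‖θ P‖ = 1 ∧ ‖θ P - thw K u (root P)‖ ≤ 1 / 4) ∧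
      ∑ n ∈ Finset.range (N + 1), ∑' a,
        ENNReal.ofReal (∑ c ∈ nbhd 16 a, aexc (θ (n, a)) (u n c)) ≤ C * m₀

def ForestStmt : Prop :=
  ∀ (K : ℕ), 1024 ≤ K → 8 ∣ K → ∃ C : ℝ≥0, ∀ (u : ℕ → ℤ × ℤ → ℂ) (N : ℕ) (m₀ : ℝ≥0∞),
    Mass K u N m₀ → ∃ (root : Node → Node) (e θ : Node → ℂ), Geom K N root ∧
      (∀ P, ‖e P‖ = 1 ∧ ‖θ P‖ = 1 ∧ ‖θ P - e (root P)‖ ≤ 1 / 4) ∧
      (∑ n ∈ Finset.range (N + 1), ∑' a,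
        ENNReal.ofReal (∑ c ∈ nbhd 16 a, aexc (θ (n, a)) (u n c)) ≤ C * m₀) ∧
      ∑ n ∈ Finset.range (N + 1), ∑' a,
        (if root (n, a) = (n, a) then ENNReal.ofReal (Mloc u (n, a)) else 0) ≤ C * m₀

/-! ### The core estimate -/

def Core0Stmt : Prop :=
  ∃ K₀ : ℕ, ∀ K : ℕ, K₀ ≤ K → 8 ∣ K → ∃ C : ℝ≥0, ∀ (b : ℂ → ℝ), C1c b → ∀ N : ℕ,
    (∑ n ∈ Finset.range (N + 1), ∑' a, ENNReal.ofReal (Dhat K (lat K (grad b)) n a)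
      ≤ (K : ℝ≥0∞) ^ 2 * ∫⁻ y, ‖grad b y‖ₑ) →
    ∫⁻ x, ‖grad (Usup b (fun _ => 1 / (K : ℝ)) ((K : ℝ) ^ N)) x‖ₑ ≤ C * ∫⁻ y, ‖grad b y‖ₑ

def CoreAt (K : ℕ) (C : ℝ≥0) : Prop :=
  ∀ (b : ℂ → ℝ), C1c b → ∀ i l : ℤ, i < l →
    ∫⁻ x, ‖grad (Wr b K i l) x‖ₑ ≤ C * ∫⁻ y, ‖grad b y‖ₑ

def CoreStmt : Prop := ∃ (K : ℕ) (C : ℝ≥0), 2 ≤ K ∧ CoreAt K C

/-! ### The soft part -/

def UsupL1Stmt : Prop :=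
  (∀ (b : ℂ → ℝ), C1c b → ∀ a R : ℝ, 0 < a → a ≤ R →
    Lip ((∫ y, ‖grad b y‖) / (Real.pi * a ^ 2)) (Usup b (fun _ => a) R)) ∧
  (∀ (h h' : ℂ → ℝ), Integrable h → Integrable h' → ∀ a R : ℝ, 0 < a → a ≤ R → ∀ x,
    |Usup h (fun _ => a) R x - Usup h' (fun _ => a) R x| ≤ (∫ y, |h y - h' y|) / (Real.pi * a ^ 2)) ∧
  (∀ (h : ℂ → ℝ), Integrable h → ∀ a R : ℝ, 0 < a → a ≤ R → ∀ x,
    (∀ r ∈ Icc a R, avg h x r ≤ Usup h (fun _ => a) R x) ∧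
    |Usup h (fun _ => a) R x| ≤ (∫ y, |h y|) / (Real.pi * a ^ 2) ∧
    ∀ ρ ∈ Icc a R, Usup h (fun _ => a) R x =
      max (Usup h (fun _ => a) ρ x) (Usup h (fun _ => ρ) R x))

def PoincareStmt : Prop :=
  ∃ C : ℝ≥0, ∀ (b : ℂ → ℝ), ContDiff ℝ 1 b → ∀ (z : ℂ) (ρ : ℝ), 0 < ρ → ∃ c₀ : ℝ,
    ∫⁻ y in ball z ρ, ‖b y - c₀‖ₑ ≤ C * ENNReal.ofReal ρ * ∫⁻ y in ball z ρ, ‖grad b y‖ₑ

def LocalAt (K : ℕ) (C : ℝ≥0) : Prop :=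
  ∀ (b : ℂ → ℝ), C1c b → ∀ i m : ℤ, i < m → ∀ z c : ℂ,
    ∫⁻ x in ball z ((K : ℝ) ^ m), ‖grad (Wr b K i m) x - c‖ₑ
      ≤ C * ∫⁻ y in ball z (4 * (K : ℝ) ^ m), ‖grad b y - c‖ₑ

def LscStmt : Prop :=
  ∀ (O : Set ℂ), IsOpen O → ∀ (Ws : ℕ → ℂ → ℝ) (W : ℂ → ℝ) (L : ℝ≥0) (c : ℂ) (B : ℝ≥0∞),
    (∀ n, LipschitzWith L (Ws n)) → (∀ x, Tendsto (fun n => Ws n x) atTop (𝓝 (W x))) →
    (∀ᶠ n in atTop, ∫⁻ x in O, ‖grad (Ws n) x - c‖ₑ ≤ B) →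
    ∫⁻ x in O, ‖grad W x - c‖ₑ ≤ 2 * B

/-- weak gradient on `ℂ` -/
def WG (u : ℂ → ℝ) (g : ℂ → ℂ) : Prop :=
  LocallyIntegrable u volume ∧ LocallyIntegrable g volume ∧
    ∀ φ : ℂ → ℝ, ContDiff ℝ (⊤ : ℕ∞) φ → HasCompactSupport φ →
      ∀ v : ℂ, ∫ x, u x * fderiv ℝ φ x v = -∫ x, dot (g x) v * φ x

/-- centred maximal function on `ℂ` -/
def cM (f : ℂ → ℝ) (x : ℂ) : ℝ≥0∞ :=
  ⨆ (r : ℝ) (_ : 0 < r), (∫⁻ y in ball x r, ‖f y‖ₑ) / volume (ball x r)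

def Approx (h : ℂ → ℝ) (g : ℂ → ℂ) : Prop :=
  ∃ hs : ℕ → ℂ → ℝ, (∀ n, C1c (hs n)) ∧
    Tendsto (fun n => ∫⁻ y, ‖hs n y - h y‖ₑ) atTop (𝓝 0) ∧
    Tendsto (fun n => ∫⁻ y, ‖grad (hs n) y - g y‖ₑ) atTop (𝓝 0)

def ApproxP (h : ℂ → ℝ) (g : ℂ → ℂ) : Prop :=
  ∃ hs : ℕ → ℂ → ℝ, (∀ n, C1c (hs n)) ∧ (∀ n y, 0 ≤ hs n y) ∧
    Tendsto (fun n => ∫⁻ y, ‖hs n y - h y‖ₑ) atTop (𝓝 0) ∧
    Tendsto (fun n => ∫⁻ y, ‖grad (hs n) y - g y‖ₑ) atTop (𝓝 0)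

def Ap1Stmt : Prop :=
  ∀ (f : ℂ → ℝ) (g : ℂ → ℂ), Integrable f → Integrable g → WG f g → Approx f g

def Ap2Stmt : Prop :=
  ∀ (f : ℂ → ℝ) (g : ℂ → ℂ), Integrable f → Integrable g → Approx f g →
    ∃ g' : ℂ → ℂ, Integrable g' ∧ (∀ y, ‖g' y‖ ≤ ‖g y‖) ∧ ApproxP (fun y => |f y|) g'

def SmallAt (K : ℕ) : Prop :=
  ∀ (h : ℂ → ℝ) (g : ℂ → ℂ), Integrable h → Integrable g → ApproxP h g →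
    ∀ ε : ℝ≥0∞, 0 < ε → ∃ m₀ : ℤ, ∀ i m : ℤ, m ≤ m₀ → i < m →
      ∫⁻ x, ‖grad (Wr h K i m) x - g x‖ₑ ≤ ε

def BigAt (K : ℕ) (C : ℝ≥0) : Prop :=
  ∀ (h : ℂ → ℝ) (g : ℂ → ℂ), Integrable h → Integrable g → ApproxP h g → ∀ i l : ℤ, i < l →
    Lip ((∫ y, ‖g y‖) / (Real.pi * ((K : ℝ) ^ i) ^ 2)) (Wr h K i l) ∧
    ∫⁻ x, ‖grad (Wr h K i l) x‖ₑ ≤ C * ∫⁻ y, ‖g y‖ₑ ∧
    ∀ S : ℝ, 0 < S → ∫⁻ x in {x : ℂ | |x.re| < S}, ENNReal.ofReal (Wr h K i l x)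
      ≤ C * ENNReal.ofReal S * ∫⁻ y, ‖g y‖ₑ

/-- existence of the weak gradient of the maximal function of an approximable function -/
def LimitStmt : Prop :=
  ∃ C : ℝ≥0, ∀ (f : ℂ → ℝ) (g : ℂ → ℂ), Integrable f → Integrable g →
    ApproxP (fun y => |f y|) g →
    (∀ᵐ x, cM f x < ⊤) ∧ LocallyIntegrable (fun x => (cM f x).toReal) ∧
      ∃ G : ℂ → ℂ, WG (fun x => (cM f x).toReal) G ∧ Integrable G ∧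
        ∫ x, ‖G x‖ ≤ C * ∫ x, ‖g x‖

/-- the theorem on `ℂ` -/
def FinalCStmt : Prop :=
  ∃ C : ℝ, ∀ (f : ℂ → ℝ) (g : ℂ → ℂ), Integrable f → WG f g → Integrable g →
    (∀ᵐ x, cM f x < ⊤) ∧ LocallyIntegrable (fun x => (cM f x).toReal) ∧
      ∃ G : ℂ → ℂ, WG (fun x => (cM f x).toReal) G ∧ Integrable G ∧
        ∫ x, ‖G x‖ ≤ C * ∫ x, ‖g x‖

/-- the statement S0147 -/
def TargetStmt : Prop :=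
  ∃ C : ℝ, ∀ (f : EuclideanSpace ℝ (Fin 2) → ℝ)
    (g : EuclideanSpace ℝ (Fin 2) → EuclideanSpace ℝ (Fin 2)),
    MeasureTheory.Integrable f → Crest.AnalysisR.IsWeakGradient f g → MeasureTheory.Integrable g →
      (∀ᵐ x ∂(MeasureTheory.volume : MeasureTheory.Measure (EuclideanSpace ℝ (Fin 2))),
          Crest.AnalysisR.centredMaximalFunction f x < ⊤) ∧
      MeasureTheory.LocallyIntegrable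
        (fun x => (Crest.AnalysisR.centredMaximalFunction f x).toReal) ∧
      ∃ G : EuclideanSpace ℝ (Fin 2) → EuclideanSpace ℝ (Fin 2),
        Crest.AnalysisR.IsWeakGradient
          (fun x => (Crest.AnalysisR.centredMaximalFunction f x).toReal) G ∧
        MeasureTheory.Integrable G ∧ ∫ x, ‖G x‖ ≤ C * ∫ x, ‖g x‖

end

end Crest.Agent.R112
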