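import Crest.Agent.R112.Basic

/-! Row 112: derivative of the supremum of disc averages, and its `L¹` bounds. -/

set_option autoImplicit false

namespace Crest.Agent.R112

open MeasureTheory Set Metric Filter Topology
open scoped ENNReal NNReal Classical

noncomputable section

theorem Deriv_cv (f : ℂ → ℝ) (x : ℂ) {r : ℝ} (hr : 0 < r) :
    ∫ y in ball x r, f y = r ^ 2 * ∫ z in ball (0 : ℂ) 1, f (x + r • z) := by
  have h1 := Measure.setIntegral_comp_smul_of_pos volume (fun y => f (x + y)) (ball (0 : ℂ) 1) hr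
  have h2 := (measurePreserving_add_left (volume : Measure ℂ) x).setIntegral_preimage_emb
    (measurableEmbedding_addLeft x) f (ball x r)
  have h3 : (fun y => x + y) ⁻¹' ball x r = ball (0 : ℂ) r := by
    ext y
    simp [mem_ball, dist_eq_norm]
  rw [h3] at h2
  rw [smul_unitBall_of_pos hr, Complex.finrank_real_complex, h2, smul_eq_mul] at h1
  rw [h1]
  field_simp

theorem Deriv_avg_eq (f : ℂ → ℝ) (x : ℂ) {r : ℝ} (hr : 0 < r) :
    avg f x r = (∫ z in ball (0 : ℂ) 1, f (x + r • z)) / Real.pi := by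
  rw [avg, Deriv_cv f x hr]
  have := Real.pi_pos
  field_simp

theorem Deriv_vol : (volume : Measure ℂ).real (ball 0 1) = Real.pi := by
  simp [Measure.real, Complex.volume_ball]

theorem Deriv_intOn {f : ℂ → ℝ} (hf : Continuous f) : IntegrableOn f (ball (0 : ℂ) 1) :=
  (hf.continuousOn.integrableOn_compact (isCompact_closedBall 0 1)).mono_set ball_subset_closedBall

theorem Deriv_avg_lip {b : ℂ → ℝ} {L : ℝ≥0} (hL : LipschitzWith L b) (x x' : ℂ) {r r' : ℝ}
    (hr : 0 < r) (hr' : 0 < r') :
    |avg b x r - avg b x' r'| ≤ L * (‖x - x'‖ + |r - r'|) := by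
  have hc := hL.continuous
  rw [Deriv_avg_eq b x hr, Deriv_avg_eq b x' hr', ← sub_div,
    ← integral_sub (Deriv_intOn (by fun_prop)) (Deriv_intOn (by fun_prop)), abs_div,
    abs_of_pos Real.pi_pos, div_le_iff₀ Real.pi_pos, ← Deriv_vol, ← Real.norm_eq_abs]
  refine norm_setIntegral_le_of_norm_le_const measure_ball_lt_top fun z hz => ?_
  refine (hL.norm_sub_le _ _).trans (mul_le_mul_of_nonneg_left ?_ L.2)
  have e : x + r • z - (x' + r' • z) = (x - x') + (r - r') • z := by
    rw [sub_smul]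
    abel
  rw [e]
  refine (norm_add_le _ _).trans (add_le_add le_rfl ?_)
  rw [norm_smul, Real.norm_eq_abs]
  exact mul_le_of_le_one_right (abs_nonneg _) (mem_ball_zero_iff.1 hz).le

theorem Deriv_hasDeriv {b : ℂ → ℝ} (hb : C1c b) (x e : ℂ) {r : ℝ} (κ : ℝ) (hr : 0 < r) :
    HasDerivAt (fun t : ℝ => avg b (x + t • e) (r + κ * t))
      ((∫ y in ball x r, dot (e + ((κ / r : ℝ) : ℂ) * (y - x)) (grad b y)) / (Real.pi * r ^ 2))
      0 := by
  obtain ⟨L, hL0, hL⟩ := hb.exists_bound
  have hc := hb.continuous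
  have hg := hb.continuous_grad
  have h1 := (hasDerivAt_integral_of_dominated_loc_of_deriv_le
    (μ := volume.restrict (ball (0 : ℂ) 1)) (bound := fun _ => (‖e‖ + |κ|) * L)
    (F := fun (t : ℝ) (z : ℂ) => b (x + t • e + (r + κ * t) • z)) (x₀ := 0) (s := univ)
    (F' := fun (t : ℝ) (z : ℂ) => dot (e + κ • z) (grad b (x + t • e + (r + κ * t) • z)))
    univ_mem (Eventually.of_forall fun t => Continuous.aestronglyMeasurable (by fun_prop))
    (Deriv_intOn (by fun_prop)) (Continuous.aestronglyMeasurable (by fun_prop))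
    ((ae_restrict_mem measurableSet_ball).mono fun z hz t _ => by
      refine (abs_dot_le _ _).trans (mul_le_mul ?_ (hL _) (norm_nonneg _) (by positivity))
      refine (norm_add_le _ _).trans (add_le_add le_rfl ?_)
      rw [norm_smul, Real.norm_eq_abs]
      exact mul_le_of_le_one_right (abs_nonneg _) (mem_ball_zero_iff.1 hz).le)
    (Deriv_intOn continuous_const)
    (Eventually.of_forall fun z t _ => by
      have h2 : HasDerivAt (fun t : ℝ => x + t • e + (r + κ * t) • z) (e + κ • z) t := by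
        have h3 := (((hasDerivAt_id t).smul_const e).const_add x).add
          ((((hasDerivAt_id t).const_mul κ).const_add r).smul_const z)
        rw [one_smul, mul_one] at h3
        exact h3
      have h4 := ((hb.1.differentiable one_ne_zero) _).hasFDerivAt.comp_hasDerivAt t h2
      rw [fderiv_eq_dot, dot_comm] at h4
      exact h4)).2.div_const Real.pi
  have h5 : (∫ y in ball x r, dot (e + ((κ / r : ℝ) : ℂ) * (y - x)) (grad b y)) /
      (Real.pi * r ^ 2) = (∫ z in ball (0 : ℂ) 1, dot (e + κ • z)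
        (grad b (x + (0 : ℝ) • e + (r + κ * 0) • z))) / Real.pi := by
    refine (Deriv_avg_eq _ x hr).trans ?_
    congr 1
    refine integral_congr_ae (Eventually.of_forall fun z => ?_)
    have h6 : ((κ / r : ℝ) : ℂ) * (x + r • z - x) = κ • z := by
      have : (r : ℂ) ≠ 0 := by exact_mod_cast hr.ne'
      simp only [add_sub_cancel_left, Complex.real_smul]
      push_cast
      field_simp
    simp only [h6, zero_smul, add_zero, mul_zero]
  rw [h5]
  refine h1.congr_of_eventuallyEq ?_
  have h7 : ∀ᶠ t : ℝ in 𝓝 0, 0 < r + κ * t :=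
    (by fun_prop : Continuous fun t : ℝ => r + κ * t).continuousAt.eventually
      (lt_mem_nhds (by simpa using hr))
  exact h7.mono fun t ht => Deriv_avg_eq b _ ht

theorem deriv_usup : DerivStmt := by
  intro b hb lo hi a η ha hη hlo hlip
  obtain ⟨L, hL⟩ := hb.exists_lipschitz
  have hpos : ∀ x, ∀ r ∈ Icc (lo x) hi, 0 < r := fun x r hr => ha.trans_le ((hlo x).1.trans hr.1)
  have hmax : ∀ x, ∃ r ∈ Icc (lo x) hi, Usup b lo hi x = avg b x r ∧
      ∀ r' ∈ Icc (lo x) hi, avg b x r' ≤ avg b x r := fun x => by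
    have hcont : ContinuousOn (avg b x) (Icc (lo x) hi) := by
      refine (LipschitzOnWith.of_dist_le_mul (K := L) fun r hr r' hr' => ?_).continuousOn
      simpa [Real.dist_eq] using Deriv_avg_lip hL x x (hpos x r hr) (hpos x r' hr')
    obtain ⟨r, hr, h⟩ := isCompact_Icc.exists_isMaxOn (nonempty_Icc.2 (hlo x).2) hcont
    refine ⟨r, hr, IsGreatest.csSup_eq ⟨⟨r, hr, rfl⟩, ?_⟩, fun r' hr' => h hr'⟩
    rintro _ ⟨r', hr', rfl⟩
    exact h hr'
  have hle : ∀ x, ∀ r ∈ Icc (lo x) hi, avg b x r ≤ Usup b lo hi x := fun x r hr => by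
    obtain ⟨r', -, h1, h2⟩ := hmax x
    exact h1 ▸ h2 r hr
  refine ⟨⟨L * (1 + ⟨η, hη⟩), LipschitzWith.of_le_add_mul _ fun x x' => ?_⟩, hmax, ?_⟩
  · obtain ⟨r, hr, h1, -⟩ := hmax x
    have h2 : max r (lo x') ∈ Icc (lo x') hi := ⟨le_max_right _ _, max_le hr.2 (hlo x').2⟩
    have h3 := Deriv_avg_lip hL x x' (hpos x r hr) (hpos x' _ h2)
    have h4 : |r - max r (lo x')| ≤ η * ‖x - x'‖ := by
      have h5 := hlip x x'
      rw [Real.norm_eq_abs, abs_le] at h5
      rw [abs_le]
      have h6 : 0 ≤ η * ‖x - x'‖ := by positivity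
      rcases le_total r (lo x') with h | h
      · rw [max_eq_right h]
        constructor <;> linarith [hr.1]
      · rw [max_eq_left h]
        constructor <;> linarith
    have h7 := hle x' _ h2
    have h8 := (le_abs_self _).trans (h3.trans (mul_le_mul_of_nonneg_left
      (add_le_add le_rfl h4) L.2))
    rw [h1, dist_eq_norm]
    change _ ≤ _ + (L : ℝ) * (1 + η) * ‖x - x'‖
    linarith
  · intro x e r κ hr hU hdiff hcase
    have h1 := (Deriv_hasDeriv hb x e κ (hpos x r hr)).tendsto_slope_zero_right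
    have h2 : HasDerivAt (fun t : ℝ => Usup b lo hi (x + t • e))
        (fderiv ℝ (Usup b lo hi) x e) 0 := by
      have h3 : HasDerivAt (fun t : ℝ => x + t • e) e 0 := by
        simpa using ((hasDerivAt_id (0 : ℝ)).smul_const e).const_add x
      exact hdiff.hasFDerivAt.comp_hasDerivAt_of_eq 0 h3 (by simp)
    refine le_of_tendsto_of_tendsto h1 h2.tendsto_slope_zero_right ?_
    have h4 : ∀ᶠ t : ℝ in 𝓝[>] 0, r + κ * t ∈ Icc (lo (x + t • e)) hi := by
      rcases hcase with ⟨rfl, h | h⟩ | ⟨h, h'⟩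
      · have hc := hlip.continuous
        have h5 : ∀ᶠ t : ℝ in 𝓝 0, lo (x + t • e) < r :=
          (by fun_prop : Continuous fun t : ℝ => lo (x + t • e)).continuousAt.eventually
            (gt_mem_nhds (by simpa using h))
        exact (h5.filter_mono nhdsWithin_le_nhds).mono fun t ht =>
          ⟨by linarith, by linarith [hr.2]⟩
      · exact Eventually.of_forall fun t => ⟨by linarith [(hlo (x + t • e)).2], by linarith⟩
      · have h5 : ∀ᶠ t : ℝ in 𝓝 0, r + κ * t < hi :=
          (by fun_prop : Continuous fun t : ℝ => r + κ * t).continuousAt.eventually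
            (gt_mem_nhds (by simpa using h'))
        filter_upwards [h5.filter_mono nhdsWithin_le_nhds, self_mem_nhdsWithin] with t ht ht0
        have ht0' : 0 < t := ht0
        have h6 := hlip (x + t • e) x
        rw [add_sub_cancel_left, norm_smul, Real.norm_eq_abs, Real.norm_eq_abs, abs_of_pos ht0',
          abs_le] at h6
        have h7 := mul_le_mul_of_nonneg_right h ht0'.le
        exact ⟨by nlinarith [hr.1], ht.le⟩
    filter_upwards [h4, self_mem_nhdsWithin] with t ht ht0
    have ht0' : 0 < t := ht0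
    simp only [zero_add, zero_smul, add_zero, mul_zero, smul_eq_mul]
    rw [hU]
    exact mul_le_mul_of_nonneg_left (sub_le_sub_right (hle _ _ ht) _) (inv_pos.2 ht0').le

theorem Deriv_div_le {u v a r : ℝ} (ha : 0 < a) (hr : a ≤ r) (h : |u| ≤ v) :
    |u / (Real.pi * r ^ 2)| ≤ v / (Real.pi * a ^ 2) := by
  have := Real.pi_pos
  have h1 : 0 < r := ha.trans_le hr
  rw [abs_div, abs_of_pos (by positivity : 0 < Real.pi * r ^ 2)]
  exact div_le_div₀ ((abs_nonneg _).trans h) h (by positivity) (by gcongr)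

theorem Deriv_avg_le {h : ℂ → ℝ} (hh : Integrable h) {a r : ℝ} (ha : 0 < a) (hr : a ≤ r) (x : ℂ) :
    |avg h x r| ≤ (∫ y, |h y|) / (Real.pi * a ^ 2) :=
  Deriv_div_le ha hr (abs_integral_le_integral_abs.trans
    (setIntegral_le_integral hh.abs (Eventually.of_forall fun _ => abs_nonneg _)))

theorem Deriv_bdd {h : ℂ → ℝ} (hh : Integrable h) {a : ℝ} (ha : 0 < a) (R : ℝ) (x : ℂ) :
    BddAbove (avg h x '' Icc a R) := by
  refine ⟨(∫ y, |h y|) / (Real.pi * a ^ 2), ?_⟩
  rintro _ ⟨r, hr, rfl⟩
  exact (le_abs_self _).trans (Deriv_avg_le hh ha hr.1 x)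

theorem Deriv_sup {S : Set ℝ} (hS : S.Nonempty) {f g : ℝ → ℝ} (hf : BddAbove (f '' S))
    (hg : BddAbove (g '' S)) {C : ℝ} (h : ∀ r ∈ S, |f r - g r| ≤ C) :
    |sSup (f '' S) - sSup (g '' S)| ≤ C := by
  rw [abs_sub_le_iff, sub_le_iff_le_add, sub_le_iff_le_add]
  constructor
  · refine csSup_le (hS.image f) ?_
    rintro _ ⟨r, hr, rfl⟩
    linarith [le_csSup hg ⟨r, hr, rfl⟩, (abs_le.1 (h r hr)).2]
  · refine csSup_le (hS.image g) ?_
    rintro _ ⟨r, hr, rfl⟩
    linarith [le_csSup hf ⟨r, hr, rfl⟩, (abs_le.1 (h r hr)).1]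

theorem usupL1 : UsupL1Stmt := by
  refine ⟨fun b hb a R ha haR x x' => ?_, fun h h' hh hh' a R ha haR x => ?_,
    fun h hh a R ha haR x => ⟨fun r hr => le_csSup (Deriv_bdd hh ha R x) ⟨r, hr, rfl⟩, ?_,
      fun ρ hρ => ?_⟩⟩
  · refine Deriv_sup (nonempty_Icc.2 haR) (Deriv_bdd hb.integrable ha R x)
      (Deriv_bdd hb.integrable ha R x') fun r hr => ?_
    have hr0 : 0 < r := ha.trans_le hr.1
    have h1 := norm_image_sub_le_of_norm_deriv_le_segment_01'
      (f := fun t : ℝ => avg b (x' + t • (x - x')) r)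
      (f' := fun t : ℝ => (∫ y in ball (x' + t • (x - x')) r, dot ((x - x') + ((0 / r : ℝ) : ℂ) *
        (y - (x' + t • (x - x')))) (grad b y)) / (Real.pi * r ^ 2))
      (C := (∫ y, ‖grad b y‖) / (Real.pi * a ^ 2) * ‖x - x'‖) (fun t _ => by
        have h2 := HasDerivAt.comp_sub_const t t
          (by rw [sub_self]; exact Deriv_hasDeriv hb (x' + t • (x - x')) (x - x') 0 hr0)
        refine (h2.congr_of_eventuallyEq (Eventually.of_forall fun u => ?_)).hasDerivWithinAt
        simp only [zero_mul, add_zero]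
        congr 1
        rw [sub_smul]
        abel) (fun t _ => by
        rw [Real.norm_eq_abs, div_mul_eq_mul_div]
        refine Deriv_div_le ha hr.1 ?_
        rw [← integral_mul_const]
        have h3 := hb.integrable_grad.norm.mul_const ‖x - x'‖
        refine le_trans ?_ (setIntegral_le_integral (s := ball (x' + t • (x - x')) r) h3
          (Eventually.of_forall fun _ => by positivity))
        rw [← Real.norm_eq_abs]
        refine norm_integral_le_of_norm_le h3.integrableOn (Eventually.of_forall fun y => ?_)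
        simp only [zero_div, Complex.ofReal_zero, zero_mul, add_zero]
        rw [mul_comm]
        exact abs_dot_le _ _)
    simpa using h1
  · refine Deriv_sup (nonempty_Icc.2 haR) (Deriv_bdd hh ha R x) (Deriv_bdd hh' ha R x)
      fun r hr => ?_
    have h1 := Deriv_avg_le (hh.sub hh') ha hr.1 x
    have h2 : avg (h - h') x r = avg h x r - avg h' x r := by
      rw [avg, avg, avg, ← sub_div, ← integral_sub hh.integrableOn hh'.integrableOn]
      rfl
    rw [h2] at h1
    exact h1
  · rw [abs_le]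
    constructor
    · exact (abs_le.1 (Deriv_avg_le hh ha le_rfl x)).1.trans
        (le_csSup (Deriv_bdd hh ha R x) ⟨a, ⟨le_rfl, haR⟩, rfl⟩)
    · refine csSup_le ((nonempty_Icc.2 haR).image _) ?_
      rintro _ ⟨r, hr, rfl⟩
      exact (le_abs_self _).trans (Deriv_avg_le hh ha hr.1 x)
  · unfold Usup
    rw [← Icc_union_Icc_eq_Icc hρ.1 hρ.2, image_union,
      csSup_union (Deriv_bdd hh ha ρ x) ((nonempty_Icc.2 hρ.1).image _)
        (Deriv_bdd hh (ha.trans_le hρ.1) R x) ((nonempty_Icc.2 hρ.2).image _)]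

end

end Crest.Agent.R112
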