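import Crest.Agent.R112.Basic

/-! Row 112: assembly of the local estimate. -/

set_option autoImplicit false

namespace Crest.Agent.R112

open MeasureTheory Set Metric Filter Topology
open scoped ENNReal NNReal Classical

noncomputable section

namespace ELemma

theorem geo {c : ℝ} (hc : 0 ≤ c) (f : ℕ → ℝ≥0∞) (h : ∀ i, f i ≤ ENNReal.ofReal (c / 2 ^ i)) :
    ∑' i, f i ≤ ENNReal.ofReal (2 * c) := by
  refine (ENNReal.tsum_le_tsum h).trans ?_
  have hs : HasSum (fun i : ℕ => c / 2 ^ i) (2 * c) := by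
    have := hasSum_geometric_two.mul_left c
    rw [mul_comm c 2] at this
    simpa [div_eq_mul_inv] using this
  rw [← ENNReal.ofReal_tsum_of_nonneg (fun i => by positivity) hs.summable, hs.tsum_eq]

theorem strip {C : ℝ} (hC : ∀ (ρ : ℂ → ℝ), Lip (1 / 2) ρ → ∀ (p : ℂ) (L w : ℝ), 0 < L → 0 < w →
      volume {x : ℂ | |dist p x - ρ x| ≤ w ∧ dist p x ≤ L} ≤ ENNReal.ofReal (C * L * w))
    (hC0 : 0 ≤ C) (d : Atoms) (hd : ∀ i, 0 ≤ d.ν i) (ρ : ℂ → ℝ) (hρ : Lip (1 / 2) ρ) (L w : ℝ)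
    (hL : 0 < L) (hw : 0 < w) :
    Measurable (fun x => ENNReal.ofReal (d.mν (Ann x (ρ x) w ∩ closedBall x L))) ∧
    ∫⁻ x, ENNReal.ofReal (d.mν (Ann x (ρ x) w ∩ closedBall x L)) ≤
      ENNReal.ofReal (C * L * w * d.mν univ) := by
  set S : ℤ × ℤ → Set ℂ := fun a => {x | |dist (d.pos a) x - ρ x| ≤ w ∧ dist (d.pos a) x ≤ L}
    with hS
  have mS : ∀ a, MeasurableSet (S a) := fun a => by
    have := hρ.continuous
    have c1 : Continuous fun x => |dist (d.pos a) x - ρ x| := by fun_prop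
    have c2 : Continuous fun x => dist (d.pos a) x := by fun_prop
    exact (IsClosed.inter (isClosed_le c1 continuous_const)
      (isClosed_le c2 continuous_const)).measurableSet
  have e : (fun x => ENNReal.ofReal (d.mν (Ann x (ρ x) w ∩ closedBall x L))) =
      fun x => ∑ a ∈ d.I, (S a).indicator (fun _ => ENNReal.ofReal (d.ν a)) x := by
    funext x
    rw [Atoms.mν, ENNReal.ofReal_sum_of_nonneg fun i _ => hd i, Finset.sum_filter]
    refine Finset.sum_congr rfl fun a _ => ?_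
    by_cases h : x ∈ S a
    · rw [indicator_of_mem h, if_pos]; exact h
    · rw [indicator_of_notMem h, if_neg]; exact h
  rw [e]
  refine ⟨Finset.measurable_sum _ fun a _ => measurable_const.indicator (mS a), ?_⟩
  rw [lintegral_finsetSum _ fun a _ => measurable_const.indicator (mS a), Atoms.mν,
    Finset.mul_sum, ENNReal.ofReal_sum_of_nonneg fun i _ => mul_nonneg (by positivity) (hd i)]
  simp only [mem_univ, Finset.filter_true]
  refine Finset.sum_le_sum fun a _ => ?_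
  rw [lintegral_indicator_const (mS a), mul_comm (C * L * w), ENNReal.ofReal_mul (hd a)]
  exact mul_le_mul_right (hC ρ hρ _ L w hL hw) _

/-- the error mass near the two extreme radii -/
def En (d : Atoms) (x : ℂ) (ρ R w L : ℝ) : ℝ :=
  d.mν (Ann x ρ w ∩ closedBall x L) + d.mν (Ann x R w ∩ closedBall x L)

/-- the exceptional set of `KinkStmt` -/
def Kset (d : Atoms) (z : ℂ) (s w D m T : ℝ) : Set ℂ :=
  {x ∈ ball z (12 * s) | ∃ r, 0 < r ∧ r ≤ s ∧ d.mΓ (ball x (r - w)) ≤ T ∧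
    ∀ q : ℂ, m ≤ d.mΓ (Ann x r w \ ball q D)}

theorem sig_le {K s : ℝ} (hK : 1 ≤ K) (hs : 0 < s) {i j : ℕ} (h : i ≤ j) : s / K ^ j ≤ s / K ^ i :=
  div_le_div_of_nonneg_left hs.le (by positivity) (pow_le_pow_right₀ hK h)

theorem sig_succ {K s : ℝ} (hK : 2 ≤ K) (hs : 0 < s) (i : ℕ) : 2 * (s / K ^ (i + 1)) ≤ s / K ^ i := by
  have hK0 : 0 < K := by linarith
  rw [pow_succ, ← div_div, ← mul_div_assoc, div_le_iff₀ hK0]
  have : 0 < s / K ^ i := by positivity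
  nlinarith

theorem sig_two {K s r : ℝ} (hK : 8 ≤ K) (hs : 0 < s) (hr : s / (2 * K) ≤ r) :
    s / K ^ 2 ≤ r / 4 := by
  have hK0 : 0 < K := by linarith
  have : s / K ^ 2 ≤ s / (2 * K) / 4 := by
    rw [div_div]
    exact div_le_div_of_nonneg_left hs.le (by positivity) (by nlinarith)
  linarith

theorem sig_D {K s c : ℝ} (hK : 4 ≤ K) (hc : 0 < c) (hKc : 64 / c ≤ K) (hs : 0 < s) {j : ℕ}
    (hj : 2 ≤ j) : s / K ^ j ≤ c * (s / (2 * K)) / 4 ^ j := by
  have hK0 : 0 < K := by linarith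
  obtain ⟨k, rfl⟩ := Nat.exists_eq_add_of_le hj
  rw [div_le_iff₀ hc] at hKc
  have h1 : (4 : ℝ) ^ k ≤ K ^ k := pow_le_pow_left₀ (by norm_num) hK k
  have e : c * (s / (2 * K)) / 4 ^ (2 + k) = s / (32 * K * 4 ^ k / c) := by
    field_simp; ring
  rw [e]
  refine div_le_div_of_nonneg_left hs.le (by positivity) ?_
  rw [div_le_iff₀ hc, pow_add]
  calc 32 * K * 4 ^ k ≤ (K * c) * K * K ^ k := by gcongr; linarith
    _ = _ := by ring

theorem pointwise (hBal : BalStmt) {CSt CB CS c₁ CE : ℝ} (hCSt : 0 ≤ CSt) (hCB : 0 ≤ CB)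
    (hCS : 0 ≤ CS) (hc₁ : 0 < c₁) (hCE : 0 ≤ CE)
    (hSt : ∀ (f : ℂ → ℝ), Continuous f → ∀ (x : ℂ) (r σ t L : ℝ), 0 < σ → σ ≤ r / 2 →
      0 ≤ t → t ≤ 1 → (∀ y ∈ closedBall x (2 * r), |f y| ≤ L) →
      |r * (∫ y, tauM r σ t ‖y - x‖ * f y) - ∫ y in ball x r, f y| ≤ CSt * L * r * σ)
    (hB : ∀ (γ : ℂ → ℂ) (θ e : ℂ) (Ω : Set ℂ) (σ : ℝ) (d : Atoms) (x : ℂ) (r t : ℝ),
      ‖θ‖ = 1 → ‖e - θ‖ ≤ 1 / 2 → LevelData γ θ Ω σ d → 0 < σ → σ ≤ r / 2 →
      closedBall x (2 * r) ⊆ Ω → 0 ≤ t → t ≤ 1 →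
      r * yv γ e x r σ t ≤ CB * d.mν univ ∧
        (0 ≤ yv γ e x r σ t → d.mΓ (ball x (r - 3 * σ)) ≤ CB * d.mν univ))
    (hS : ∀ (b : ℂ → ℝ), C1c b →
      ∀ (θ e : ℂ) (Ω : Set ℂ) (σ' σ D : ℝ) (d : Atoms) (x q : ℂ) (r t t' : ℝ),
      ‖θ‖ = 1 → ‖e - θ‖ ≤ 1 / 2 → LevelData (grad b) θ Ω σ' d → 0 < σ' → 2 * σ' ≤ σ → σ ≤ D →
      D ≤ c₁ * r → closedBall x (2 * r) ⊆ Ω → Bal b x r σ t → Bal b x r σ' t' →
      0 ≤ yv (grad b) e x r σ' t' →
      r * yv (grad b) e x r σ' t' - CS * (d.mΓ (Ann x r (2 * σ) \ ball q D) + D / r * d.mν univ)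
        ≤ r * yv (grad b) e x r σ t)
    (hE : ∀ (γ : ℂ → ℂ), Integrable γ → ∀ (θ e : ℂ) (Ω : Set ℂ) (σ : ℕ → ℝ)
      (d : ℕ → Atoms) (j₁ j : ℕ) (x : ℂ) (r t κ : ℝ),
      ‖θ‖ = 1 → ‖e - θ‖ ≤ 1 / 2 → (∀ i, 0 < σ i) → (∀ i, 2 * σ (i + 1) ≤ σ i) → j₁ ≤ j →
      (∀ i, LevelData γ θ Ω (σ i) (d i)) → σ j₁ ≤ r / 4 → closedBall x (2 * r) ⊆ Ω →
      0 ≤ t → t ≤ 1 → 0 ≤ κ → κ ≤ 1 / 5 →
      r * yk γ e κ x r (σ j) t ≤
        CE * ((d j₁).mν univ + ∑ i ∈ Finset.Ioc j₁ j, (d i).mν (Ann x r (3 * σ (i - 1)))))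
    {K : ℝ} (hK : 1024 ≤ K) (hKc : 64 / c₁ ≤ K) {b : ℂ → ℝ} (hb : C1c b) {θ e z : ℂ}
    {s M R : ℝ} {d : ℕ → Atoms} {ρ : ℝ} (hθ : ‖θ‖ = 1) (he : ‖e - θ‖ ≤ 1 / 2) (hs : 0 < s)
    (hM : 0 ≤ M) (hd : ∀ j, LevelData (grad b) θ (ball z (15 * s)) (s / K ^ j) (d j))
    (hν : ∀ j, (d j).mν univ ≤ 2 ^ j * M) {Lb : ℝ} (hLb0 : 0 ≤ Lb) (hLb : ∀ y, ‖grad b y‖ ≤ Lb)
    {x : ℂ} (hx : x ∈ ball z (12 * s)) {r κ : ℝ} (hr1 : s / (2 * K) ≤ r) (hr2 : r ≤ s)
    (hρ : ρ ≤ r) (hR : r ≤ R) (hmax : ∀ r' ∈ Icc ρ R, avg b x r' ≤ avg b x r) (hκ0 : 0 ≤ κ)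
    (hκ1 : κ ≤ 1 / 5) (hκ : κ = 0 ∨ r = ρ) (Rare : ℕ → Set ℂ)
    (hRare : ∀ j, Kset (d (j + 1)) z s (2 * (s / K ^ j)) (c₁ * (s / (2 * K)) / 4 ^ j)
      (CB * 2 ^ (j + 1) * M / 4 ^ j) (CB * 2 ^ (j + 1) * M) ⊆ Rare j) {J : ℕ} (hJ : 2 ≤ J) :
    -∫ y in ball x r, dot (e + ((κ / r : ℝ) : ℂ) * (y - x)) (grad b y) ≤
      (4 * CS * (CB + c₁) + 4 * CE) * M +
      ∑ i ∈ Finset.Ioc 2 J, CE * En (d i) x ρ R (4 * (s / K ^ (i - 1))) (2 * s) +
      ∑ j ∈ Finset.Ico 2 J, (Rare j).indicator (fun _ => CB * 2 ^ (j + 1) * M) x +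
      CSt * (2 * Lb) * s * (s / K ^ J) := by
  have hK0 : 0 < K := by linarith
  have hK1 : 1 ≤ K := by linarith
  have hr0 : 0 < r := lt_of_lt_of_le (by positivity) hr1
  have hσ : ∀ i : ℕ, 0 < s / K ^ i := fun i => by positivity
  have hσ2 := sig_two (by linarith) hs hr1
  have hσj : ∀ j, 2 ≤ j → s / K ^ j ≤ r / 4 := fun j hj => (sig_le hK1 hs hj).trans hσ2
  have hΩ : closedBall x (2 * r) ⊆ ball z (15 * s) := by
    intro y hy
    rw [mem_closedBall] at hy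
    rw [mem_ball] at hx ⊢
    linarith [dist_triangle y x z]
  have hEn : ∀ i w, 0 ≤ En (d i) x ρ R w (2 * s) := fun i w =>
    add_nonneg ((d i).mν_nonneg (hd i).ν_nonneg _) ((d i).mν_nonneg (hd i).ν_nonneg _)
  -- start
  have start : ∀ t, 0 ≤ t → t ≤ 1 →
      -∫ y in ball x r, dot (e + ((κ / r : ℝ) : ℂ) * (y - x)) (grad b y) ≤
        r * yk (grad b) e κ x r (s / K ^ J) t + CSt * (2 * Lb) * s * (s / K ^ J) := by
    intro t h0 h1
    have hc := hb.continuous_grad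
    have := hSt (fun y => dot (e + ((κ / r : ℝ) : ℂ) * (y - x)) (grad b y))
      (continuous_dot.comp (Continuous.prodMk (by fun_prop) hc)) x r (s / K ^ J) t (2 * Lb) (hσ J) (by linarith [hσj J hJ]) h0 h1 (by
        intro y hy
        refine (abs_dot_le _ _).trans (mul_le_mul ?_ (hLb y) (norm_nonneg _) (by norm_num))
        have a1 : ‖e‖ ≤ 3 / 2 := by
          calc ‖e‖ = ‖(e - θ) + θ‖ := by rw [sub_add_cancel]
            _ ≤ ‖e - θ‖ + ‖θ‖ := norm_add_le _ _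
            _ ≤ _ := by linarith
        have a2 : ‖((κ / r : ℝ) : ℂ) * (y - x)‖ ≤ 2 / 5 := by
          rw [norm_mul, Complex.norm_real, Real.norm_of_nonneg (by positivity)]
          rw [mem_closedBall, dist_eq_norm] at hy
          calc κ / r * ‖y - x‖ ≤ κ / r * (2 * r) := by gcongr
            _ = 2 * κ := by field_simp
            _ ≤ _ := by linarith
        linarith [norm_add_le e (((κ / r : ℝ) : ℂ) * (y - x))])
    have h2 := (abs_le.1 this).2
    have h3 : CSt * (2 * Lb) * r * (s / K ^ J) ≤ CSt * (2 * Lb) * s * (s / K ^ J) := by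
      have := (hσ J).le
      gcongr
    unfold yk
    linarith
  -- end
  set Av : ℕ → Prop := fun j => ρ ≤ r - s / K ^ j ∧ r + s / K ^ j ≤ R with hAv
  have stop : ∀ j, 2 ≤ j → j ≤ J → (j = 2 ∨ ∃ j', j ≤ j' + 1 ∧ ¬ Av j') → ∀ t κ', 0 ≤ t → t ≤ 1 →
      0 ≤ κ' → κ' ≤ 1 / 5 → r * yk (grad b) e κ' x r (s / K ^ j) t ≤ 4 * CE * M +
        ∑ i ∈ Finset.Ioc 2 J, CE * En (d i) x ρ R (4 * (s / K ^ (i - 1))) (2 * s) := by
    intro j hj hjJ hcase t κ' h0 h1 h2 h3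
    refine (hE (grad b) hb.integrable_grad θ e _ (fun i => s / K ^ i) d 2 j x r t κ' hθ he hσ
      (sig_succ (by linarith) hs) hj hd hσ2 hΩ h0 h1 h2 h3).trans ?_
    rw [mul_add, Finset.mul_sum]
    refine add_le_add ?_ (le_trans (Finset.sum_le_sum fun i hi => ?_)
      (Finset.sum_le_sum_of_subset_of_nonneg (Finset.Ioc_subset_Ioc_right hjJ)
        fun i _ _ => mul_nonneg hCE (hEn i _)))
    · have := mul_le_mul_of_nonneg_left (hν 2) hCE
      linarith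
    · refine mul_le_mul_of_nonneg_left ?_ hCE
      rw [Finset.mem_Ioc] at hi
      obtain rfl | ⟨j', hj', hn⟩ := hcase
      · omega
      have a1 : s / K ^ j' ≤ s / K ^ (i - 1) := sig_le hK1 hs (by omega)
      have a2 : s / K ^ (i - 1) ≤ r / 4 := hσj _ (by omega)
      have key : ∀ r₀ : ℝ, |r - r₀| ≤ s / K ^ j' → (d i).mν (Ann x r (3 * (s / K ^ (i - 1)))) ≤
          (d i).mν (Ann x r₀ (4 * (s / K ^ (i - 1))) ∩ closedBall x (2 * s)) := by
        intro r₀ h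
        refine (d i).mν_mono (hd i).ν_nonneg fun p hp => ?_
        have hp' : |dist p x - r| ≤ 3 * (s / K ^ (i - 1)) := hp
        rw [abs_le] at h hp'
        refine ⟨?_, ?_⟩
        · show |dist p x - r₀| ≤ _
          rw [abs_le]; constructor <;> linarith
        · rw [mem_closedBall]; linarith
      have n1 := (d i).mν_nonneg (hd i).ν_nonneg
        (Ann x ρ (4 * (s / K ^ (i - 1))) ∩ closedBall x (2 * s))
      have n2 := (d i).mν_nonneg (hd i).ν_nonneg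
        (Ann x R (4 * (s / K ^ (i - 1))) ∩ closedBall x (2 * s))
      simp only [hAv, not_and_or, not_le] at hn
      unfold En
      rcases hn with hn | hn
      · have := key ρ (by rw [abs_le]; constructor <;> linarith [hσ j'])
        linarith
      · have := key R (by rw [abs_le]; constructor <;> linarith [hσ j'])
        linarith
  have hT : ∀ j : ℕ, 0 ≤ CB * 2 ^ (j + 1) * M := fun j => by positivity
  have nR : ∀ j, 0 ≤ (Rare j).indicator (fun _ => CB * 2 ^ (j + 1) * M) x := fun j =>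
    indicator_nonneg (fun _ _ => hT j) x
  have nR' := Finset.sum_nonneg (s := Finset.Ico 2 J) fun j _ => nR j
  have nE := Finset.sum_nonneg (s := Finset.Ioc 2 J)
    fun i _ => mul_nonneg hCE (hEn i (4 * (s / K ^ (i - 1))))
  have nS : 0 ≤ 2 * CS * (CB + c₁) * M := by positivity
  by_cases hA : Av J
  swap
  · have h1 := start 0 le_rfl zero_le_one
    have h2 := stop J hJ le_rfl (Or.inr ⟨J, by omega, hA⟩) 0 κ le_rfl zero_le_one hκ0 hκ1
    linarith
  obtain rfl : κ = 0 := hκ.resolve_right fun h => by have := hA.1; linarith [hσ J]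
  have ykv : ∀ σ t, yk (grad b) e 0 x r σ t = yv (grad b) e x r σ t := by
    intro σ t; simp [yk, yv]
  have hex : ∃ j, 2 ≤ j ∧ Av j := ⟨J, hJ, hA⟩
  set j₀ := Nat.find hex with hj₀
  have h02 : 2 ≤ j₀ := (Nat.find_spec hex).1
  have h0J : j₀ ≤ J := Nat.find_min' hex ⟨hJ, hA⟩
  have hAj : ∀ j, j₀ ≤ j → Av j := fun j hj => by
    have h1 := (Nat.find_spec hex).2
    have h2 := sig_le hK1 hs hj
    exact ⟨by linarith [h1.1], by linarith [h1.2]⟩
  have hbal : ∀ j, ∃ t, j₀ ≤ j → Bal b x r (s / K ^ j) t := fun j => by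
    by_cases hj : j₀ ≤ j
    · obtain ⟨a1, a2⟩ := hAj j hj
      have a3 := hσ j
      obtain ⟨t, ht⟩ := hBal b hb x r (s / K ^ j) a3 (by linarith [hσj j (h02.trans hj)])
        (hmax _ ⟨a1, by linarith⟩) (hmax _ ⟨by linarith, a2⟩)
      exact ⟨t, fun _ => ht⟩
    · exact ⟨0, fun h => absurd h hj⟩
  choose t ht using hbal
  by_contra hcon
  have h1 := start (t J) (ht J h0J).1 (ht J h0J).2.1
  rw [ykv] at h1
  set E := 2 * CS * (CB + c₁) * M with hEdef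
  set B := 4 * CE * M +
    ∑ i ∈ Finset.Ioc 2 J, CE * En (d i) x ρ R (4 * (s / K ^ (i - 1))) (2 * s) +
    ∑ j ∈ Finset.Ico 2 J, (Rare j).indicator (fun _ => CB * 2 ^ (j + 1) * M) x with hBdef
  have n4 : 0 ≤ 4 * CE * M := by positivity
  have nP : ∀ j : ℕ, 0 ≤ E * (2 - 2 / 2 ^ j) := fun j => by
    refine mul_nonneg nS ?_
    have : (2 : ℝ) / 2 ^ j ≤ 2 := div_le_self (by norm_num) (one_le_pow₀ (by norm_num))
    linarith
  have ind : ∀ k j, j + k = J → j₀ ≤ j →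
      B + E * (2 - 2 / 2 ^ j) < r * yv (grad b) e x r (s / K ^ j) (t j) := by
    intro k
    induction k with
    | zero =>
      rintro j rfl _
      have : 0 ≤ E * (2 / 2 ^ (j + 0)) := by positivity
      simp only [add_zero] at *
      rw [not_le] at hcon
      linarith
    | succ k ih =>
      intro j hjk hj
      have h2j : 2 ≤ j := h02.trans hj
      have ih' := ih (j + 1) (by omega) (by omega)
      have b1 := ht (j + 1) (by omega)
      have a0 := nP (j + 1)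
      have hy : 0 ≤ yv (grad b) e x r (s / K ^ (j + 1)) (t (j + 1)) :=
        ((mul_pos_iff_of_pos_left hr0).1 (by linarith)).le
      obtain ⟨c1, c2⟩ := hB (grad b) θ e _ _ (d (j + 1)) x r (t (j + 1)) hθ he (hd (j + 1))
        (hσ _) (by linarith [hσj (j + 1) (by omega)]) hΩ b1.1 b1.2.1
      have c3 : CB * (d (j + 1)).mν univ ≤ CB * 2 ^ (j + 1) * M := by
        rw [mul_assoc]; exact mul_le_mul_of_nonneg_left (hν _) hCB
      have hs2 := sig_succ (K := K) (by linarith) hs j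
      have nr : x ∉ Rare j := by
        intro h
        have := Finset.single_le_sum (f := fun j =>
          (Rare j).indicator (fun _ => CB * 2 ^ (j + 1) * M) x) (fun j _ => nR j)
          (Finset.mem_Ico.2 ⟨h2j, (by omega : j < J)⟩)
        rw [indicator_of_mem h] at this
        linarith
      have hq : ∃ q, (d (j + 1)).mΓ (Ann x r (2 * (s / K ^ j)) \
          ball q (c₁ * (s / (2 * K)) / 4 ^ j)) < CB * 2 ^ (j + 1) * M / 4 ^ j := by
        by_contra hq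
        push Not at hq
        refine nr (hRare j ⟨hx, r, hr0, hr2, ?_, hq⟩)
        refine le_trans ((d (j + 1)).mΓ_mono (hd _).Γ_nonneg (ball_subset_ball ?_))
          ((c2 hy).trans c3)
        linarith [hσ (j + 1)]
      obtain ⟨q, hq⟩ := hq
      have hD : c₁ * (s / (2 * K)) / 4 ^ j ≤ c₁ * r / 4 ^ j := by gcongr
      have c4 := hS b hb θ e _ _ _ (c₁ * (s / (2 * K)) / 4 ^ j) (d (j + 1)) x q r (t j) (t (j + 1))
        hθ he (hd (j + 1)) (hσ _) hs2 (sig_D (by linarith) hc₁ hKc hs h2j)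
        (hD.trans (div_le_self (by positivity) (one_le_pow₀ (by norm_num)))) hΩ (ht j hj) b1 hy
      have c5 : c₁ * (s / (2 * K)) / 4 ^ j / r * (d (j + 1)).mν univ ≤
          c₁ / 4 ^ j * (2 ^ (j + 1) * M) := by
        refine mul_le_mul ?_ (hν _) ((d _).mν_nonneg (hd _).ν_nonneg _) (by positivity)
        rw [div_le_iff₀ hr0]
        calc _ ≤ c₁ * r / 4 ^ j := hD
          _ = _ := by ring
      have c6 : CS * (CB * 2 ^ (j + 1) * M / 4 ^ j + c₁ / 4 ^ j * (2 ^ (j + 1) * M)) =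
          E / 2 ^ j := by
        rw [hEdef, show (4 : ℝ) ^ j = 2 ^ j * 2 ^ j by rw [← mul_pow]; norm_num, pow_succ]
        field_simp
      have c7 := mul_le_mul_of_nonneg_left (add_le_add hq.le c5) hCS
      have c8 : E * (2 - 2 / 2 ^ (j + 1)) - E / 2 ^ j = E * (2 - 2 / 2 ^ j) := by
        rw [pow_succ]; field_simp; ring
      linarith
  have h2 := ind (J - j₀) j₀ (by omega) le_rfl
  have h3 := stop j₀ h02 h0J (by
    rcases eq_or_lt_of_le h02 with h | h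
    · exact Or.inl h.symm
    · refine Or.inr ⟨j₀ - 1, by omega, fun hA' => ?_⟩
      exact Nat.find_min hex (m := j₀ - 1) (by omega) ⟨by omega, hA'⟩)
    (t j₀) 0 (ht j₀ le_rfl).1 (ht j₀ le_rfl).2.1 le_rfl (by norm_num)
  rw [ykv] at h3
  linarith [nP j₀]

theorem rare_num {CK CB c₁ K s M : ℝ} (hCK : 0 ≤ CK) (hc₁ : 0 < c₁) (hK : 1024 ≤ K) (hs : 0 < s)
    (j : ℕ) (hT : 0 < CB * 2 ^ (j + 1) * M) :
    CB * 2 ^ (j + 1) * M * (CK * ((CB * 2 ^ (j + 1) * M + CB * 2 ^ (j + 1) * M / 4 ^ j) /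
      (CB * 2 ^ (j + 1) * M / 4 ^ j)) ^ 2 *
      (s ^ 3 * (2 * (s / K ^ j)) / (c₁ * (s / (2 * K)) / 4 ^ j) ^ 2)) ≤
      64 * CB * CK * K ^ 2 / c₁ ^ 2 * s ^ 2 * M / 2 ^ j := by
  have hK0 : 0 < K := by linarith
  have hBM : 0 < CB * M := by
    have : CB * 2 ^ (j + 1) * M = 2 ^ (j + 1) * (CB * M) := by ring
    rw [this] at hT
    exact pos_of_mul_pos_left (by rwa [mul_comm] at hT) (by positivity)
  generalize hT' : CB * 2 ^ (j + 1) * M = T at hT
  have e1 : (T + T / 4 ^ j) / (T / 4 ^ j) = 4 ^ j + 1 := by field_simp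
  have e2 : s ^ 3 * (2 * (s / K ^ j)) / (c₁ * (s / (2 * K)) / 4 ^ j) ^ 2 =
      8 * K ^ 2 / c₁ ^ 2 * s ^ 2 * ((4 ^ j) ^ 2 / K ^ j) := by field_simp; ring
  rw [e1, e2, ← hT']
  have h1 : (4 : ℝ) ^ j + 1 ≤ 2 * 4 ^ j := by linarith [one_le_pow₀ (n := j) (by norm_num : (1 : ℝ) ≤ 4)]
  have h2 : (1024 : ℝ) ^ j ≤ K ^ j := pow_le_pow_left₀ (by norm_num) hK j
  have e3 : (1024 : ℝ) ^ j = 2 ^ j * 2 ^ j * (4 ^ j) ^ 4 := by
    rw [← pow_mul, mul_comm j 4, pow_mul, ← mul_pow, ← mul_pow]; norm_num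
  calc CB * 2 ^ (j + 1) * M * (CK * (4 ^ j + 1) ^ 2 *
        (8 * K ^ 2 / c₁ ^ 2 * s ^ 2 * ((4 ^ j) ^ 2 / K ^ j)))
      = (CB * M) * (2 ^ (j + 1) * (CK * (4 ^ j + 1) ^ 2 *
        (8 * K ^ 2 / c₁ ^ 2 * s ^ 2 * ((4 ^ j) ^ 2 / K ^ j)))) := by ring
    _ ≤ (CB * M) * (2 ^ (j + 1) * (CK * (2 * 4 ^ j) ^ 2 *
        (8 * K ^ 2 / c₁ ^ 2 * s ^ 2 * ((4 ^ j) ^ 2 / 1024 ^ j)))) := by gcongr
    _ = _ := by rw [e3, pow_succ]; field_simp; ring

theorem en_num {K s : ℝ} (hK : 4 ≤ K) (hs : 0 < s) {i : ℕ} (hi : 1 ≤ i) :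
    s / K ^ (i - 1) * 2 ^ i ≤ 4 * s / 2 ^ i := by
  obtain ⟨k, rfl⟩ := Nat.exists_eq_add_of_le' hi
  rw [Nat.add_sub_cancel]
  have h1 : (4 : ℝ) ^ k ≤ K ^ k := pow_le_pow_left₀ (by norm_num) hK k
  calc s / K ^ k * 2 ^ (k + 1) ≤ s / 4 ^ k * 2 ^ (k + 1) := by gcongr
    _ = _ := by
      rw [show (4 : ℝ) ^ k = 2 ^ k * 2 ^ k by rw [← mul_pow]; norm_num, pow_succ]
      field_simp; ring

end ELemma

open ELemma in
theorem elemma (hBal : BalStmt) (hSt : StartStmt) (hB : BoundStmt) (hS : StepStmt) (hE : EndStmt)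
    (hK : KinkStmt) (hStr : StripStmt) : ELemmaStmt := by
  obtain ⟨CSt, hCSt, hSt⟩ := hSt
  obtain ⟨CB, hCB, hB⟩ := hB
  obtain ⟨CS, c₁, hCS, hc₁, -, hS⟩ := hS
  obtain ⟨CE, hCE, hE⟩ := hE
  obtain ⟨CK, hCK, hKink⟩ := hK
  obtain ⟨CR, hCR, hStr⟩ := hStr
  refine ⟨max 1024 (64 / c₁), fun K hK => ?_⟩
  have hK1 : 1024 ≤ K := (le_max_left _ _).trans hK
  have hK2 : 64 / c₁ ≤ K := (le_max_right _ _).trans hK
  have hK0 : 0 < K := by linarith
  refine ⟨576 * (4 * CS * (CB + c₁) + 4 * CE) + 2 * (64 * CE * CR) +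
    2 * (64 * CB * CK * K ^ 2 / c₁ ^ 2), by positivity, ?_⟩
  intro b hb θ e z s M R d ρ hθ he hs hM hd hν hρ
  obtain ⟨Lb, hLb0, hLb⟩ := hb.exists_bound
  set Rare : ℕ → Set ℂ := fun j => toMeasurable volume (Kset (d (j + 1)) z s (2 * (s / K ^ j))
    (c₁ * (s / (2 * K)) / 4 ^ j) (CB * 2 ^ (j + 1) * M / 4 ^ j) (CB * 2 ^ (j + 1) * M)) with hRare
  set f₁ : ℂ → ℝ≥0∞ := (ball z (12 * s)).indicator
    fun _ => ENNReal.ofReal ((4 * CS * (CB + c₁) + 4 * CE) * M) with hf₁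
  set f₂ : ℕ → ℂ → ℝ≥0∞ := fun i x => if 2 < i then
    ENNReal.ofReal (CE * En (d i) x (ρ x) R (4 * (s / K ^ (i - 1))) (2 * s)) else 0 with hf₂
  set f₃ : ℕ → ℂ → ℝ≥0∞ := fun j x => if 2 ≤ j then
    ENNReal.ofReal ((Rare j).indicator (fun _ => CB * 2 ^ (j + 1) * M) x) else 0 with hf₃
  have hR : Lip (1 / 2) fun _ : ℂ => R := fun y y' => by simp
  have m₁ : Measurable f₁ := measurable_const.indicator measurableSet_ball
  have i₁ : ∫⁻ x, f₁ x ≤ ENNReal.ofReal (576 * (4 * CS * (CB + c₁) + 4 * CE) * s ^ 2 * M) := by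
    rw [hf₁, lintegral_indicator_const measurableSet_ball, Complex.volume_ball,
      ← ENNReal.ofReal_pow (by positivity), ← ENNReal.ofReal_coe_nnreal, NNReal.coe_real_pi,
      ← ENNReal.ofReal_mul (by positivity), ← ENNReal.ofReal_mul (by positivity)]
    apply ENNReal.ofReal_le_ofReal
    calc (4 * CS * (CB + c₁) + 4 * CE) * M * ((12 * s) ^ 2 * Real.pi)
        ≤ (4 * CS * (CB + c₁) + 4 * CE) * M * ((12 * s) ^ 2 * 4) := by
          gcongr; exact Real.pi_le_four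
      _ = _ := by ring
  have h₂ : ∀ i, Measurable (f₂ i) ∧
      ∫⁻ x, f₂ i x ≤ ENNReal.ofReal (64 * CE * CR * s ^ 2 * M / 2 ^ i) := by
    intro i
    by_cases hi : 2 < i
    · have hw : 0 < 4 * (s / K ^ (i - 1)) := by positivity
      obtain ⟨a1, a2⟩ := strip hStr hCR (d i) (hd i).ν_nonneg ρ hρ (2 * s) _ (by positivity) hw
      obtain ⟨a3, a4⟩ := strip hStr hCR (d i) (hd i).ν_nonneg _ hR (2 * s) _ (by positivity) hw
      have e : f₂ i = fun x => ENNReal.ofReal CE *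
          (ENNReal.ofReal ((d i).mν (Ann x (ρ x) (4 * (s / K ^ (i - 1))) ∩ closedBall x (2 * s))) +
          ENNReal.ofReal ((d i).mν (Ann x R (4 * (s / K ^ (i - 1))) ∩ closedBall x (2 * s)))) := by
        funext x
        simp only [hf₂, if_pos hi]
        rw [ENNReal.ofReal_mul hCE, En, ENNReal.ofReal_add ((d i).mν_nonneg (hd i).ν_nonneg _)
          ((d i).mν_nonneg (hd i).ν_nonneg _)]
      rw [e]
      refine ⟨(a1.add a3).const_mul _, ?_⟩
      beta_reduce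
      rw [lintegral_const_mul' _ _ ENNReal.ofReal_ne_top, lintegral_add_left a1]
      refine (mul_le_mul_right (add_le_add a2 a4) _).trans ?_
      have n := (d i).mν_nonneg (hd i).ν_nonneg univ
      rw [← ENNReal.ofReal_add (by positivity) (by positivity), ← ENNReal.ofReal_mul hCE]
      apply ENNReal.ofReal_le_ofReal
      have a5 := en_num (K := K) (by linarith) hs (i := i) (by omega)
      have a6 := hν i
      calc CE * (CR * (2 * s) * (4 * (s / K ^ (i - 1))) * (d i).mν univ +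
            CR * (2 * s) * (4 * (s / K ^ (i - 1))) * (d i).mν univ)
          = 16 * CE * CR * s * (s / K ^ (i - 1) * (d i).mν univ) := by ring
        _ ≤ 16 * CE * CR * s * (s / K ^ (i - 1) * (2 ^ i * M)) := by gcongr
        _ = 16 * CE * CR * s * M * (s / K ^ (i - 1) * 2 ^ i) := by ring
        _ ≤ 16 * CE * CR * s * M * (4 * s / 2 ^ i) := by gcongr
        _ = _ := by ring
    · simp [hf₂, hi]
  have h₃ : ∀ j, Measurable (f₃ j) ∧
      ∫⁻ x, f₃ j x ≤ ENNReal.ofReal (64 * CB * CK * K ^ 2 / c₁ ^ 2 * s ^ 2 * M / 2 ^ j) := by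
    intro j
    by_cases hj : 2 ≤ j
    · have mR : MeasurableSet (Rare j) := measurableSet_toMeasurable _ _
      have e : f₃ j = (Rare j).indicator fun _ => ENNReal.ofReal (CB * 2 ^ (j + 1) * M) := by
        funext x
        simp only [hf₃, if_pos hj]
        by_cases hx : x ∈ Rare j <;> simp [hx]
      rw [e]
      refine ⟨measurable_const.indicator mR, ?_⟩
      rw [lintegral_indicator_const mR]
      rcases eq_or_lt_of_le (show 0 ≤ CB * 2 ^ (j + 1) * M by positivity) with hT | hT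
      · rw [← hT]; simp
      have hw : 2 * (s / K ^ j) ≤ s := by
        have a1 := sig_le (K := K) (by linarith) hs (show 0 + 1 ≤ j by omega)
        have a2 := sig_succ (K := K) (by linarith) hs 0
        rw [pow_zero, div_one] at a2
        linarith
      have := hKink (d (j + 1)) (hd _).Γ_nonneg z s (2 * (s / K ^ j)) (c₁ * (s / (2 * K)) / 4 ^ j)
        (CB * 2 ^ (j + 1) * M / 4 ^ j) (CB * 2 ^ (j + 1) * M) (by positivity) hw (by positivity)
        (by positivity) hT.le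
      rw [hRare]
      simp only [measure_toMeasurable]
      refine (mul_le_mul_right this _).trans ?_
      rw [← ENNReal.ofReal_mul hT.le]
      exact ENNReal.ofReal_le_ofReal (rare_num hCK hc₁ hK1 hs j hT)
    · simp [hf₃, hj]
  have m₂ : Measurable fun x => ∑' i, f₂ i x := Measurable.tsum fun i => (h₂ i).1
  have m₃ : Measurable fun x => ∑' i, f₃ i x := Measurable.tsum fun i => (h₃ i).1
  refine ⟨fun x => f₁ x + ∑' i, f₂ i x + ∑' i, f₃ i x, (m₁.add m₂).add m₃, ?_, ?_⟩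
  · beta_reduce
    rw [lintegral_add_right _ m₃, lintegral_add_left m₁,
      lintegral_tsum fun i => (h₂ i).1.aemeasurable, lintegral_tsum fun i => (h₃ i).1.aemeasurable]
    refine (add_le_add (add_le_add i₁ (geo (by positivity) _ fun i => (h₂ i).2))
      (geo (by positivity) _ fun i => (h₃ i).2)).trans ?_
    rw [← ENNReal.ofReal_add (by positivity) (by positivity),
      ← ENNReal.ofReal_add (by positivity) (by positivity)]
    apply ENNReal.ofReal_le_ofReal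
    apply le_of_eq; ring
  · intro x hx r κ h1 h2 h3 h4 h5 h6 h7 h8
    have lim : Tendsto (fun J : ℕ => f₁ x + ∑' i, f₂ i x + ∑' i, f₃ i x +
        ENNReal.ofReal (CSt * (2 * Lb) * s * (s / K ^ J))) atTop
        (𝓝 (f₁ x + ∑' i, f₂ i x + ∑' i, f₃ i x + ENNReal.ofReal (CSt * (2 * Lb) * s * 0))) := by
      refine tendsto_const_nhds.add (ENNReal.tendsto_ofReal (Tendsto.const_mul _ ?_))
      exact tendsto_const_nhds.div_atTop (tendsto_pow_atTop_atTop_of_one_lt (by linarith))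
    rw [mul_zero, ENNReal.ofReal_zero, add_zero] at lim
    refine ge_of_tendsto lim (eventually_atTop.2 ⟨2, fun J hJ => ?_⟩)
    have key := pointwise hBal hCSt hCB hCS hc₁ hCE hSt hB hS hE hK1 hK2 hb hθ he hs hM hd hν hLb0
      hLb hx h1 h2 h3 h4 h5 h6 h7 h8 Rare (fun j => subset_toMeasurable _ _) hJ
    refine (ENNReal.ofReal_le_ofReal key).trans ?_
    refine ENNReal.ofReal_add_le.trans (add_le_add (ENNReal.ofReal_add_le.trans (add_le_add
      (ENNReal.ofReal_add_le.trans (add_le_add ?_ ?_)) ?_)) le_rfl)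
    · rw [hf₁, indicator_of_mem hx]
    · have hEn : ∀ i w, 0 ≤ En (d i) x (ρ x) R w (2 * s) := fun i w =>
        add_nonneg ((d i).mν_nonneg (hd i).ν_nonneg _) ((d i).mν_nonneg (hd i).ν_nonneg _)
      rw [ENNReal.ofReal_sum_of_nonneg fun i _ => mul_nonneg hCE (hEn i _)]
      refine le_trans (le_of_eq (Finset.sum_congr rfl fun i hi => ?_))
        (ENNReal.sum_le_tsum (Finset.Ioc 2 J))
      simp only [hf₂, if_pos (Finset.mem_Ioc.1 hi).1]
    · rw [ENNReal.ofReal_sum_of_nonneg fun j _ => indicator_nonneg (fun _ _ => by positivity) x]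
      refine le_trans (le_of_eq (Finset.sum_congr rfl fun i hi => ?_))
        (ENNReal.sum_le_tsum (Finset.Ico 2 J))
      simp only [hf₃, if_pos (Finset.mem_Ico.1 hi).1]

end

end Crest.Agent.R112
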