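import Crest.Agent.R112.Basic

/-! Row 112: the a priori bound and the end estimate. -/

set_option autoImplicit false

namespace Crest.Agent.R112

open MeasureTheory Set Metric Filter Topology
open scoped ENNReal NNReal Classical

theorem end_tauA {α β : ℝ} (hα : 0 < α) (hαβ : α < β) :
    (∀ ρ, 0 ≤ tauA α β ρ ∧ tauA α β ρ ≤ 2 / (α + β)) ∧
    (∀ s t, |tauA α β s - tauA α β t| ≤ 2 / ((β - α) * (α + β)) * |s - t|) ∧
    (∀ ρ, β ≤ ρ → tauA α β ρ = 0) ∧ ∀ ρ, ρ ≤ α → tauA α β ρ = 2 / (α + β) := by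
  have h1 : 0 < β - α := by linarith
  have h2 : 0 < α + β := by linarith
  have hD : (β ^ 2 - α ^ 2) / 2 = (β - α) * (α + β) / 2 := by ring
  have hDpos : 0 < (β - α) * (α + β) / 2 := by positivity
  refine ⟨fun ρ => ?_, fun s t => ?_, fun ρ h => ?_, fun ρ h => ?_⟩
  · have a1 : α ≤ max α (min ρ β) := le_max_left _ _
    have a2 : max α (min ρ β) ≤ β := max_le hαβ.le (min_le_right _ _)
    unfold tauA
    rw [hD]
    refine ⟨div_nonneg (by linarith) hDpos.le, ?_⟩
    rw [div_le_div_iff₀ hDpos h2]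
    nlinarith
  · unfold tauA
    rw [hD, ← sub_div, abs_div, abs_of_pos hDpos, div_le_iff₀ hDpos]
    have := abs_clamp_sub_le α β t s
    have e : β - max α (min s β) - (β - max α (min t β)) = max α (min t β) - max α (min s β) := by
      ring
    rw [e, abs_sub_comm s t]
    refine this.trans (le_of_eq ?_)
    field_simp
  · unfold tauA
    rw [min_eq_right h, max_eq_right hαβ.le, sub_self, zero_div]
  · unfold tauA
    rw [min_eq_left (h.trans hαβ.le), max_eq_left h, hD]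
    field_simp

theorem end_tauM {r σ t : ℝ} (hσ : 0 < σ) (hr : σ ≤ r / 2) (h0 : 0 ≤ t) (h1 : t ≤ 1) :
    (∀ ρ, 0 ≤ tauM r σ t ρ ∧ tauM r σ t ρ ≤ 2 / r) ∧
    (∀ s s', |tauM r σ t s - tauM r σ t s'| ≤ 2 / (r * σ) * |s - s'|) ∧
    (∀ ρ, r + σ ≤ ρ → tauM r σ t ρ = 0) ∧
    (∀ ρ, ρ ≤ r - σ → tauM r σ t ρ = tauM r σ t 0) ∧ 4 / (5 * r) ≤ tauM r σ t 0 := by
  have hr0 : 0 < r := by linarith
  obtain ⟨a1, a2, a3, a4⟩ := end_tauA (α := r - σ) (β := r) (by linarith) (by linarith)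
  obtain ⟨b1, b2, b3, b4⟩ := end_tauA (α := r) (β := r + σ) hr0 (by linarith)
  have c1 : 2 / (r - σ + r) ≤ 2 / r := div_le_div_of_nonneg_left (by norm_num) hr0 (by linarith)
  have c2 : 2 / (r + (r + σ)) ≤ 2 / r := div_le_div_of_nonneg_left (by norm_num) hr0 (by linarith)
  have c3 : 2 / ((r - (r - σ)) * (r - σ + r)) ≤ 2 / (r * σ) :=
    div_le_div_of_nonneg_left (by norm_num) (by positivity) (by nlinarith)
  have c4 : 2 / ((r + σ - r) * (r + (r + σ))) ≤ 2 / (r * σ) :=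
    div_le_div_of_nonneg_left (by norm_num) (by positivity) (by nlinarith)
  have c5 : 4 / (5 * r) ≤ 2 / (r - σ + r) := by
    rw [div_le_div_iff₀ (by positivity) (by linarith)]; linarith
  have c6 : 4 / (5 * r) ≤ 2 / (r + (r + σ)) := by
    rw [div_le_div_iff₀ (by positivity) (by linarith)]; linarith
  have ht : 0 ≤ 1 - t := by linarith
  refine ⟨fun ρ => ?_, fun s s' => ?_, fun ρ h => ?_, fun ρ h => ?_, ?_⟩
  · unfold tauM
    obtain ⟨p1, p2⟩ := a1 ρ
    obtain ⟨q1, q2⟩ := b1 ρ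
    constructor
    · positivity
    · nlinarith
  · unfold tauM
    have e : (1 - t) * tauA (r - σ) r s + t * tauA r (r + σ) s -
        ((1 - t) * tauA (r - σ) r s' + t * tauA r (r + σ) s') =
        (1 - t) * (tauA (r - σ) r s - tauA (r - σ) r s') +
          t * (tauA r (r + σ) s - tauA r (r + σ) s') := by ring
    rw [e]
    refine (abs_add_le _ _).trans ?_
    rw [abs_mul, abs_mul, abs_of_nonneg ht, abs_of_nonneg h0]
    have p := (a2 s s').trans (mul_le_mul_of_nonneg_right c3 (abs_nonneg _))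
    have q := (b2 s s').trans (mul_le_mul_of_nonneg_right c4 (abs_nonneg _))
    nlinarith
  · unfold tauM
    rw [a3 ρ (by linarith), b3 ρ h]; ring
  · unfold tauM
    rw [a4 ρ h, b4 ρ (by linarith), a4 0 (by linarith), b4 0 hr0.le]
  · unfold tauM
    rw [a4 0 (by linarith), b4 0 hr0.le]
    nlinarith

theorem bound : BoundStmt := by
  refine ⟨500, by norm_num, fun γ θ e Ω σ d x r t _ he hL hσ hr hΩ h0 h1 => ?_⟩
  have hr0 : 0 < r := by linarith
  obtain ⟨a1, a2, a3, a4, a5⟩ := end_tauM hσ hr h0 h1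
  have hν := d.mν_nonneg hL.ν_nonneg univ
  have key : ∀ (G : Set ℂ) (c : ℝ), 0 ≤ c → (∀ y ∈ G, c ≤ tauM r σ t ‖y - x‖) →
      c / 100 * d.mΓ {p | closedBall p (2 * σ) ⊆ G} - 4 / r * d.mν univ ≤ -yv γ e x r σ t := by
    intro G c hc hG
    have := hL.gain (fun y => tauM r σ t ‖y - x‖) e (closedBall x (2 * r)) G (2 / r) (2 / (r * σ))
      c he (by positivity) (by positivity) hc hΩ (fun y hy => a3 _ (by
        rw [mem_closedBall, dist_eq_norm, not_le] at hy; linarith)) (fun y => a1 _)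
      (Lip.radial (by positivity) a2 x) hG
    have e1 : 2 / r + 2 / (r * σ) * σ = 4 / r := by field_simp; ring
    rw [e1] at this
    unfold yv
    rw [neg_neg]
    exact this
  constructor
  · have := key ∅ 0 le_rfl (by simp)
    rw [zero_div, zero_mul, zero_sub, neg_le_neg_iff, div_mul_eq_mul_div, le_div_iff₀ hr0] at this
    linarith
  · intro hy
    have h2 := key (closedBall x (r - σ)) (4 / (5 * r)) (by positivity) (fun y hy => by
      rw [mem_closedBall, dist_eq_norm] at hy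
      rw [a4 _ hy]; exact a5)
    have h3 : d.mΓ (ball x (r - 3 * σ)) ≤
        d.mΓ {p | closedBall p (2 * σ) ⊆ closedBall x (r - σ)} :=
      d.mΓ_mono hL.Γ_nonneg fun p hp => closedBall_subset_closedBall' (by
        rw [mem_ball] at hp; linarith)
    have h4 : 4 / (5 * r) / 100 * d.mΓ {p | closedBall p (2 * σ) ⊆ closedBall x (r - σ)} ≤
        4 / r * d.mν univ := by linarith
    have e1 : 4 / (5 * r) / 100 = 1 / r * (1 / 125) := by field_simp; ring
    have e2 : 4 / r = 1 / r * 4 := by ring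
    rw [e1, e2, mul_assoc, mul_assoc, mul_le_mul_iff_right₀ (by positivity)] at h4
    linarith

theorem end_cone {θ v : ℂ} (hθ : ‖θ‖ = 1) (hv : ‖v - θ‖ ≤ 7 / 8) {s : ℝ} (hs : 0 ≤ s) :
    Cone θ (s • v) := by
  have h1 := sq_norm_eq_dot θ (v - θ) hθ
  have h2 : dot θ θ = 1 := by rw [dot_self, hθ]; norm_num
  have h3 : dot (Complex.I * θ) θ = 0 := by simp [dot]; ring
  rw [dot_sub_right, dot_sub_right, h2, h3, sub_zero] at h1
  have h4 : ‖v - θ‖ ^ 2 ≤ (7 / 8) ^ 2 := pow_le_pow_left₀ (norm_nonneg _) hv 2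
  have h5 : |dot (Complex.I * θ) v| ≤ 4 * dot θ v := by
    rw [abs_le]
    constructor <;> nlinarith [sq_nonneg (dot (Complex.I * θ) v * 4 - (dot θ v - 1)),
      sq_nonneg (dot (Complex.I * θ) v * 4 + (dot θ v - 1)),
      sq_nonneg (dot (Complex.I * θ) v - 1 / 4), sq_nonneg (dot (Complex.I * θ) v + 1 / 4),
      sq_nonneg (dot θ v - 1 + 1)]
  unfold Cone
  rw [dot_comm _ (s • v), dot_comm _ (s • v), dot_smul_left, dot_smul_left, abs_mul,
    abs_of_nonneg hs, dot_comm v, dot_comm v]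
  nlinarith

/-- coordinatewise clamp -/
noncomputable def endP (R : ℝ) (w : ℂ) : ℂ := ⟨max (-R) (min w.re R), max (-R) (min w.im R)⟩

theorem endP_eq {R : ℝ} {w : ℂ} (h : ‖w‖ ≤ R) : endP R w = w := by
  have h1 := abs_le.1 ((Complex.abs_re_le_norm w).trans h)
  have h2 := abs_le.1 ((Complex.abs_im_le_norm w).trans h)
  apply Complex.ext
  · simp only [endP]; rw [min_eq_left h1.2, max_eq_right h1.1]
  · simp only [endP]; rw [min_eq_left h2.2, max_eq_right h2.1]

theorem endP_norm {R : ℝ} (hR : 0 ≤ R) (w : ℂ) : ‖endP R w‖ ≤ 3 / 2 * R := by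
  have k : ∀ s : ℝ, (max (-R) (min s R)) ^ 2 ≤ R ^ 2 := fun s =>
    sq_le_sq' (le_max_left _ _) (max_le (by linarith) (min_le_right _ _))
  refine abs_le_of_sq_le_sq' ?_ (by positivity) |>.2
  rw [Complex.sq_norm, Complex.normSq_apply]
  have a := k w.re
  have b := k w.im
  simp only [endP]
  nlinarith

theorem endP_lip (R : ℝ) (w w' : ℂ) : ‖endP R w - endP R w'‖ ≤ 2 * ‖w - w'‖ := by
  refine (Complex.norm_le_abs_re_add_abs_im _).trans ?_
  have a := (abs_clamp_sub_le (-R) R w.re w'.re).trans (Complex.abs_re_le_norm (w - w'))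
  have b := (abs_clamp_sub_le (-R) R w.im w'.im).trans (Complex.abs_im_le_norm (w - w'))
  simp only [endP, Complex.sub_re, Complex.sub_im]
  linarith

/-- cutoff -/
noncomputable def endChi (r σ ρ : ℝ) : ℝ := max 0 (min ((r - σ - ρ) / σ) 1)

theorem endChi_facts (r : ℝ) {σ : ℝ} (hσ : 0 < σ) :
    (∀ ρ, 0 ≤ endChi r σ ρ ∧ endChi r σ ρ ≤ 1) ∧
    (∀ s t, |endChi r σ s - endChi r σ t| ≤ 1 / σ * |s - t|) ∧
    (∀ ρ, r - σ ≤ ρ → endChi r σ ρ = 0) ∧ ∀ ρ, ρ ≤ r - 2 * σ → endChi r σ ρ = 1 := by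
  refine ⟨fun ρ => ⟨le_max_left _ _, max_le zero_le_one (min_le_right _ _)⟩, fun s t => ?_,
    fun ρ h => ?_, fun ρ h => ?_⟩
  · refine (abs_clamp_sub_le _ _ _ _).trans (le_of_eq ?_)
    rw [← sub_div, abs_div, abs_of_pos hσ, abs_sub_comm s t]
    have : r - σ - s - (r - σ - t) = t - s := by ring
    rw [this]; ring
  · exact max_eq_left ((min_le_left _ _).trans (div_nonpos_of_nonpos_of_nonneg (by linarith) hσ.le))
  · unfold endChi
    rw [min_eq_right ((one_le_div hσ).2 (by linarith)), max_eq_right zero_le_one]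

theorem end_piece {γ : ℂ → ℂ} {θ : ℂ} {Ω : Set ℂ} {σ : ℝ} {d : Atoms} (hL : LevelData γ θ Ω σ d)
    (hθ : ‖θ‖ = 1) {x : ℂ} {r : ℝ} (hσ : 0 < σ) (hr : σ ≤ r) (hΩ : closedBall x (2 * r) ⊆ Ω)
    {E : ℂ → ℂ} (hE : ∀ y, ‖E y - θ‖ ≤ 7 / 8) (hE' : Lip (1 / r) E) {f : ℝ → ℝ}
    (h1 : ∀ ρ, 0 ≤ f ρ ∧ f ρ ≤ 2 / r) (h2 : ∀ s t, |f s - f t| ≤ 4 / (r * σ) * |s - t|)
    {w : ℝ} (hw : w ≤ r) (h3 : ∀ ρ, w < |ρ - r| → 0 ≤ ρ → f ρ = 0) {S : Set ℂ}
    (hS : Ann x r (w + 2 * σ) ⊆ S) :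
    -(14 * d.mν S) ≤ r * ∫ y, dot (f ‖y - x‖ • E y) (γ y) := by
  have hr0 : 0 < r := by linarith
  have hEn : ∀ y, ‖E y‖ ≤ 2 := fun y => by
    have := norm_add_le (E y - θ) θ
    rw [sub_add_cancel, hθ] at this
    linarith [hE y]
  have hlip := Lip.smul (Lip.radial (by positivity) h2 x) hE'
    (a := 2 / r) (fun y => by rw [abs_of_nonneg (h1 _).1]; exact (h1 _).2) hEn
  have := hL.lb (fun y => f ‖y - x‖ • E y) (Ann x r w) (4 / r) _ (by positivity) (by positivity)
    (fun y hy => hΩ (by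
      have : |dist y x - r| ≤ w := hy
      rw [mem_closedBall]; linarith [le_abs_self (dist y x - r)]))
    (fun y hy => by
      have : ¬ |dist y x - r| ≤ w := hy
      rw [dist_eq_norm, not_le] at this
      simp only [h3 _ this (norm_nonneg _), zero_smul])
    (fun y => by
      rw [norm_smul, Real.norm_eq_abs, abs_of_nonneg (h1 _).1]
      calc _ ≤ 2 / r * 2 := mul_le_mul (h1 _).2 (hEn y) (norm_nonneg _) (by positivity)
        _ = 4 / r := by ring)
    hlip (fun y => end_cone hθ (hE y) (h1 _).1)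
  have hm : d.mν (near (Ann x r w) (2 * σ)) ≤ d.mν S := by
    refine d.mν_mono hL.ν_nonneg fun p hp => hS ?_
    obtain ⟨y, hy, hpy⟩ := hp
    have hy' : |dist y x - r| ≤ w := hy
    have h4 := abs_dist_sub_le p y x
    show |dist p x - r| ≤ w + 2 * σ
    rw [abs_le] at *
    constructor <;> linarith [h4.1, h4.2, hy'.1, hy'.2]
  have hc : r * (4 / r + (2 / r * (1 / r) + 2 * (4 / (r * σ))) * σ) ≤ 14 := by
    have e : r * (4 / r + (2 / r * (1 / r) + 2 * (4 / (r * σ))) * σ) = 12 + 2 * (σ / r) := by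
      field_simp; ring
    have : σ / r ≤ 1 := (div_le_one hr0).2 hr
    rw [e]; linarith
  have h0 := d.mν_nonneg hL.ν_nonneg (near (Ann x r w) (2 * σ))
  have h5 := mul_le_mul_of_nonneg_left this hr0.le
  have h6 := mul_le_mul_of_nonneg_right hc h0
  nlinarith

theorem end_integrable {γ : ℂ → ℂ} (hγ : Integrable γ) {V : ℂ → ℂ} (hV : Continuous V) {a : ℝ}
    (ha : ∀ y, ‖V y‖ ≤ a) : Integrable fun y => dot (V y) (γ y) := by
  refine (hγ.norm.const_mul a).mono' ?_ (Eventually.of_forall fun y => ?_)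
  · exact continuous_dot.comp_aestronglyMeasurable
      (hV.aestronglyMeasurable.prodMk hγ.aestronglyMeasurable)
  · exact (abs_dot_le _ _).trans (mul_le_mul_of_nonneg_right (ha y) (norm_nonneg _))

theorem endb : EndStmt := by
  refine ⟨28, by norm_num, fun γ hγ θ e Ω σ d j₁ j x r t κ hθ he hσ hσ2 hj hL hr hΩ h0 h1 hκ0 hκ => ?_⟩
  have hr0 : 0 < r := by linarith [hσ j₁]
  have hdec : ∀ i k, i ≤ k → σ k ≤ σ i := by
    intro i k hik
    induction hik with
    | refl => exact le_rfl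
    | @step m _ ih =>
      show σ (m + 1) ≤ σ i
      linarith [hσ2 m, hσ (m + 1)]
  have hσr : ∀ i, j₁ ≤ i → σ i ≤ r / 4 := fun i hi => (hdec _ _ hi).trans hr
  obtain ⟨a1, a2, a3, a4, -⟩ := end_tauM (hσ j) (by linarith [hσr j hj] : σ j ≤ r / 2) h0 h1
  set g0 := tauM r (σ j) t 0 with hg0
  have hg : 0 ≤ g0 ∧ g0 ≤ 2 / r := a1 0
  set E : ℂ → ℂ := fun y => e + ((κ / r : ℝ) : ℂ) * endP (5 * r / 4) (y - x) with hEdef
  have hκr : ‖((κ / r : ℝ) : ℂ)‖ = κ / r := by
    rw [Complex.norm_real, Real.norm_eq_abs, abs_of_nonneg (by positivity)]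
  have hE : ∀ y, ‖E y - θ‖ ≤ 7 / 8 := fun y => by
    have e1 : E y - θ = (e - θ) + ((κ / r : ℝ) : ℂ) * endP (5 * r / 4) (y - x) := by
      simp only [hEdef]; ring
    rw [e1]
    refine (norm_add_le _ _).trans ?_
    rw [norm_mul, hκr]
    have := endP_norm (R := 5 * r / 4) (by positivity) (y - x)
    have h2 : κ / r * ‖endP (5 * r / 4) (y - x)‖ ≤ κ / r * (3 / 2 * (5 * r / 4)) :=
      mul_le_mul_of_nonneg_left this (by positivity)
    have h3 : κ / r * (3 / 2 * (5 * r / 4)) = 15 / 8 * κ := by field_simp; ring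
    linarith
  have hE' : Lip (1 / r) E := fun y y' => by
    have e1 : E y - E y' = ((κ / r : ℝ) : ℂ) *
        (endP (5 * r / 4) (y - x) - endP (5 * r / 4) (y' - x)) := by simp only [hEdef]; ring
    rw [e1, norm_mul, hκr]
    have := endP_lip (5 * r / 4) (y - x) (y' - x)
    rw [sub_sub_sub_cancel_right] at this
    have h2 := mul_le_mul_of_nonneg_left this (show 0 ≤ κ / r by positivity)
    refine h2.trans ?_
    rw [← mul_assoc]
    refine mul_le_mul_of_nonneg_right ?_ (norm_nonneg _)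
    rw [div_mul_eq_mul_div]
    exact div_le_div_of_nonneg_right (by linarith) hr0.le
  have hEn : ∀ y, ‖E y‖ ≤ 2 := fun y => by
    have := norm_add_le (E y - θ) θ
    rw [sub_add_cancel, hθ] at this
    linarith [hE y]
  set I : (ℝ → ℝ) → ℝ := fun f => ∫ y, dot (f ‖y - x‖ • E y) (γ y) with hI
  have hint : ∀ (f : ℝ → ℝ) (L : ℝ), 0 ≤ L → (∀ ρ, 0 ≤ f ρ ∧ f ρ ≤ 2 / r) →
      (∀ s t, |f s - f t| ≤ L * |s - t|) → Integrable fun y => dot (f ‖y - x‖ • E y) (γ y) := by
    intro f L hL0 hf hf'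
    refine end_integrable hγ ((Lip.radial hL0 hf' x).continuous.smul hE'.continuous)
      (a := 2 / r * 2) fun y => ?_
    rw [norm_smul, Real.norm_eq_abs, abs_of_nonneg (hf _).1]
    exact mul_le_mul (hf _).2 (hEn y) (norm_nonneg _) (by positivity)
  have hadd : ∀ f f' : ℝ → ℝ, (Integrable fun y => dot (f ‖y - x‖ • E y) (γ y)) →
      (Integrable fun y => dot (f' ‖y - x‖ • E y) (γ y)) →
      I f = I f' + I fun ρ => f ρ - f' ρ := by
    intro f f' hf hf'
    simp only [hI, sub_smul, dot_sub_left]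
    rw [integral_sub hf hf']; ring
  have hb : ∀ i ρ, 0 ≤ g0 * endChi r (σ i) ρ ∧ g0 * endChi r (σ i) ρ ≤ 2 / r := fun i ρ => by
    obtain ⟨c1, -⟩ := endChi_facts r (hσ i)
    exact ⟨mul_nonneg hg.1 (c1 ρ).1, (mul_le_of_le_one_right hg.1 (c1 ρ).2).trans hg.2⟩
  have hl : ∀ i s s', |g0 * endChi r (σ i) s - g0 * endChi r (σ i) s'| ≤
      2 / (r * σ i) * |s - s'| := fun i s s' => by
    obtain ⟨-, c2, -⟩ := endChi_facts r (hσ i)
    rw [← mul_sub, abs_mul, abs_of_nonneg hg.1]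
    calc _ ≤ 2 / r * (1 / σ i * |s - s'|) := mul_le_mul hg.2 (c2 s s') (abs_nonneg _) (by positivity)
      _ = _ := by have := hσ i; field_simp
  have two : ∀ (f f' : ℝ → ℝ) (i : ℕ), (∀ s s', |f s - f s'| ≤ 2 / (r * σ i) * |s - s'|) →
      (∀ s s', |f' s - f' s'| ≤ 2 / (r * σ i) * |s - s'|) →
      ∀ s s', |f s - f' s - (f s' - f' s')| ≤ 4 / (r * σ i) * |s - s'| := by
    intro f f' i hf hf' s s'
    have e1 : f s - f' s - (f s' - f' s') = (f s - f s') - (f' s - f' s') := by ring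
    have e2 : 4 / (r * σ i) = 2 / (r * σ i) + 2 / (r * σ i) := by ring
    rw [e1, e2, add_mul]
    exact (abs_sub _ _).trans (add_le_add (hf s s') (hf' s s'))
  have hpos : ∀ i, 0 ≤ 2 / (r * σ i) := fun i => by have := hσ i; positivity
  have main : ∀ k, j₁ ≤ k → -(14 * ((d j₁).mν univ +
      ∑ i ∈ Finset.Ioc j₁ k, (d i).mν (Ann x r (3 * σ (i - 1))))) ≤
      r * I fun ρ => g0 * endChi r (σ k) ρ := by
    intro k hk
    induction hk with
    | refl =>
      rw [Finset.Ioc_self, Finset.sum_empty, add_zero]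
      obtain ⟨-, -, c3, -⟩ := endChi_facts r (hσ j₁)
      refine end_piece (hL j₁) hθ (hσ j₁) (by linarith) hΩ hE hE' (hb j₁)
        (fun s s' => (hl j₁ s s').trans (mul_le_mul_of_nonneg_right (by
          have := hσ j₁
          exact div_le_div_of_nonneg_right (by norm_num) (by positivity)) (abs_nonneg _)))
        le_rfl (fun ρ hρ hρ0 => ?_) (subset_univ _)
      rw [c3 ρ ?_, mul_zero]
      rcases lt_abs.1 hρ with h | h <;> linarith [hσ j₁]
    | @step k hk ih =>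
      have hk' : j₁ ≤ k := hk
      rw [Finset.sum_Ioc_succ_top hk', Nat.add_sub_cancel,
        hadd _ (fun ρ => g0 * endChi r (σ k) ρ) (hint _ _ (hpos _) (hb _) (hl _))
          (hint _ _ (hpos _) (hb _) (hl _))]
      obtain ⟨c1, -, c3, c4⟩ := endChi_facts r (hσ k)
      obtain ⟨c1', -, c3', c4'⟩ := endChi_facts r (hσ (k + 1))
      have s1 := hσ k
      have s2 := hσ (k + 1)
      have s3 := hσ2 k
      have s4 := hσr k hk'
      have := end_piece (hL (k + 1)) hθ s2 (by linarith) hΩ hE hE'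
        (f := fun ρ => g0 * endChi r (σ (k + 1)) ρ - g0 * endChi r (σ k) ρ) (fun ρ => by
          refine ⟨?_, by linarith [(hb (k + 1) ρ).2, (hb k ρ).1]⟩
          rw [← mul_sub]
          refine mul_nonneg hg.1 (sub_nonneg.2 ?_)
          rcases le_total ρ (r - σ k) with h | h
          · rw [c4' ρ (by linarith)]; exact (c1 ρ).2
          · rw [c3 ρ h]; exact (c1' ρ).1)
        (two _ _ (k + 1) (hl (k + 1)) fun s s' => (hl k s s').trans
          (mul_le_mul_of_nonneg_right (div_le_div_of_nonneg_left (by norm_num) (by positivity)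
            (by nlinarith)) (abs_nonneg _)))
        (w := 2 * σ k) (by linarith) (fun ρ hρ _ => by
          rcases lt_abs.1 hρ with h | h
          · rw [c3 ρ (by linarith), c3' ρ (by linarith), sub_self]
          · rw [c4 ρ (by linarith), c4' ρ (by linarith), sub_self])
        (S := Ann x r (3 * σ k)) (fun p hp => le_trans (show |dist p x - r| ≤ _ from hp)
          (by linarith))
      simp only [hI] at ih this ⊢
      linarith
  have s1 := hσ j
  have s4 := hσr j hj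
  obtain ⟨c1, -, c3, c4⟩ := endChi_facts r s1
  have last : ∀ S, Ann x r (2 * σ j + 2 * σ j) ⊆ S → -(14 * (d j).mν S) ≤
      r * I fun ρ => tauM r (σ j) t ρ - g0 * endChi r (σ j) ρ := fun S hS =>
    end_piece (hL j) hθ s1 (by linarith) hΩ hE hE'
      (f := fun ρ => tauM r (σ j) t ρ - g0 * endChi r (σ j) ρ) (fun ρ => by
        refine ⟨?_, by linarith [(a1 ρ).2, (hb j ρ).1]⟩
        rcases le_total ρ (r - σ j) with h | h
        · rw [a4 ρ h]; nlinarith [(c1 ρ).2, hg.1]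
        · rw [c3 ρ h, mul_zero, sub_zero]; exact (a1 ρ).1)
      (two _ _ j a2 (hl j)) (w := 2 * σ j) (by linarith) (fun ρ hρ _ => by
        rcases lt_abs.1 hρ with h | h
        · rw [c3 ρ (by linarith), a3 ρ (by linarith), mul_zero, sub_zero]
        · rw [c4 ρ (by linarith), a4 ρ (by linarith), mul_one, sub_self]) hS
  have hsum : 0 ≤ ∑ i ∈ Finset.Ioc j₁ j, (d i).mν (Ann x r (3 * σ (i - 1))) :=
    Finset.sum_nonneg fun i _ => (d i).mν_nonneg (hL i).ν_nonneg _
  have hu := (d j₁).mν_nonneg (hL j₁).ν_nonneg univ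
  have last' : -(14 * ((d j₁).mν univ +
      ∑ i ∈ Finset.Ioc j₁ j, (d i).mν (Ann x r (3 * σ (i - 1))))) ≤
      r * I fun ρ => tauM r (σ j) t ρ - g0 * endChi r (σ j) ρ := by
    rcases hj.eq_or_lt with rfl | hlt
    · have := last univ (subset_univ _)
      linarith
    · have e1 : j - 1 + 1 = j := by omega
      have s3 := hσ2 (j - 1)
      rw [e1] at s3
      have := last (Ann x r (3 * σ (j - 1))) fun p hp =>
        le_trans (show |dist p x - r| ≤ _ from hp) (by linarith)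
      have h5 := Finset.single_le_sum (f := fun i => (d i).mν (Ann x r (3 * σ (i - 1))))
        (fun i _ => (d i).mν_nonneg (hL i).ν_nonneg _) (Finset.mem_Ioc.2 ⟨hlt, le_rfl⟩)
      linarith
  have hyk : yk γ e κ x r (σ j) t = -I (tauM r (σ j) t) := by
    unfold yk
    simp only [hI]
    congr 2
    funext y
    rw [dot_smul_left]
    by_cases hy : ‖y - x‖ ≤ 5 * r / 4
    · simp only [hEdef]; rw [endP_eq hy]
    · rw [a3 _ (by linarith [not_le.1 hy]), zero_mul, zero_mul]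
  rw [hyk, hadd _ (fun ρ => g0 * endChi r (σ j) ρ) (hint _ _ (hpos _) a1 a2)
    (hint _ _ (hpos _) (hb _) (hl _))]
  have := main j hj
  linarith

end Crest.Agent.R112
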