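import Crest.Agent.R112.Basic

/-! Row 112: level data at the lattice scales. -/

set_option autoImplicit false

namespace Crest.Agent.R112

open MeasureTheory Set Metric Filter Topology
open scoped ENNReal NNReal Classical

noncomputable section

theorem fine_mem_cube {σ : ℝ} (hσ : 0 < σ) (i : ℤ × ℤ) (y : ℂ) :
    y ∈ cube σ i ↔ ⌊y.re / σ⌋ = i.1 ∧ ⌊y.im / σ⌋ = i.2 := by
  simp only [cube, mem_ofPred_eq, Int.floor_eq_iff, le_div_iff₀ hσ, div_lt_iff₀ hσ, mul_comm σ,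
    and_assoc]

theorem fine_measurable (σ : ℝ) (i : ℤ × ℤ) : MeasurableSet (cube σ i) :=
  (measurableSet_le measurable_const Complex.measurable_re).inter
    ((measurableSet_lt Complex.measurable_re measurable_const).inter
      ((measurableSet_le measurable_const Complex.measurable_im).inter
        (measurableSet_lt Complex.measurable_im measurable_const)))

theorem fine_cen_mem {σ : ℝ} (hσ : 0 < σ) (i : ℤ × ℤ) : cen σ i ∈ cube σ i := by
  simp only [cube, cen, mem_ofPred_eq]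
  refine ⟨?_, ?_, ?_, ?_⟩ <;> nlinarith

theorem fine_dist {σ : ℝ} {i : ℤ × ℤ} {y : ℂ} (hy : y ∈ cube σ i) : dist (cen σ i) y ≤ σ := by
  obtain ⟨h1, h2, h3, h4⟩ := hy
  rw [dist_eq_norm]
  refine (Complex.norm_le_abs_re_add_abs_im _).trans ?_
  have a1 : |(cen σ i - y).re| ≤ σ / 2 := by
    rw [abs_le]; simp only [cen, Complex.sub_re]; constructor <;> linarith
  have a2 : |(cen σ i - y).im| ≤ σ / 2 := by
    rw [abs_le]; simp only [cen, Complex.sub_im]; constructor <;> linarith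
  linarith

theorem fine_diam {σ : ℝ} {i : ℤ × ℤ} {y y' : ℂ} (hy : y ∈ cube σ i) (hy' : y' ∈ cube σ i) :
    ‖y - y'‖ ≤ 2 * σ := by
  have := dist_triangle_left y y' (cen σ i)
  rw [← dist_eq_norm]
  linarith [fine_dist hy, fine_dist hy']

theorem fine_split {σ : ℝ} (hσ : 0 < σ) (I : Finset (ℤ × ℤ)) {f : ℂ → ℝ} (hf : Integrable f)
    (h0 : ∀ y, y ∉ ⋃ i ∈ I, cube σ i → f y = 0) : ∫ y, f y = ∑ i ∈ I, ∫ y in cube σ i, f y := by
  rw [← setIntegral_eq_integral_of_forall_compl_eq_zero h0,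
    integral_biUnion_finset I (fun i _ => fine_measurable σ i) ?_ fun i _ => hf.integrableOn]
  intro i _ j _ hij
  refine Set.disjoint_left.2 fun y h1 h2 => hij ?_
  rw [fine_mem_cube hσ] at h1 h2
  exact Prod.ext (h1.1.symm.trans h2.1) (h1.2.symm.trans h2.2)

theorem fine_lower {σ : ℝ} (hσ : 0 < σ) (I : Finset (ℤ × ℤ)) {f : ℂ → ℝ} (hf : Integrable f)
    {F : Set ℂ} (hF : F ⊆ ⋃ i ∈ I, cube σ i) (h0 : ∀ y, y ∉ F → f y = 0) (B : ℝ)
    (g : ℤ × ℤ → ℝ) (h : ∀ i, -(B * g i) ≤ ∫ y in cube σ i, f y) :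
    -(B * ∑ i ∈ I.filter (fun i => cen σ i ∈ near F (2 * σ)), g i) ≤ ∫ y, f y := by
  rw [fine_split hσ I hf fun y hy => h0 y fun h => hy (hF h), Finset.sum_filter, Finset.mul_sum,
    ← Finset.sum_neg_distrib]
  refine Finset.sum_le_sum fun i _ => ?_
  split_ifs with hi
  · exact h i
  · rw [setIntegral_eq_zero_of_forall_eq_zero fun y hy => h0 y fun h =>
      hi ⟨y, h, (fine_dist hy).trans (by linarith)⟩]
    simp

theorem fine_integrable {γ : ℂ → ℂ} (hγ : Integrable γ) {τ : ℂ → ℝ} {a Λ : ℝ} (hτ : Lip Λ τ)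
    (ha : ∀ y, |τ y| ≤ a) (w : ℂ) : Integrable fun y => τ y * dot w (γ y) := by
  refine Integrable.bdd_mul (c := a) ?_ hτ.continuous.aestronglyMeasurable (ae_of_all _ ha)
  exact (hγ.re.const_mul w.re).add (hγ.im.const_mul w.im)

theorem fine_cube (hP : LemmaPStmt) {K : ℕ} (hK : 4 ≤ K) {γ : ℂ → ℂ} (hγ : Integrable γ)
    {θ w : ℂ} {Cw Λ : ℝ} {τ : ℂ → ℝ} (hθ : ‖θ‖ ≤ 1) (hw : ‖w‖ ≤ Cw)
    (hw' : ∀ v, -(Cw * aexc θ v) ≤ dot w v) (hΛ : 0 ≤ Λ) (hτ : Lip Λ τ) (n : ℕ) (i : ℤ × ℤ)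
    {lo hi : ℝ} (h : ∀ y ∈ cube ((K : ℝ) ^ n) i, lo ≤ τ y ∧ τ y ≤ hi) :
    ∃ c₀, lo ≤ c₀ ∧ c₀ ≤ hi ∧ c₀ * dot w (lat K γ n i) -
        8 * Λ * (K : ℝ) ^ n * Cw * (aexc θ (lat K γ n i) + X K γ n i)
      ≤ ∫ y in cube ((K : ℝ) ^ n) i, τ y * dot w (γ y) := by
  have hσ : (0 : ℝ) < (K : ℝ) ^ n := by positivity
  have hne : (τ '' cube ((K : ℝ) ^ n) i).Nonempty := ⟨_, _, fine_cen_mem hσ i, rfl⟩
  have hb : BddBelow (τ '' cube ((K : ℝ) ^ n) i) := ⟨lo, by rintro _ ⟨y, hy, rfl⟩; exact (h y hy).1⟩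
  refine ⟨sInf (τ '' cube ((K : ℝ) ^ n) i), le_csInf hne ?_,
    (csInf_le hb ⟨_, fine_cen_mem hσ i, rfl⟩).trans (h _ (fine_cen_mem hσ i)).2,
    hP K hK γ hγ θ w Cw Λ τ hθ hw hw' hΛ hτ n i _ fun y hy => ⟨csInf_le hb ⟨y, hy, rfl⟩, ?_⟩⟩
  · rintro _ ⟨y, hy, rfl⟩; exact (h y hy).1
  · rw [← sub_le_iff_le_add]
    refine le_csInf hne ?_
    rintro _ ⟨y', hy', rfl⟩
    have h1 := (le_abs_self _).trans (hτ y y')
    have h2 := mul_le_mul_of_nonneg_left (fine_diam hy hy') hΛ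
    linarith

theorem fine_desc (hL : LatStmt) {K : ℕ} (hK : 1 ≤ K) {γ : ℂ → ℂ} (hγ : Integrable γ) (j : ℕ) :
    ∀ (n : ℕ) (S : Finset (ℤ × ℤ)), ∃ I : Finset (ℤ × ℤ),
      (⋃ c ∈ S, cube ((K : ℝ) ^ (n + j)) c) ⊆ (⋃ i ∈ I, cube ((K : ℝ) ^ n) i) ∧
      ∑ i ∈ I, X K γ n i ≤ 2 ^ j * ∑ c ∈ S, X K γ (n + j) c ∧
      ∀ θ : ℂ, ‖θ‖ ≤ 1 → ∑ i ∈ I, aexc θ (lat K γ n i) ≤
        ∑ c ∈ S, aexc θ (lat K γ (n + j) c) + (2 ^ j - 1) * ∑ c ∈ S, X K γ (n + j) c := by
  obtain ⟨hadd, -, hX, -, -⟩ := hL K hK γ hγ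
  induction j with
  | zero => intro n S; exact ⟨S, subset_rfl, by simp, fun θ _ => by simp⟩
  | succ j ih =>
    intro n S
    obtain ⟨I, h1, h2, h3⟩ := ih (n + 1) S
    rw [show n + 1 + j = n + (j + 1) by ring] at h1 h2 h3
    have hdisj : (I : Set (ℤ × ℤ)).PairwiseDisjoint (children K) := fun a _ b _ hab =>
      Finset.disjoint_left.2 fun c ha hb =>
        hab (((mem_children hK a c).1 ha).symm.trans ((mem_children hK b c).1 hb))
    have hD : ∀ c, 0 ≤ Dch K (lat K γ) n c := fun c => by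
      rw [Dch, hadd, sub_nonneg]; exact norm_sum_le _ _
    have hS : ∀ c, 0 ≤ ∑ i ∈ children K c, X K γ n i := fun c => Finset.sum_nonneg fun i _ => hX n i
    have hXs : ∀ c, X K γ (n + 1) c =
      Dch K (lat K γ) n c + 1 / 2 * ∑ i ∈ children K c, X K γ n i := fun c => rfl
    refine ⟨I.biUnion (children K), h1.trans fun y hy => ?_, ?_, fun θ hθ => ?_⟩
    · simp only [mem_iUnion, exists_prop] at hy ⊢
      obtain ⟨c, hc, hy⟩ := hy
      have hK0 : (0 : ℝ) < K := by exact_mod_cast hK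
      have hσ : (0 : ℝ) < (K : ℝ) ^ n := by positivity
      rw [fine_mem_cube (by positivity), pow_succ, ← div_div, ← div_div, Int.floor_div_natCast,
        Int.floor_div_natCast] at hy
      exact ⟨(⌊y.re / (K : ℝ) ^ n⌋, ⌊y.im / (K : ℝ) ^ n⌋), Finset.mem_biUnion.2
        ⟨c, hc, (mem_children hK _ _).2 (Prod.ext hy.1 hy.2)⟩, (fine_mem_cube hσ _ _).2 ⟨rfl, rfl⟩⟩
    · rw [Finset.sum_biUnion hdisj]
      have : ∑ c ∈ I, ∑ i ∈ children K c, X K γ n i ≤ ∑ c ∈ I, 2 * X K γ (n + 1) c :=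
        Finset.sum_le_sum fun c _ => by have := hD c; rw [hXs]; linarith
      rw [← Finset.mul_sum] at this
      rw [pow_succ]; linarith
    · rw [Finset.sum_biUnion hdisj]
      have : ∑ c ∈ I, ∑ i ∈ children K c, aexc θ (lat K γ n i) ≤
          ∑ c ∈ I, (aexc θ (lat K γ (n + 1) c) + X K γ (n + 1) c) :=
        Finset.sum_le_sum fun c _ => by
          have := hS c
          rw [sum_aexc, ← hadd, hXs, Dch, aexc]; linarith
      rw [Finset.sum_add_distrib] at this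
      have := h3 θ hθ
      rw [pow_succ]; linarith

theorem fine_cover {σ : ℝ} (hσ : 0 < σ) (a : ℤ × ℤ) :
    ball (cen σ a) (15 * σ) ⊆ ⋃ c ∈ nbhd 16 a, cube σ c := by
  intro y hy
  rw [mem_ball, dist_eq_norm] at hy
  have h1 := abs_lt.1 ((Complex.abs_re_le_norm _).trans_lt hy)
  have h2 := abs_lt.1 ((Complex.abs_im_le_norm _).trans_lt hy)
  simp only [cen, Complex.sub_re, Complex.sub_im] at h1 h2
  have key : ∀ (t : ℝ) (b : ℤ), -(15 * σ) < t - σ * (b + 1 / 2) → t - σ * (b + 1 / 2) < 15 * σ →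
      |⌊t / σ⌋ - b| ≤ (16 : ℕ) := by
    intro t b h1 h2
    have a1 : b - 16 ≤ ⌊t / σ⌋ := by
      rw [Int.le_floor, le_div_iff₀ hσ]; push_cast; nlinarith
    have a2 : ⌊t / σ⌋ < b + 16 := by
      rw [Int.floor_lt, div_lt_iff₀ hσ]; push_cast; nlinarith
    rw [abs_le]; constructor <;> push_cast <;> omega
  simp only [mem_iUnion, exists_prop]
  exact ⟨(⌊y.re / σ⌋, ⌊y.im / σ⌋), (mem_nbhd _ _ _).2 ⟨key _ _ h1.1 h1.2, key _ _ h2.1 h2.2⟩,
    (fine_mem_cube hσ _ _).2 ⟨rfl, rfl⟩⟩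

theorem fine_cone {θ : ℂ} (hθ : ‖θ‖ = 1) (v : ℂ) :
    -(17 * aexc θ v) ≤ dot θ v - 4 * |dot (Complex.I * θ) v| := by
  have h1 := sq_norm_eq_dot θ v hθ
  have h2 := aexc_nonneg hθ.le v
  have h3 := norm_nonneg v
  unfold aexc at *
  have h4 : 4 * |dot (Complex.I * θ) v| ≤ ‖v‖ / 2 + 16 * (‖v‖ - dot θ v) := by
    refine abs_le_of_sq_le_sq' ?_ (by linarith) |>.2
    rw [mul_pow, sq_abs]
    nlinarith [sq_nonneg (‖v‖ / 2 - 16 * (‖v‖ - dot θ v)), sq_nonneg (‖v‖ - dot θ v)]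
  linarith

theorem fine_levelData (hL : LatStmt) (hP : LemmaPStmt) {K : ℕ} (hK : 4 ≤ K) {γ : ℂ → ℂ}
    (hγ : Integrable γ) {θ : ℂ} (hθ : ‖θ‖ = 1) (n : ℕ) (I : Finset (ℤ × ℤ)) {Ω : Set ℂ}
    (hΩ : Ω ⊆ ⋃ i ∈ I, cube ((K : ℝ) ^ n) i) :
    LevelData γ θ Ω ((K : ℝ) ^ n) ⟨I, cen ((K : ℝ) ^ n),
      fun i => 16 * (‖lat K γ n i‖ + X K γ n i),
      fun i => 300 * (aexc θ (lat K γ n i) + X K γ n i)⟩ := by
  obtain ⟨-, -, hX, -, -⟩ := hL K (by omega) γ hγ
  have hσ : (0 : ℝ) < (K : ℝ) ^ n := by positivity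
  set σ := (K : ℝ) ^ n with hσ'
  have hA := fun i => aexc_nonneg hθ.le (lat K γ n i)
  refine ⟨fun i => by have := hX n i; positivity, fun i => by have := hX n i; have := hA i; positivity,
    ?_, ?_, ?_⟩
  · -- upper bound
    have one : ∀ (τ : ℂ → ℝ) (w : ℂ) (a Λ : ℝ), ‖w‖ = 1 → 0 ≤ a → 0 ≤ Λ → (∀ y, |τ y| ≤ a) →
        Lip Λ τ → ∀ i, -((a + Λ * σ) * (8 * (‖lat K γ n i‖ + X K γ n i))) ≤
          ∫ y in cube σ i, τ y * dot w (γ y) := by
      intro τ w a Λ hw ha hΛ hb hτ i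
      obtain ⟨c₀, h1, h2, h3⟩ := fine_cube hP hK hγ (θ := 0) (w := w) (Cw := 1) (by simp) hw.le
        (fun v => by
          have := abs_dot_le w v
          rw [hw] at this
          simp only [aexc, dot_zero_left]; linarith [neg_abs_le (dot w v)]) hΛ hτ n i
        (lo := -a) (hi := a) fun y _ => abs_le.1 (hb y)
      refine le_trans ?_ h3
      have h4 : |c₀ * dot w (lat K γ n i)| ≤ a * ‖lat K γ n i‖ := by
        rw [abs_mul]
        have := abs_dot_le w (lat K γ n i)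
        rw [hw, one_mul] at this
        exact mul_le_mul (abs_le.2 ⟨h1, h2⟩) this (abs_nonneg _) ha
      have h5 := neg_abs_le (c₀ * dot w (lat K γ n i))
      have h6 := mul_nonneg ha (hX n i)
      have h7 := mul_nonneg ha (norm_nonneg (lat K γ n i))
      simp only [aexc, dot_zero_left, ← hσ']
      linarith
    have low : ∀ (V : ℂ → ℂ) (F : Set ℂ) (a Λ : ℝ), 0 ≤ a → 0 ≤ Λ → F ⊆ Ω →
        (∀ y, y ∉ F → V y = 0) → (∀ y, ‖V y‖ ≤ a) → Lip Λ V →
        -((a + Λ * σ) * ∑ i ∈ I.filter (fun i => cen σ i ∈ near F (2 * σ)),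
          16 * (‖lat K γ n i‖ + X K γ n i)) ≤ ∫ y, dot (V y) (γ y) := by
      intro V F a Λ ha hΛ hF h0 hb hV
      have l1 : Lip Λ fun y => (V y).re := fun y y' =>
        (Complex.abs_re_le_norm (V y - V y')).trans (hV y y')
      have l2 : Lip Λ fun y => (V y).im := fun y y' =>
        (Complex.abs_im_le_norm (V y - V y')).trans (hV y y')
      have b1 : ∀ y, |(V y).re| ≤ a := fun y => (Complex.abs_re_le_norm _).trans (hb y)
      have b2 : ∀ y, |(V y).im| ≤ a := fun y => (Complex.abs_im_le_norm _).trans (hb y)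
      have e : (fun y => dot (V y) (γ y)) =
          fun y => (V y).re * dot 1 (γ y) + (V y).im * dot Complex.I (γ y) := by
        ext y; simp [dot]
      have i1 := fine_integrable hγ l1 b1 1
      have i2 := fine_integrable hγ l2 b2 Complex.I
      refine fine_lower hσ I (e ▸ i1.add i2) (hF.trans hΩ) (fun y hy => by simp [h0 y hy]) _ _
        fun i => ?_
      rw [e, integral_add i1.integrableOn i2.integrableOn]
      linarith [one _ 1 a Λ (by simp) ha hΛ b1 l1 i, one _ Complex.I a Λ (by simp) ha hΛ b2 l2 i]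
    intro V F a Λ ha hΛ hF h0 hb hV
    have h1 := low V F a Λ ha hΛ hF h0 hb hV
    have h2 := low (fun y => -V y) F a Λ ha hΛ hF (fun y hy => by simp [h0 y hy])
      (fun y => by simpa using hb y) fun y y' => by
        rw [neg_sub_neg, norm_sub_rev]; exact hV y y'
    simp only [dot_neg_left, integral_neg] at h2
    exact abs_le.2 ⟨h1, by simpa [Atoms.mΓ] using h2⟩
  · -- lower bound
    intro V F a Λ ha hΛ hF h0 hb hV hC
    have hI : ‖Complex.I * θ‖ = 1 := by simp [hθ]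
    have one : ∀ s : ℝ, |s| = 1 →
        Lip Λ (fun y => (dot θ (V y) + s * dot (Complex.I * θ) (V y) / 4) / 2) ∧
        (∀ y, 0 ≤ (dot θ (V y) + s * dot (Complex.I * θ) (V y) / 4) / 2 ∧
          (dot θ (V y) + s * dot (Complex.I * θ) (V y) / 4) / 2 ≤ a) ∧
        ‖θ + ((4 * s : ℝ) : ℂ) * (Complex.I * θ)‖ ≤ 17 ∧
        ∀ v, -(17 * aexc θ v) ≤ dot (θ + ((4 * s : ℝ) : ℂ) * (Complex.I * θ)) v := by
      intro s hs
      have k : ∀ v, |s * dot (Complex.I * θ) v| = |dot (Complex.I * θ) v| := fun v => by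
        rw [abs_mul, hs, one_mul]
      have k1 : ∀ v, |dot θ v| ≤ ‖v‖ := fun v => by simpa [hθ] using abs_dot_le θ v
      have k2 : ∀ v, |s * dot (Complex.I * θ) v| ≤ ‖v‖ := fun v => by
        rw [k]; simpa [hθ] using abs_dot_le (Complex.I * θ) v
      refine ⟨fun y y' => ?_, fun y => ?_, ?_, fun v => ?_⟩
      · have a1 := abs_le.1 (k1 (V y - V y'))
        have a2 := abs_le.1 (k2 (V y - V y'))
        have a3 := hV y y'
        have a4 := norm_nonneg (V y - V y')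
        rw [dot_sub_right] at a1 a2
        rw [Real.norm_eq_abs, abs_le]
        constructor <;> linarith
      · have a1 := abs_le.1 (k1 (V y))
        have a2 := abs_le.1 (k2 (V y))
        have a3 := hb y
        have a4 : |s * dot (Complex.I * θ) (V y)| ≤ 4 * dot θ (V y) := by rw [k]; exact hC y
        have a5 := abs_le.1 a4
        constructor <;> linarith
      · refine (norm_add_le _ _).trans ?_
        rw [norm_mul, hI, hθ, Complex.norm_real, Real.norm_eq_abs, abs_mul, hs]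
        norm_num
      · rw [dot_add_left, dot_real_mul_left]
        have a1 := fine_cone hθ v
        have a2 := neg_abs_le (s * dot (Complex.I * θ) v)
        rw [k] at a2
        linarith
    have two : ∀ (τ : ℂ → ℝ) (w : ℂ), Lip Λ τ → (∀ y, 0 ≤ τ y ∧ τ y ≤ a) → ‖w‖ ≤ 17 →
        (∀ v, -(17 * aexc θ v) ≤ dot w v) → ∀ i,
        -((a + Λ * σ) * (150 * (aexc θ (lat K γ n i) + X K γ n i))) ≤
          ∫ y in cube σ i, τ y * dot w (γ y) := by
      intro τ w hτ hb hw hw' i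
      obtain ⟨c₀, h1, h2, h3⟩ := fine_cube hP hK hγ hθ.le hw hw' hΛ hτ n i fun y _ => hb y
      refine le_trans ?_ h3
      have h4 := mul_le_mul_of_nonneg_left (hw' (lat K γ n i)) h1
      have h5 := mul_le_mul_of_nonneg_right h2 (hA i)
      have h6 := mul_nonneg ha (hX n i)
      have h7 := mul_nonneg ha (hA i)
      have h8 := mul_nonneg (mul_nonneg hΛ hσ.le) (add_nonneg (hA i) (hX n i))
      simp only [← hσ']
      linarith
    obtain ⟨p1, p2, p3, p4⟩ := one 1 (by simp)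
    obtain ⟨q1, q2, q3, q4⟩ := one (-1) (by simp)
    have hθ2 : θ.re ^ 2 + θ.im ^ 2 = 1 := by
      have := dot_self θ
      rw [hθ] at this; unfold dot at this; linarith
    have e : (fun y => dot (V y) (γ y)) = fun y =>
        (dot θ (V y) + 1 * dot (Complex.I * θ) (V y) / 4) / 2 *
          dot (θ + ((4 * 1 : ℝ) : ℂ) * (Complex.I * θ)) (γ y) +
        (dot θ (V y) + -1 * dot (Complex.I * θ) (V y) / 4) / 2 *
          dot (θ + ((4 * -1 : ℝ) : ℂ) * (Complex.I * θ)) (γ y) := by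
      ext y
      simp only [dot_add_left, dot_real_mul_left]
      simp only [dot, Complex.mul_re, Complex.mul_im, Complex.I_re, Complex.I_im]
      linear_combination (-((V y).re * (γ y).re) - (V y).im * (γ y).im) * hθ2
    have i1 := fine_integrable hγ p1 (a := a) (fun y => abs_le.2 ⟨by linarith [(p2 y).1], (p2 y).2⟩)
      (θ + ((4 * 1 : ℝ) : ℂ) * (Complex.I * θ))
    have i2 := fine_integrable hγ q1 (a := a) (fun y => abs_le.2 ⟨by linarith [(q2 y).1], (q2 y).2⟩)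
      (θ + ((4 * -1 : ℝ) : ℂ) * (Complex.I * θ))
    refine fine_lower hσ I (e ▸ i1.add i2) (hF.trans hΩ) (fun y hy => by simp [h0 y hy]) _ _
      fun i => ?_
    rw [e, integral_add i1.integrableOn i2.integrableOn]
    linarith [two _ _ p1 p2 p3 p4 i, two _ _ q1 q2 q3 q4 i]
  · -- gain
    intro τ e F G a Λ c he ha hΛ hc hF h0 hb hτ hG
    have k : ∀ v, ‖v‖ / 2 - aexc θ v ≤ dot e v := fun v => by
      have a1 := abs_dot_le (e - θ) v
      have a2 := mul_le_mul_of_nonneg_right he (norm_nonneg v)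
      have a3 := neg_abs_le (dot (e - θ) v)
      rw [dot_sub_left] at a1 a3
      unfold aexc; linarith
    have he2 : ‖e‖ ≤ 2 := by
      have := norm_add_le (e - θ) θ
      rw [sub_add_cancel, hθ] at this; linarith
    have k' : ∀ v, -(2 * aexc θ v) ≤ dot e v := fun v => by
      linarith [k v, norm_nonneg v, aexc_nonneg hθ.le v]
    rw [fine_split hσ I (fine_integrable hγ hτ (a := a)
      (fun y => abs_le.2 ⟨by linarith [(hb y).1], (hb y).2⟩) e)
      fun y hy => by rw [h0 y fun h => hy (hΩ (hF h)), zero_mul]]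
    simp only [Atoms.mΓ, Atoms.mν, mem_univ, Finset.filter_true, Finset.sum_filter, Finset.mul_sum,
      ← Finset.sum_sub_distrib, mem_ofPred_eq]
    refine Finset.sum_le_sum fun i _ => ?_
    have h6 := mul_nonneg ha (hX n i)
    have h7 := mul_nonneg ha (hA i)
    have h8 := mul_nonneg (mul_nonneg hΛ hσ.le) (add_nonneg (hA i) (hX n i))
    split_ifs with hi
    · obtain ⟨c₀, h1, h2, h3⟩ := fine_cube hP hK hγ hθ.le he2 k' hΛ hτ n i (lo := c) (hi := a)
        fun y hy => ⟨hG y (hi (mem_closedBall'.2 ((fine_dist hy).trans (by linarith)))), (hb y).2⟩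
      refine le_trans ?_ h3
      have h4 := mul_le_mul_of_nonneg_left (k (lat K γ n i)) (hc.trans h1)
      have h5 := mul_le_mul_of_nonneg_right h2 (hA i)
      have h9 := mul_le_mul_of_nonneg_right h1 (norm_nonneg (lat K γ n i))
      have h10 := mul_le_mul_of_nonneg_right (h1.trans h2) (hX n i)
      have h11 := mul_nonneg hc (norm_nonneg (lat K γ n i))
      simp only [← hσ']
      linarith
    · obtain ⟨c₀, h1, h2, h3⟩ := fine_cube hP hK hγ hθ.le he2 k' hΛ hτ n i fun y _ => hb y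
      refine le_trans ?_ h3
      have h4 := mul_le_mul_of_nonneg_left (k' (lat K γ n i)) h1
      have h5 := mul_le_mul_of_nonneg_right h2 (hA i)
      simp only [← hσ']
      linarith

theorem fine (hL : LatStmt) (hP : LemmaPStmt) : FineStmt := by
  refine ⟨600, by norm_num, fun K hK γ hγ θ hθ m j a hj => ?_⟩
  obtain ⟨n, rfl⟩ := Nat.exists_eq_add_of_le' hj
  have hK0 : (0 : ℝ) < K := by positivity
  obtain ⟨I, h1, h2, h3⟩ := fine_desc hL (by omega : 1 ≤ K) hγ j n (nbhd 16 a)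
  obtain ⟨-, -, hX, -, -⟩ := hL K (by omega) γ hγ
  have e : (K : ℝ) ^ (n + j) / (K : ℝ) ^ j = (K : ℝ) ^ n := by rw [pow_add]; field_simp
  rw [e]
  have hj1 : (1 : ℝ) ≤ 2 ^ j := one_le_pow₀ (by norm_num)
  have hs : 0 ≤ ∑ c ∈ nbhd 16 a, X K γ (n + j) c := Finset.sum_nonneg fun c _ => hX _ c
  have key : ∀ θ' : ℂ, ‖θ'‖ ≤ 1 → ∑ i ∈ I, (aexc θ' (lat K γ n i) + X K γ n i) ≤
      2 ^ j * (2 * ∑ c ∈ nbhd 16 a, (aexc θ' (lat K γ (n + j) c) + X K γ (n + j) c)) := by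
    intro θ' h
    have a1 := h3 θ' h
    have a2 : 0 ≤ ∑ c ∈ nbhd 16 a, aexc θ' (lat K γ (n + j) c) :=
      Finset.sum_nonneg fun c _ => aexc_nonneg h _
    have a3 := mul_le_mul_of_nonneg_right hj1 a2
    simp only [Finset.sum_add_distrib]
    linarith
  refine ⟨_, fine_levelData hL hP hK hγ hθ n I ((fine_cover (by positivity) a).trans h1), ?_, ?_⟩
  · simp only [Atoms.mν, mem_univ, Finset.filter_true, ← Finset.mul_sum]
    linarith [key θ hθ.le]
  · simp only [Atoms.mΓ, mem_univ, Finset.filter_true, ← Finset.mul_sum]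
    have a1 := key 0 (by simp)
    simp only [aexc, dot_zero_left, sub_zero] at a1
    have a2 : 0 ≤ 2 ^ j * ∑ c ∈ nbhd 16 a, (‖lat K γ (n + j) c‖ + X K γ (n + j) c) :=
      mul_nonneg (by positivity) (Finset.sum_nonneg fun c _ => add_nonneg (norm_nonneg _) (hX _ c))
    linarith

end

end Crest.Agent.R112
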