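import Crest.Agent.R112.Basic

/-! Trivial implications between the statements of row 112. -/

set_option autoImplicit false

namespace Crest.Agent.R112

open MeasureTheory Set Metric Filter Topology
open scoped ENNReal NNReal

theorem forest (hR : RulesStmt) (hG : GeomStmt) (hT : TopsStmt) (hA : AlignStmt) : ForestStmt := by
  intro K hK h8
  obtain ⟨C₁, h₁⟩ := hT K (by omega) h8
  obtain ⟨C₂, h₂⟩ := hA K hK h8
  refine ⟨max C₁ C₂, fun u N m₀ hM => ?_⟩
  obtain ⟨root, fresh, hr⟩ := hR K (by omega) h8 u N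
  have hg := hG K (by omega) h8 u N root fresh hr
  obtain ⟨θ, hθ, hs⟩ := h₂ u N m₀ root fresh hM hr
  refine ⟨root, thw K u, θ, hg, fun P => ⟨norm_thw K u P, (hθ P).1, (hθ P).2⟩, ?_, ?_⟩
  · exact hs.trans (by gcongr; exact le_max_right _ _)
  · exact (h₁ u N m₀ root fresh hM hr hg).trans (by gcongr; exact le_max_left _ _)

theorem finalC (h1 : Ap1Stmt) (h2 : Ap2Stmt) (hL : LimitStmt) : FinalCStmt := by
  obtain ⟨C, hC⟩ := hL
  refine ⟨C, fun f g hf hw hg => ?_⟩
  obtain ⟨g', hg', hle, hP⟩ := h2 f g hf hg (h1 f g hf hg hw)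
  obtain ⟨ha, hb, G, hG, hGi, hGle⟩ := hC f g' hf hg' hP
  refine ⟨ha, hb, G, hG, hGi, hGle.trans ?_⟩
  exact mul_le_mul_of_nonneg_left (integral_mono hg'.norm hg.norm hle) C.2

end Crest.Agent.R112
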