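import Crest.Agent.R112.Basic

/-!
# Row 112: first integration by parts, balancing parameter, starting estimate
-/

set_option autoImplicit false

namespace Crest.Agent.R112

open MeasureTheory Set Metric Filter Topology
open scoped ENNReal NNReal Classical

noncomputable section

theorem ibp1_vol (x : ℂ) {r : ℝ} (hr : 0 ≤ r) : volume.real (ball x r) = Real.pi * r ^ 2 := by
  rw [Measure.real, Complex.volume_ball]
  simp [ENNReal.toReal_mul, ENNReal.toReal_pow, ENNReal.toReal_ofReal hr, mul_comm]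

theorem ibp1_vol_ne_top (x : ℂ) (r : ℝ) : volume (ball x r) ≠ ∞ := measure_ball_lt_top.ne

theorem ibp1_hasDerivAt_norm (w e : ℂ) (hw : w ≠ 0) :
    HasDerivAt (fun t : ℝ => ‖w + t • (-e)‖) (-dot e (w / (‖w‖ : ℂ))) 0 := by
  have h1 : HasDerivAt (fun t : ℝ => w + t • (-e)) (-e) 0 := by
    simpa using ((hasDerivAt_id (0 : ℝ)).smul_const (-e)).const_add w
  have h2 := h1.norm_sq
  have hn : ‖w‖ ≠ 0 := norm_ne_zero_iff.2 hw
  have h3 := h2.sqrt (by simpa using hw)
  have h4 : (fun t : ℝ => √(‖w + t • (-e)‖ ^ 2)) = fun t : ℝ => ‖w + t • (-e)‖ := by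
    funext t; exact Real.sqrt_sq (norm_nonneg _)
  rw [h4] at h3
  convert h3 using 1
  simp only [zero_smul, add_zero, Real.sqrt_sq (norm_nonneg w)]
  rw [← dot_eq_inner, dot_neg_right, dot_comm w e, div_eq_inv_mul w, ← Complex.ofReal_inv,
    dot_real_mul_right]
  field_simp

theorem ibp1_tauA_le {α β ρ : ℝ} (h : ρ ≤ α) (hαβ : α ≤ β) :
    tauA α β ρ = (β - α) / ((β ^ 2 - α ^ 2) / 2) := by
  unfold tauA
  rw [min_eq_left (h.trans hαβ), max_eq_left h]

theorem ibp1_tauA_mid {α β ρ : ℝ} (h : α ≤ ρ) (h' : ρ ≤ β) :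
    tauA α β ρ = (β - ρ) / ((β ^ 2 - α ^ 2) / 2) := by
  unfold tauA
  rw [min_eq_left h', max_eq_right h]

theorem ibp1_tauA_ge {α β ρ : ℝ} (h : β ≤ ρ) (hαβ : α ≤ β) : tauA α β ρ = 0 := by
  unfold tauA
  rw [min_eq_right h, max_eq_right hαβ]; simp

theorem ibp1_tauA_lip {α β : ℝ} (hα : 0 < α) (hαβ : α < β) (x : ℂ) :
    Lip (((β ^ 2 - α ^ 2) / 2)⁻¹) (fun y => tauA α β ‖y - x‖) := by
  have hm : 0 < (β ^ 2 - α ^ 2) / 2 := by nlinarith
  refine Lip.radial (g := tauA α β) (inv_nonneg.2 hm.le) (fun s t => ?_) x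
  unfold tauA
  rw [← sub_div, abs_div, abs_of_pos hm, div_eq_inv_mul]
  refine mul_le_mul_of_nonneg_left ?_ (inv_nonneg.2 hm.le)
  have := abs_clamp_sub_le α β s t
  rw [show β - max α (min s β) - (β - max α (min t β)) =
    -(max α (min s β) - max α (min t β)) by ring, abs_neg]
  exact this

theorem ibp1_tauA_supp {α β : ℝ} (hαβ : α ≤ β) (x : ℂ) :
    HasCompactSupport (fun y : ℂ => tauA α β ‖y - x‖) := by
  refine HasCompactSupport.intro (isCompact_closedBall x β) (fun y hy => ?_)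
  rw [mem_closedBall, dist_eq_norm, not_le] at hy
  exact ibp1_tauA_ge hy.le hαβ

theorem ibp1_lineDeriv {α β : ℝ} (hα : 0 < α) (hαβ : α < β) (x e y : ℂ)
    (h1 : ‖y - x‖ ≠ α) (h2 : ‖y - x‖ ≠ β) :
    lineDeriv ℝ (fun y => tauA α β ‖y - x‖) y (-e) =
      (ann x α β).indicator (fun y => dot e (nhat x y) / ((β ^ 2 - α ^ 2) / 2)) y := by
  have hc : Continuous (fun t : ℝ => ‖y + t • (-e) - x‖) := by fun_prop
  have h0 : ‖y + (0 : ℝ) • (-e) - x‖ = ‖y - x‖ := by simp
  unfold lineDeriv
  rcases h1.lt_or_gt with ha | ha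
  · have hev : ∀ᶠ t in 𝓝 (0 : ℝ), ‖y + t • (-e) - x‖ < α :=
      hc.continuousAt.eventually_lt continuousAt_const (by rw [h0]; exact ha)
    have : (fun t : ℝ => tauA α β ‖y + t • (-e) - x‖) =ᶠ[𝓝 0]
        fun _ => (β - α) / ((β ^ 2 - α ^ 2) / 2) := by
      filter_upwards [hev] with t ht using ibp1_tauA_le ht.le hαβ.le
    rw [this.deriv_eq, deriv_const, indicator_of_notMem]
    intro hy
    exact hy.2 (by rw [mem_ball, dist_eq_norm]; exact ha)
  rcases h2.lt_or_gt with hb | hb
  · have hev : ∀ᶠ t in 𝓝 (0 : ℝ), α < ‖y + t • (-e) - x‖ :=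
      continuousAt_const.eventually_lt hc.continuousAt (by rw [h0]; exact ha)
    have hev' : ∀ᶠ t in 𝓝 (0 : ℝ), ‖y + t • (-e) - x‖ < β :=
      hc.continuousAt.eventually_lt continuousAt_const (by rw [h0]; exact hb)
    have : (fun t : ℝ => tauA α β ‖y + t • (-e) - x‖) =ᶠ[𝓝 0]
        fun t => (β - ‖(y - x) + t • (-e)‖) / ((β ^ 2 - α ^ 2) / 2) := by
      filter_upwards [hev, hev'] with t ht ht'
      rw [ibp1_tauA_mid ht.le ht'.le, show y + t • (-e) - x = (y - x) + t • (-e) by abel]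
    have hw : y - x ≠ 0 := by
      intro h; rw [h, norm_zero] at ha; linarith
    have hd := ((ibp1_hasDerivAt_norm (y - x) e hw).const_sub β).div_const ((β ^ 2 - α ^ 2) / 2)
    rw [this.deriv_eq, hd.deriv, indicator_of_mem]
    · simp [nhat]
    · refine ⟨by rw [mem_ball, dist_eq_norm]; exact hb, ?_⟩
      rw [mem_ball, dist_eq_norm, not_lt]; exact ha.le
  · have hev : ∀ᶠ t in 𝓝 (0 : ℝ), β < ‖y + t • (-e) - x‖ :=
      continuousAt_const.eventually_lt hc.continuousAt (by rw [h0]; exact hb)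
    have : (fun t : ℝ => tauA α β ‖y + t • (-e) - x‖) =ᶠ[𝓝 0] fun _ => (0 : ℝ) := by
      filter_upwards [hev] with t ht using ibp1_tauA_ge ht.le hαβ.le
    rw [this.deriv_eq, deriv_const, indicator_of_notMem]
    intro hy
    have := hy.1
    rw [mem_ball, dist_eq_norm] at this
    linarith

theorem ibp1_ann_meas (x : ℂ) (α β : ℝ) : MeasurableSet (ann x α β) :=
  measurableSet_ball.diff measurableSet_ball

theorem ibp1 : IBP1Stmt := by
  intro b hb x e α β c hα hαβ
  obtain ⟨L, hL⟩ := hb.exists_lipschitz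
  have hbc : LipschitzWith L (fun y => b y - c) := by
    refine LipschitzWith.of_dist_le_mul (fun y y' => ?_)
    rw [dist_sub_right]; exact hL.dist_le_mul y y'
  have key := LipschitzWith.integral_lineDeriv_mul_eq (μ := (volume : Measure ℂ)) hbc
    (ibp1_tauA_lip hα hαβ x).lipschitzWith (ibp1_tauA_supp hαβ.le x) e
  have hl : ∀ y, lineDeriv ℝ (fun y => b y - c) y e = dot e (grad b y) := by
    intro y
    have hd : DifferentiableAt ℝ b y := (hb.1.differentiable (by simp)).differentiableAt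
    rw [(hd.sub_const c).lineDeriv_eq_fderiv, fderiv_sub_const, fderiv_eq_dot, dot_comm]
  simp_rw [hl] at key
  have e1 : ∫ y, tauA α β ‖y - x‖ * dot e (grad b y) =
      ∫ y, dot e (grad b y) * tauA α β ‖y - x‖ := by
    simp_rw [mul_comm]
  rw [e1, key, ← integral_div, ← integral_indicator (ibp1_ann_meas x α β)]
  have ha : ∀ᵐ y : ℂ, y ∉ sphere x α :=
    measure_eq_zero_iff_ae_notMem.1 (Measure.addHaar_sphere volume x α)
  have hb' : ∀ᵐ y : ℂ, y ∉ sphere x β :=
    measure_eq_zero_iff_ae_notMem.1 (Measure.addHaar_sphere volume x β)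
  refine integral_congr_ae ?_
  filter_upwards [ha, hb'] with y h1 h2
  rw [mem_sphere, dist_eq_norm] at h1 h2
  rw [ibp1_lineDeriv hα hαβ x e y h1 h2]
  by_cases hy : y ∈ ann x α β
  · rw [indicator_of_mem hy, indicator_of_mem hy]; ring
  · rw [indicator_of_notMem hy, indicator_of_notMem hy]; ring

theorem ibp1_intOn {f : ℂ → ℝ} (hf : Continuous f) (x : ℂ) (ρ : ℝ) :
    IntegrableOn f (ball x ρ) :=
  (hf.continuousOn.integrableOn_compact (isCompact_closedBall x ρ)).mono_set ball_subset_closedBall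

theorem ibp1_ball_sub {b : ℂ → ℝ} (hb : Continuous b) (x : ℂ) {ρ : ℝ} (hρ : 0 < ρ) (U : ℝ) :
    ∫ y in ball x ρ, (b y - U) = Real.pi * ρ ^ 2 * (avg b x ρ - U) := by
  rw [integral_sub (ibp1_intOn hb x ρ) (ibp1_intOn continuous_const x ρ), setIntegral_const,
    ibp1_vol x hρ.le, avg, smul_eq_mul]
  have : Real.pi * ρ ^ 2 ≠ 0 := by positivity
  field_simp

theorem ibp1_ann_sub {b : ℂ → ℝ} (hb : Continuous b) (x : ℂ) {α β : ℝ} (hα : 0 < α)
    (hαβ : α ≤ β) (U : ℝ) :
    ∫ y in ann x α β, (b y - U) =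
      Real.pi * β ^ 2 * (avg b x β - U) - Real.pi * α ^ 2 * (avg b x α - U) := by
  unfold ann
  rw [setIntegral_sdiff measurableSet_ball
    (ibp1_intOn (f := fun y => b y - U) (hb.sub continuous_const) x β)
    (ball_subset_ball hαβ), ibp1_ball_sub hb x (hα.trans_le hαβ), ibp1_ball_sub hb x hα]

theorem bal : BalStmt := by
  intro b hb x r σ hσ hσr h1 h2
  have hA : 0 ≤ Aav b x r (r - σ) r := by
    unfold Aav
    rw [ibp1_ann_sub hb.continuous x (by linarith) (by linarith)]
    refine div_nonneg ?_ (by nlinarith)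
    have : 0 ≤ Real.pi * (r - σ) ^ 2 * (avg b x r - avg b x (r - σ)) :=
      mul_nonneg (by positivity) (by linarith)
    linarith
  have hB : Aav b x r r (r + σ) ≤ 0 := by
    unfold Aav
    rw [ibp1_ann_sub hb.continuous x (by linarith) (by linarith)]
    refine div_nonpos_of_nonpos_of_nonneg ?_ (by nlinarith)
    have : 0 ≤ Real.pi * (r + σ) ^ 2 * (avg b x r - avg b x (r + σ)) :=
      mul_nonneg (by positivity) (by linarith)
    linarith
  unfold Bal
  generalize Aav b x r (r - σ) r = A at hA ⊢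
  generalize Aav b x r r (r + σ) = B at hB ⊢
  rcases hA.eq_or_lt with h | h
  · exact ⟨0, le_rfl, zero_le_one, by rw [← h]; ring⟩
  · have hAB : 0 < A - B := by linarith
    refine ⟨A / (A - B), by positivity, (div_le_one hAB).2 (by linarith), ?_⟩
    field_simp
    ring

theorem ibp1_tauA_bounds {α β : ℝ} (hα : 0 < α) (hαβ : α < β) (ρ : ℝ) :
    0 ≤ tauA α β ρ ∧ tauA α β ρ ≤ 2 / (α + β) := by
  have hm : 0 < (β ^ 2 - α ^ 2) / 2 := by nlinarith
  have e : 2 / (α + β) = (β - α) / ((β ^ 2 - α ^ 2) / 2) := by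
    have h1 : β - α ≠ 0 := (sub_pos.2 hαβ).ne'
    rw [show β ^ 2 - α ^ 2 = (β - α) * (α + β) by ring]
    have h2 : α + β ≠ 0 := by have : 0 < β := hα.trans hαβ; positivity
    field_simp
  unfold tauA
  refine ⟨div_nonneg ?_ hm.le, ?_⟩
  · have : max α (min ρ β) ≤ β := max_le hαβ.le (min_le_right _ _)
    linarith
  · rw [e]
    refine div_le_div_of_nonneg_right ?_ hm.le
    have : α ≤ max α (min ρ β) := le_max_left _ _
    linarith

theorem ibp1_tauA_in {α β ρ : ℝ} (hα : 0 < α) (hαβ : α < β) (h : ρ ≤ α) :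
    tauA α β ρ = 2 / (α + β) := by
  rw [ibp1_tauA_le h hαβ.le, show β ^ 2 - α ^ 2 = (β - α) * (α + β) by ring]
  have h1 : β - α ≠ 0 := (sub_pos.2 hαβ).ne'
  have h2 : α + β ≠ 0 := by have : 0 < β := hα.trans hαβ; positivity
  field_simp

theorem ibp1_inner {r σ t ρ : ℝ} (hσ : 0 < σ) (hσr : σ ≤ r / 2) (ht0 : 0 ≤ t) (ht1 : t ≤ 1)
    (h : ρ ≤ r - σ) : |r * tauM r σ t ρ - 1| ≤ σ / r := by
  have hr : 0 < r := by linarith
  unfold tauM
  rw [ibp1_tauA_in (by linarith) (by linarith) h,
    ibp1_tauA_in hr (by linarith) (by linarith)]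
  have h1 : 0 < r - σ + r := by linarith
  have h2 : 0 < r + (r + σ) := by linarith
  have e : r * ((1 - t) * (2 / (r - σ + r)) + t * (2 / (r + (r + σ)))) - 1 =
      (1 - t) * (σ / (r - σ + r)) - t * (σ / (r + (r + σ))) := by
    field_simp
    ring
  have a1 : σ / (r - σ + r) ≤ σ / r := div_le_div_of_nonneg_left hσ.le hr (by linarith)
  have a2 : σ / (r + (r + σ)) ≤ σ / r := div_le_div_of_nonneg_left hσ.le hr (by linarith)
  have b1 : 0 ≤ σ / (r - σ + r) := by positivity
  have b2 : 0 ≤ σ / (r + (r + σ)) := by positivity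
  rw [e, abs_le]
  constructor <;> nlinarith

theorem ibp1_mid {r σ t : ℝ} (hσ : 0 < σ) (hσr : σ ≤ r / 2) (ht0 : 0 ≤ t) (ht1 : t ≤ 1)
    (ρ : ℝ) : 0 ≤ r * tauM r σ t ρ ∧ r * tauM r σ t ρ ≤ 2 := by
  have hr : 0 < r := by linarith
  obtain ⟨a0, a1⟩ := ibp1_tauA_bounds (α := r - σ) (β := r) (by linarith) (by linarith) ρ
  obtain ⟨b0, b1⟩ := ibp1_tauA_bounds (α := r) (β := r + σ) hr (by linarith) ρ
  have a2 : 2 / (r - σ + r) ≤ 2 / r := div_le_div_of_nonneg_left (by norm_num) hr (by linarith)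
  have b2 : 2 / (r + (r + σ)) ≤ 2 / r := div_le_div_of_nonneg_left (by norm_num) hr (by linarith)
  have hM : tauM r σ t ρ ≤ 2 / r := by
    unfold tauM
    nlinarith
  have hM0 : 0 ≤ tauM r σ t ρ := by
    unfold tauM
    have : 0 ≤ 1 - t := by linarith
    positivity
  refine ⟨by positivity, ?_⟩
  calc r * tauM r σ t ρ ≤ r * (2 / r) := mul_le_mul_of_nonneg_left hM hr.le
    _ = 2 := by field_simp

theorem ibp1_outer {r σ t ρ : ℝ} (hσ : 0 < σ) (h : r + σ ≤ ρ) : tauM r σ t ρ = 0 := by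
  unfold tauM
  rw [ibp1_tauA_ge (by linarith) (by linarith), ibp1_tauA_ge h (by linarith)]
  ring

theorem start : StartStmt := by
  refine ⟨9 * Real.pi, by positivity, ?_⟩
  intro f hf x r σ t L hσ hσr ht0 ht1 hL
  have hr : 0 < r := by linarith
  have hL0 : 0 ≤ L := (abs_nonneg _).trans (hL x (mem_closedBall_self (by linarith)))
  have hc : Continuous (fun y : ℂ => tauM r σ t ‖y - x‖) := by
    unfold tauM
    exact (continuous_const.mul (ibp1_tauA_lip (by linarith) (by linarith) x).continuous).add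
      (continuous_const.mul (ibp1_tauA_lip hr (by linarith) x).continuous)
  have hi : Integrable (fun y : ℂ => r * (tauM r σ t ‖y - x‖ * f y)) := by
    refine Integrable.const_mul ?_ r
    refine (hc.mul hf).integrable_of_hasCompactSupport ?_
    refine HasCompactSupport.intro (isCompact_closedBall x (r + σ)) (fun y hy => ?_)
    rw [mem_closedBall, dist_eq_norm, not_le] at hy
    simp only [Pi.mul_apply]
    rw [ibp1_outer hσ hy.le, zero_mul]
  have hi2 : Integrable ((ball x r).indicator f) :=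
    (ibp1_intOn hf x r).integrable_indicator measurableSet_ball
  rw [← integral_const_mul, ← integral_indicator measurableSet_ball, ← integral_sub hi hi2,
    ← Real.norm_eq_abs]
  have g1 : Integrable ((ball x r).indicator (fun _ : ℂ => L * (σ / r))) :=
    (ibp1_intOn continuous_const x r).integrable_indicator measurableSet_ball
  have g2 : Integrable ((ann x (r - σ) (r + σ)).indicator (fun _ : ℂ => 2 * L)) :=
    ((ibp1_intOn continuous_const x (r + σ)).mono_set sdiff_subset).integrable_indicator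
      (ibp1_ann_meas x _ _)
  refine (norm_integral_le_of_norm_le (g1.add g2) (Eventually.of_forall fun y => ?_)).trans ?_
  · simp only [Pi.add_apply]
    have n1 : 0 ≤ (ball x r).indicator (fun _ : ℂ => L * (σ / r)) y :=
      indicator_nonneg (fun _ _ => by positivity) y
    rw [Real.norm_eq_abs]
    by_cases h1 : ‖y - x‖ < r - σ
    · have hy : y ∈ ball x r := by rw [mem_ball, dist_eq_norm]; linarith
      have hy' : y ∉ ann x (r - σ) (r + σ) := fun h => h.2 (by rw [mem_ball, dist_eq_norm]; exact h1)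
      rw [indicator_of_mem hy, indicator_of_mem hy, indicator_of_notMem hy', add_zero,
        show r * (tauM r σ t ‖y - x‖ * f y) - f y = f y * (r * tauM r σ t ‖y - x‖ - 1) by ring,
        abs_mul]
      refine mul_le_mul (hL y ?_) (ibp1_inner hσ hσr ht0 ht1 h1.le) (abs_nonneg _) hL0
      rw [mem_closedBall, dist_eq_norm]; linarith
    by_cases h2 : ‖y - x‖ < r + σ
    · have hy' : y ∈ ann x (r - σ) (r + σ) :=
        ⟨by rw [mem_ball, dist_eq_norm]; exact h2, by rw [mem_ball, dist_eq_norm]; exact h1⟩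
      rw [indicator_of_mem hy']
      obtain ⟨m0, m1⟩ := ibp1_mid hσ hσr ht0 ht1 ‖y - x‖
      have hfy : |f y| ≤ L := hL y (by rw [mem_closedBall, dist_eq_norm]; linarith)
      refine le_trans ?_ (le_add_of_nonneg_left n1)
      by_cases hy : y ∈ ball x r
      · rw [indicator_of_mem hy,
          show r * (tauM r σ t ‖y - x‖ * f y) - f y = (r * tauM r σ t ‖y - x‖ - 1) * f y by ring,
          abs_mul]
        refine mul_le_mul ?_ hfy (abs_nonneg _) (by norm_num)
        rw [abs_le]; constructor <;> linarith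
      · rw [indicator_of_notMem hy, sub_zero, ← mul_assoc, abs_mul]
        refine mul_le_mul ?_ hfy (abs_nonneg _) (by norm_num)
        rw [abs_le]; constructor <;> linarith
    · have hy : y ∉ ball x r := by rw [mem_ball, dist_eq_norm]; intro h; apply h2; linarith
      have hy' : y ∉ ann x (r - σ) (r + σ) := fun h => h2 (by
        have := h.1; rwa [mem_ball, dist_eq_norm] at this)
      rw [indicator_of_notMem hy, indicator_of_notMem hy, indicator_of_notMem hy',
        ibp1_outer hσ (not_lt.1 h2)]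
      simp
  · have v2 : volume.real (ann x (r - σ) (r + σ)) =
        Real.pi * (r + σ) ^ 2 - Real.pi * (r - σ) ^ 2 := by
      unfold ann
      rw [measureReal_sdiff (ball_subset_ball (by linarith)) measurableSet_ball
        (ibp1_vol_ne_top x _), ibp1_vol x (by linarith), ibp1_vol x (by linarith)]
    have e : ∫ y, ((ball x r).indicator (fun _ : ℂ => L * (σ / r)) +
        (ann x (r - σ) (r + σ)).indicator (fun _ : ℂ => 2 * L)) y =
        Real.pi * r ^ 2 * (L * (σ / r)) +
          (Real.pi * (r + σ) ^ 2 - Real.pi * (r - σ) ^ 2) * (2 * L) := by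
      simp only [Pi.add_apply]
      rw [integral_add g1 g2, integral_indicator measurableSet_ball,
        integral_indicator (ibp1_ann_meas x _ _), setIntegral_const, setIntegral_const,
        ibp1_vol x hr.le, v2, smul_eq_mul, smul_eq_mul]
    rw [e]
    apply le_of_eq
    field_simp
    ring

end

end Crest.Agent.R112
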