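import Crest.Agent.R112.Basic

/-! Row 112: radial integration by parts on annuli (polar coordinates). -/

set_option autoImplicit false

namespace Crest.Agent.R112

open MeasureTheory Set Metric Filter Topology
open scoped ENNReal NNReal Classical

noncomputable section

/-- the unit vector with angle `ϑ` -/
def ibp2E (ϑ : ℝ) : ℂ := (Real.cos ϑ : ℂ) + (Real.sin ϑ : ℂ) * Complex.I

theorem ibp2_norm_E (ϑ : ℝ) : ‖ibp2E ϑ‖ = 1 := by
  have h : ibp2E ϑ = Complex.exp (ϑ * Complex.I) := by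
    rw [Complex.exp_mul_I]; simp [ibp2E]
  rw [h, Complex.norm_exp_ofReal_mul_I]

theorem ibp2_continuous_E : Continuous ibp2E := by
  unfold ibp2E; fun_prop

theorem ibp2_norm (x : ℂ) {ρ : ℝ} (hρ : 0 < ρ) (ϑ : ℝ) :
    ‖x + (ρ : ℂ) * ibp2E ϑ - x‖ = ρ := by
  rw [add_sub_cancel_left, norm_mul, ibp2_norm_E, mul_one, Complex.norm_real, Real.norm_eq_abs,
    abs_of_pos hρ]

theorem ibp2_nhat (x : ℂ) {ρ : ℝ} (hρ : 0 < ρ) (ϑ : ℝ) :
    nhat x (x + (ρ : ℂ) * ibp2E ϑ) = ibp2E ϑ := by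
  have h : nhat x (x + (ρ : ℂ) * ibp2E ϑ) =
      (x + (ρ : ℂ) * ibp2E ϑ - x) / (‖x + (ρ : ℂ) * ibp2E ϑ - x‖ : ℂ) := rfl
  rw [h, ibp2_norm x hρ, add_sub_cancel_left]
  have : (ρ : ℂ) ≠ 0 := by exact_mod_cast hρ.ne'
  field_simp

theorem ibp2_integrableOn {G : ℝ × ℝ → ℝ} {R : ℝ}
    (hG : IntegrableOn G (Icc 0 R ×ˢ Icc (-Real.pi) Real.pi))
    (h0 : ∀ p : ℝ × ℝ, R < p.1 → G p = 0) :
    IntegrableOn G (Ioi (0 : ℝ) ×ˢ Ioo (-Real.pi) Real.pi) := by
  refine hG.of_forall_sdiff_eq_zero (measurableSet_Ioi.prod measurableSet_Ioo) ?_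
  rintro p ⟨⟨h1, h2⟩, h3⟩
  apply h0
  by_contra h
  exact h3 ⟨⟨le_of_lt h1, not_lt.mp h⟩, Ioo_subset_Icc_self h2⟩

theorem ibp2_polar (x : ℂ) (F : ℂ → ℝ) (G : ℝ × ℝ → ℝ)
    (hG : IntegrableOn G (Ioi (0 : ℝ) ×ˢ Ioo (-Real.pi) Real.pi))
    (h : ∀ ρ ϑ : ℝ, 0 < ρ → ρ * F (x + (ρ : ℂ) * ibp2E ϑ) = G (ρ, ϑ)) :
    ∫ y, F y = ∫ ϑ in Ioo (-Real.pi) Real.pi, ∫ ρ in Ioi (0 : ℝ), G (ρ, ϑ) := by
  rw [← integral_add_left_eq_self F x, ← Complex.integral_comp_polarCoord_symm]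
  have h1 : (∫ p in polarCoord.target, p.1 • F (x + Complex.polarCoord.symm p)) =
      ∫ p in Ioi (0 : ℝ) ×ˢ Ioo (-Real.pi) Real.pi, G p := by
    rw [polarCoord_target]
    refine setIntegral_congr_fun (measurableSet_Ioi.prod measurableSet_Ioo) ?_
    rintro ⟨ρ, ϑ⟩ ⟨hρ, -⟩
    have := h ρ ϑ hρ
    simp only [smul_eq_mul, Complex.polarCoord_symm_apply]
    exact this
  rw [h1]
  have h2 : (volume : Measure (ℝ × ℝ)).restrict (Ioi (0 : ℝ) ×ˢ Ioo (-Real.pi) Real.pi) =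
      (volume.restrict (Ioi (0 : ℝ))).prod (volume.restrict (Ioo (-Real.pi) Real.pi)) := by
    rw [Measure.prod_restrict]; rfl
  unfold IntegrableOn at hG
  rw [h2] at hG ⊢
  exact integral_prod_symm G hG

theorem ibp2_marg (G : ℝ × ℝ → ℝ)
    (hG : IntegrableOn G (Ioi (0 : ℝ) ×ˢ Ioo (-Real.pi) Real.pi)) :
    IntegrableOn (fun ϑ => ∫ ρ in Ioi (0 : ℝ), G (ρ, ϑ)) (Ioo (-Real.pi) Real.pi) := by
  have h2 : (volume : Measure (ℝ × ℝ)).restrict (Ioi (0 : ℝ) ×ˢ Ioo (-Real.pi) Real.pi) =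
      (volume.restrict (Ioi (0 : ℝ))).prod (volume.restrict (Ioo (-Real.pi) Real.pi)) := by
    rw [Measure.prod_restrict]; rfl
  unfold IntegrableOn at hG
  rw [h2] at hG
  exact hG.integral_prod_right

theorem ibp2_tail_eq (α β ρ : ℝ) :
    tailA α β ρ = (β ^ 2 - (max α (min ρ β)) ^ 2) / (β ^ 2 - α ^ 2) := rfl

theorem ibp2_continuous_tail (α β : ℝ) : Continuous (tailA α β) := by
  have : tailA α β = fun ρ => (β ^ 2 - (max α (min ρ β)) ^ 2) / (β ^ 2 - α ^ 2) := rfl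
  rw [this]; fun_prop

theorem ibp2_tail_zero {α β ρ : ℝ} (h : α < β) (hρ : β ≤ ρ) : tailA α β ρ = 0 := by
  rw [ibp2_tail_eq, min_eq_right hρ, max_eq_right h.le]; simp

theorem ibp2_tail_integrableOn {α β : ℝ} (h : α < β) {B' : ℝ → ℝ} (hB' : Continuous B') :
    IntegrableOn (fun ρ => tailA α β ρ * B' ρ) (Ioi 0) := by
  have h1 : IntegrableOn (fun ρ => tailA α β ρ * B' ρ) (Icc 0 β) :=
    ((ibp2_continuous_tail α β).mul hB').continuousOn.integrableOn_Icc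
  refine h1.of_forall_sdiff_eq_zero measurableSet_Ioi ?_
  rintro ρ ⟨h2, h3⟩
  have : β ≤ ρ := by
    by_contra h4
    exact h3 ⟨le_of_lt h2, (not_le.mp h4).le⟩
  rw [ibp2_tail_zero h this, zero_mul]

/-- the one-dimensional identity -/
theorem ibp2_one {α β : ℝ} (hα : 0 ≤ α) (h : α < β) {B B' : ℝ → ℝ}
    (hB : ∀ ρ, HasDerivAt B (B' ρ) ρ) (hB' : Continuous B') :
    ∫ ρ in Ioi (0 : ℝ), tailA α β ρ * B' ρ =
      (∫ ρ in Ioi (0 : ℝ), (Ico α β).indicator (fun ρ => ρ * B ρ) ρ) / ((β ^ 2 - α ^ 2) / 2)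
        - B 0 := by
  have hβ : 0 < β := lt_of_le_of_lt hα h
  have hm : 0 < β ^ 2 - α ^ 2 := by nlinarith
  have hBc : Continuous B := continuous_iff_continuousAt.mpr fun ρ => (hB ρ).continuousAt
  have hc : Continuous (fun ρ => tailA α β ρ * B' ρ) := (ibp2_continuous_tail α β).mul hB'
  have e1 : ∫ ρ in Ioi (0 : ℝ), tailA α β ρ * B' ρ = ∫ ρ in (0 : ℝ)..β, tailA α β ρ * B' ρ := by
    rw [intervalIntegral.integral_of_le hβ.le]
    refine setIntegral_eq_of_subset_of_forall_sdiff_eq_zero measurableSet_Ioi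
      Ioc_subset_Ioi_self ?_
    rintro ρ ⟨h2, h3⟩
    have : β ≤ ρ := by
      by_contra h4
      exact h3 ⟨h2, (not_le.mp h4).le⟩
    rw [ibp2_tail_zero h this, zero_mul]
  have e2 : (∫ ρ in Ioi (0 : ℝ), (Ico α β).indicator (fun ρ => ρ * B ρ) ρ) =
      ∫ ρ in α..β, ρ * B ρ := by
    rw [setIntegral_indicator measurableSet_Ico, intervalIntegral.integral_of_le h.le,
      integral_Ioc_eq_integral_Ioo]
    refine setIntegral_congr_set ?_
    refine EventuallyLE.antisymm ?_ ?_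
    · exact (LE.le.eventuallyLE inter_subset_right).trans Ioo_ae_eq_Ico.symm.le
    · exact LE.le.eventuallyLE fun ρ hρ => ⟨lt_of_le_of_lt hα hρ.1, hρ.1.le, hρ.2⟩
  have e3 : ∫ ρ in (0 : ℝ)..α, tailA α β ρ * B' ρ = B α - B 0 := by
    rw [← intervalIntegral.integral_eq_sub_of_hasDerivAt (fun ρ _ => hB ρ)
      (hB'.intervalIntegrable _ _)]
    refine intervalIntegral.integral_congr ?_
    intro ρ hρ
    rw [uIcc_of_le hα] at hρ
    have : tailA α β ρ = 1 := by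
      rw [ibp2_tail_eq, min_eq_left (hρ.2.trans h.le), max_eq_left hρ.2]
      exact div_self hm.ne'
    simp only [this, one_mul]
  have e4 : ∫ ρ in α..β, tailA α β ρ * B' ρ =
      -B α + (∫ ρ in α..β, ρ * B ρ) / ((β ^ 2 - α ^ 2) / 2) := by
    have h1 : ∫ ρ in α..β, tailA α β ρ * B' ρ =
        ∫ ρ in α..β, (β ^ 2 - ρ ^ 2) / (β ^ 2 - α ^ 2) * B' ρ := by
      refine intervalIntegral.integral_congr ?_
      intro ρ hρ
      rw [uIcc_of_le h.le] at hρ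
      simp only [ibp2_tail_eq, min_eq_left hρ.2, max_eq_right hρ.1]
    have hu : ∀ ρ ∈ uIcc α β, HasDerivAt (fun ρ : ℝ => (β ^ 2 - ρ ^ 2) / (β ^ 2 - α ^ 2))
        (-(2 * ρ) / (β ^ 2 - α ^ 2)) ρ := by
      intro ρ _
      have := ((hasDerivAt_pow 2 ρ).const_sub (β ^ 2)).div_const (β ^ 2 - α ^ 2)
      simpa using this
    have h2 := intervalIntegral.integral_mul_deriv_eq_deriv_mul hu (fun ρ _ => hB ρ)
      (Continuous.intervalIntegrable (by fun_prop) _ _) (hB'.intervalIntegrable _ _)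
    rw [h1, h2]
    have h3 : ∫ ρ in α..β, -(2 * ρ) / (β ^ 2 - α ^ 2) * B ρ =
        -((∫ ρ in α..β, ρ * B ρ) / ((β ^ 2 - α ^ 2) / 2)) := by
      rw [← intervalIntegral.integral_div, ← intervalIntegral.integral_neg]
      refine intervalIntegral.integral_congr fun ρ _ => ?_
      field_simp
    rw [h3, div_self hm.ne']
    ring
  rw [e1, e2, ← intervalIntegral.integral_add_adjacent_intervals (b := α)
    (hc.intervalIntegrable _ _) (hc.intervalIntegrable _ _), e3, e4]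
  ring

theorem ibp2_hasDerivAt {b : ℂ → ℝ} (hb : C1c b) (x : ℂ) (c ϑ ρ : ℝ) :
    HasDerivAt (fun ρ : ℝ => b (x + (ρ : ℂ) * ibp2E ϑ) - c)
      (dot (ibp2E ϑ) (grad b (x + (ρ : ℂ) * ibp2E ϑ))) ρ := by
  have h1 : HasDerivAt (fun ρ : ℝ => x + (ρ : ℂ) * ibp2E ϑ) (ibp2E ϑ) ρ := by
    have := ((Complex.ofRealCLM.hasDerivAt (x := ρ)).mul_const (ibp2E ϑ)).const_add x
    simpa using this
  have h2 : HasFDerivAt b (fderiv ℝ b (x + (ρ : ℂ) * ibp2E ϑ)) (x + (ρ : ℂ) * ibp2E ϑ) :=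
    (hb.1.differentiable one_ne_zero _).hasFDerivAt
  have h3 := (h2.comp_hasDerivAt ρ h1).sub_const c
  rw [fderiv_eq_dot, dot_comm] at h3
  exact h3

/-- the annulus integrand in polar coordinates -/
def ibp2G (b : ℂ → ℝ) (x e : ℂ) (lam c α β : ℝ) (p : ℝ × ℝ) : ℝ :=
  (lam - dot e (ibp2E p.2)) *
    (Ico α β).indicator (fun ρ : ℝ => ρ * (b (x + (ρ : ℂ) * ibp2E p.2) - c)) p.1

theorem ibp2G_integrableOn {b : ℂ → ℝ} (hb : C1c b) (x e : ℂ) (lam c α β : ℝ) :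
    IntegrableOn (ibp2G b x e lam c α β) (Ioi (0 : ℝ) ×ˢ Ioo (-Real.pi) Real.pi) := by
  have hE := ibp2_continuous_E
  have hbc := hb.continuous
  have hH : Continuous (fun p : ℝ × ℝ => (lam - dot e (ibp2E p.2)) *
      (p.1 * (b (x + (p.1 : ℂ) * ibp2E p.2) - c))) := by fun_prop
  have hG : ibp2G b x e lam c α β = (Ico α β ×ˢ (univ : Set ℝ)).indicator
      (fun p : ℝ × ℝ => (lam - dot e (ibp2E p.2)) *
        (p.1 * (b (x + (p.1 : ℂ) * ibp2E p.2) - c))) := by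
    funext p
    by_cases hp : p.1 ∈ Ico α β
    · rw [indicator_of_mem (show p ∈ Ico α β ×ˢ (univ : Set ℝ) from ⟨hp, mem_univ _⟩)]
      unfold ibp2G
      rw [indicator_of_mem hp]
    · rw [indicator_of_notMem (show p ∉ Ico α β ×ˢ (univ : Set ℝ) from fun h => hp h.1)]
      unfold ibp2G
      rw [indicator_of_notMem hp, mul_zero]
  refine ibp2_integrableOn (R := β) ?_ ?_
  · rw [hG]
    exact (hH.continuousOn.integrableOn_compact (isCompact_Icc.prod isCompact_Icc)).indicator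
      (measurableSet_Ico.prod MeasurableSet.univ)
  · intro p hp
    unfold ibp2G
    rw [indicator_of_notMem (fun h => absurd h.2 (not_lt.mpr hp.le)), mul_zero]

theorem ibp2_ann {b : ℂ → ℝ} (hb : C1c b) (x e : ℂ) (lam c α β : ℝ) :
    ∫ y in ann x α β, (b y - c) * (lam - dot e (nhat x y)) =
      ∫ ϑ in Ioo (-Real.pi) Real.pi, ∫ ρ in Ioi (0 : ℝ), ibp2G b x e lam c α β (ρ, ϑ) := by
  have hm : MeasurableSet (ann x α β) := measurableSet_ball.diff measurableSet_ball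
  rw [← integral_indicator hm]
  refine ibp2_polar x _ _ (ibp2G_integrableOn hb x e lam c α β) ?_
  intro ρ ϑ hρ
  have hiff : x + (ρ : ℂ) * ibp2E ϑ ∈ ann x α β ↔ ρ ∈ Ico α β := by
    change (x + (ρ : ℂ) * ibp2E ϑ ∈ ball x β ∧ x + (ρ : ℂ) * ibp2E ϑ ∉ ball x α) ↔ _
    rw [mem_ball, mem_ball, dist_eq_norm, ibp2_norm x hρ, mem_Ico, not_lt, and_comm]
  unfold ibp2G
  by_cases h : ρ ∈ Ico α β
  · rw [indicator_of_mem (hiff.mpr h), indicator_of_mem h, ibp2_nhat x hρ]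
    ring
  · rw [indicator_of_notMem (fun h' => h (hiff.mp h')), indicator_of_notMem h]
    ring

theorem ibp2 : IBP2Stmt := by
  intro b hb x e lam c α β α' β' hα hαβ hα' hαβ'
  have hE := ibp2_continuous_E
  have hgc := hb.continuous_grad
  have ht := ibp2_continuous_tail α β
  have ht' := ibp2_continuous_tail α' β'
  set H : ℝ × ℝ → ℝ := fun p => (lam - dot e (ibp2E p.2)) *
    ((tailA α β p.1 - tailA α' β' p.1) * dot (ibp2E p.2) (grad b (x + (p.1 : ℂ) * ibp2E p.2)))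
    with hHdef
  have hHc : Continuous H := by rw [hHdef]; fun_prop
  have hH : IntegrableOn H (Ioi (0 : ℝ) ×ˢ Ioo (-Real.pi) Real.pi) := by
    refine ibp2_integrableOn (R := max β β')
      (hHc.continuousOn.integrableOn_compact (isCompact_Icc.prod isCompact_Icc)) ?_
    intro p hp
    rw [hHdef]
    simp only
    rw [ibp2_tail_zero hαβ ((le_max_left _ _).trans hp.le),
      ibp2_tail_zero hαβ' ((le_max_right _ _).trans hp.le)]
    ring
  rw [ibp2_ann hb, ibp2_ann hb, ibp2_polar x _ H hH, ← integral_div, ← integral_div,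
    ← integral_sub ((ibp2_marg _ (ibp2G_integrableOn hb x e lam c α β)).div_const _)
      ((ibp2_marg _ (ibp2G_integrableOn hb x e lam c α' β')).div_const _)]
  · refine setIntegral_congr_fun measurableSet_Ioo fun ϑ _ => ?_
    have hB' : Continuous (fun ρ : ℝ => dot (ibp2E ϑ) (grad b (x + (ρ : ℂ) * ibp2E ϑ))) := by
      fun_prop
    have h1 := ibp2_one hα hαβ (ibp2_hasDerivAt hb x c ϑ) hB'
    have h2 := ibp2_one hα' hαβ' (ibp2_hasDerivAt hb x c ϑ) hB'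
    have h3 := integral_sub (ibp2_tail_integrableOn hαβ hB') (ibp2_tail_integrableOn hαβ' hB')
    rw [h1, h2] at h3
    simp only [hHdef, ibp2G, sub_mul (tailA α β _)]
    rw [integral_const_mul, integral_const_mul, integral_const_mul, h3]
    ring
  · intro ρ ϑ hρ
    rw [hHdef]
    simp only
    rw [ibp2_norm x hρ, ibp2_nhat x hρ]
    field_simp

end

end Crest.Agent.R112
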