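import Crest.Agent.R112.Basic

/-! Row 112: the kink lemma. -/

set_option autoImplicit false

namespace Crest.Agent.R112

open MeasureTheory Set Metric Filter Topology
open scoped ENNReal NNReal Classical

noncomputable section

theorem kink_int1 (H : ℝ → ℝ) (hH : Continuous H) (B δ a b : ℝ) (hδ : 0 ≤ δ)
    (hB : ∀ t, |H t| ≤ B) : ∫ t in a..b, (H t - H (t + δ)) ≤ 2 * B * δ := by
  have h2 : Continuous fun t => H (t + δ) := by fun_prop
  rw [intervalIntegral.integral_sub (hH.intervalIntegrable _ _) (h2.intervalIntegrable _ _),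
    intervalIntegral.integral_comp_add_right H δ,
    intervalIntegral.integral_interval_sub_interval_comm (hH.intervalIntegrable _ _)
      (hH.intervalIntegrable _ _) (hH.intervalIntegrable _ _)]
  have h3 := intervalIntegral.norm_integral_le_of_norm_le_const (a := a) (b := a + δ) (C := B)
    (f := H) (fun t _ => hB t)
  have h4 := intervalIntegral.norm_integral_le_of_norm_le_const (a := b) (b := b + δ) (C := B)
    (f := H) (fun t _ => hB t)
  rw [add_sub_cancel_left, abs_of_nonneg hδ, Real.norm_eq_abs] at h3 h4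
  have := le_abs_self (∫ x in a..a + δ, H x)
  have := neg_abs_le (∫ x in b..b + δ, H x)
  linarith

theorem kink_meas1 (F : ℝ → ℝ) (L δ c a b : ℝ) (hδ : 0 ≤ δ) (hc : 0 < c)
    (hF : ∀ s t, |F s - F t| ≤ L * |s - t|)
    (hconc : ∀ t, F (t + δ) + F (t - δ) ≤ 2 * F t) :
    volume {t | t ∈ Icc a b ∧ c ≤ 2 * F t - F (t + δ) - F (t - δ)}
      ≤ ENNReal.ofReal (2 * L * δ ^ 2 / c) := by
  rcases lt_or_ge b a with hab | hab
  · have : {t | t ∈ Icc a b ∧ c ≤ 2 * F t - F (t + δ) - F (t - δ)} = ∅ := by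
      ext t; simp only [mem_ofPred_eq, mem_Icc, mem_empty_iff_false, iff_false]
      rintro ⟨⟨h1, h2⟩, -⟩; linarith
    rw [this]; simp
  have hFc : Continuous F := by
    have : LipschitzWith L.toNNReal F := by
      refine LipschitzWith.of_dist_le_mul fun y y' => ?_
      rw [Real.dist_eq, Real.dist_eq]
      exact (hF y y').trans (mul_le_mul_of_nonneg_right (Real.le_coe_toNNReal L) (abs_nonneg _))
    exact this.continuous
  set Φ : ℝ → ℝ := fun t => 2 * F t - F (t + δ) - F (t - δ) with hΦ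
  have hΦc : Continuous Φ := by rw [hΦ]; fun_prop
  have h1 := mul_meas_ge_le_integral_of_nonneg (μ := volume.restrict (Icc a b)) (f := Φ)
    (Eventually.of_forall fun t => by have := hconc t; simp only [hΦ, Pi.zero_apply]; linarith)
    (hΦc.integrableOn_Icc) c
  have h2 := kink_int1 (fun t => F t - F (t - δ)) (by fun_prop) (L * δ) δ a b hδ (fun t => by
    have := hF t (t - δ)
    rwa [sub_sub_cancel, abs_of_nonneg hδ] at this)
  have h3 : ∫ t in a..b, ((F t - F (t - δ)) - (F (t + δ) - F (t + δ - δ))) =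
      ∫ t in Icc a b, Φ t := by
    rw [intervalIntegral.integral_of_le hab, integral_Icc_eq_integral_Ioc]
    refine integral_congr_ae (Eventually.of_forall fun t => ?_)
    simp only [hΦ, add_sub_cancel_right]; ring
  rw [h3] at h2
  have hm : MeasurableSet {x | c ≤ Φ x} := measurableSet_le measurable_const hΦc.measurable
  rw [measureReal_def, Measure.restrict_apply hm] at h1
  have e : {t | t ∈ Icc a b ∧ c ≤ 2 * F t - F (t + δ) - F (t - δ)} = {x | c ≤ Φ x} ∩ Icc a b := by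
    ext t; simp only [mem_ofPred_eq, mem_inter_iff, hΦ]; tauto
  rw [e]
  have hfin : volume ({x | c ≤ Φ x} ∩ Icc a b) ≠ ⊤ :=
    ((measure_mono inter_subset_right).trans_lt measure_Icc_lt_top).ne
  rw [← ENNReal.ofReal_toReal hfin]
  refine ENNReal.ofReal_le_ofReal ?_
  rw [le_div_iff₀ hc]
  nlinarith

theorem kink_slice1 (E : Set (ℝ × ℝ)) (hE : MeasurableSet E) (a b : ℝ) (B : ℝ≥0∞)
    (h1 : ∀ p ∈ E, p.1 ∈ Icc a b) (h2 : ∀ x, volume (Prod.mk x ⁻¹' E) ≤ B) :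
    volume E ≤ B * ENNReal.ofReal (b - a) := by
  rw [Measure.volume_eq_prod, Measure.prod_apply hE]
  calc ∫⁻ x, volume (Prod.mk x ⁻¹' E) ≤ ∫⁻ x, (Icc a b).indicator (fun _ => B) x := by
        refine lintegral_mono fun x => ?_
        by_cases hx : x ∈ Icc a b
        · rw [indicator_of_mem hx]; exact h2 x
        · have : Prod.mk x ⁻¹' E = ∅ := by
            ext y; simp only [mem_preimage, mem_empty_iff_false, iff_false]
            exact fun h => hx (h1 _ h)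
          simp [this]
    _ = B * ENNReal.ofReal (b - a) := by
        rw [lintegral_indicator_const measurableSet_Icc, Real.volume_Icc]

theorem kink_slice2 (E : Set (ℝ × ℝ)) (hE : MeasurableSet E) (a b : ℝ) (B : ℝ≥0∞)
    (h1 : ∀ p ∈ E, p.2 ∈ Icc a b) (h2 : ∀ y, volume ((fun x => (x, y)) ⁻¹' E) ≤ B) :
    volume E ≤ B * ENNReal.ofReal (b - a) := by
  rw [Measure.volume_eq_prod, Measure.prod_apply_symm hE]
  calc ∫⁻ y, volume ((fun x => (x, y)) ⁻¹' E) ≤ ∫⁻ x, (Icc a b).indicator (fun _ => B) x := by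
        refine lintegral_mono fun x => ?_
        by_cases hx : x ∈ Icc a b
        · rw [indicator_of_mem hx]; exact h2 x
        · have : (fun y => (y, x)) ⁻¹' E = ∅ := by
            ext y; simp only [mem_preimage, mem_empty_iff_false, iff_false]
            exact fun h => hx (h1 _ h)
          simp [this]
    _ = B * ENNReal.ofReal (b - a) := by
        rw [lintegral_indicator_const measurableSet_Icc, Real.volume_Icc]

theorem kink_meas2 (F : ℂ → ℝ) (L δ c S : ℝ) (z u : ℂ) (hu : u = 1 ∨ u = Complex.I)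
    (hδ : 0 ≤ δ) (hc : 0 < c) (hL : 0 ≤ L) (hF : Lip L F)
    (hconc : ∀ x h, F (x + h) + F (x - h) ≤ 2 * F x) :
    volume {x ∈ ball z S | c ≤ 2 * F x - F (x + δ * u) - F (x - δ * u)}
      ≤ ENNReal.ofReal (2 * L * δ ^ 2 / c * (2 * S)) := by
  have hFc := hF.continuous
  set E : Set (ℝ × ℝ) := {p | p.1 ∈ Icc (z.re - S) (z.re + S) ∧ p.2 ∈ Icc (z.im - S) (z.im + S) ∧
    c ≤ 2 * F ⟨p.1, p.2⟩ - F (⟨p.1, p.2⟩ + δ * u) - F (⟨p.1, p.2⟩ - δ * u)} with hE
  have hmk : Continuous fun p : ℝ × ℝ => (⟨p.1, p.2⟩ : ℂ) :=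
    Complex.equivRealProdCLM.symm.continuous
  have hEm : MeasurableSet E := by
    have c1 : IsClosed {p : ℝ × ℝ |
        c ≤ 2 * F ⟨p.1, p.2⟩ - F (⟨p.1, p.2⟩ + δ * u) - F (⟨p.1, p.2⟩ - δ * u)} :=
      isClosed_le continuous_const (((continuous_const.mul (hFc.comp hmk)).sub
        (hFc.comp (hmk.add continuous_const))).sub (hFc.comp (hmk.sub continuous_const)))
    exact ((isClosed_Icc.preimage continuous_fst).inter
      ((isClosed_Icc.preimage continuous_snd).inter c1)).measurableSet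
  have hsub : {x ∈ ball z S | c ≤ 2 * F x - F (x + δ * u) - F (x - δ * u)} ⊆
      Complex.measurableEquivRealProd ⁻¹' E := by
    rintro x ⟨hx, hx2⟩
    rw [mem_ball, dist_eq_norm] at hx
    have h1 := Complex.abs_re_le_norm (x - z)
    have h2 := Complex.abs_im_le_norm (x - z)
    rw [Complex.sub_re, abs_le] at h1
    rw [Complex.sub_im, abs_le] at h2
    simp only [mem_preimage, Complex.measurableEquivRealProd_apply, hE, mem_ofPred_eq, mem_Icc]
    exact ⟨⟨by linarith [h1.1], by linarith [h1.2]⟩, ⟨by linarith [h2.1], by linarith [h2.2]⟩, hx2⟩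
  refine (measure_mono hsub).trans ?_
  rw [Complex.volume_preserving_equiv_real_prod.measure_preimage hEm.nullMeasurableSet,
    ENNReal.ofReal_mul (by positivity)]
  rcases hu with rfl | rfl
  · have e : 2 * S = z.im + S - (z.im - S) := by ring
    rw [e]
    refine kink_slice2 E hEm _ _ _ (fun p hp => hp.2.1) fun y => ?_
    have e1 : ∀ t : ℝ, (⟨t, y⟩ : ℂ) + δ * 1 = ⟨t + δ, y⟩ := fun t => by
      apply Complex.ext <;> simp
    have e2 : ∀ t : ℝ, (⟨t, y⟩ : ℂ) - δ * 1 = ⟨t - δ, y⟩ := fun t => by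
      apply Complex.ext <;> simp
    refine le_trans (measure_mono ?_) (kink_meas1 (fun t => F ⟨t, y⟩) L δ c (z.re - S) (z.re + S)
      hδ hc (fun s t => ?_) (fun t => ?_))
    · intro t ht
      simp only [mem_preimage, hE, mem_ofPred_eq, e1, e2] at ht
      exact ⟨ht.1, ht.2.2⟩
    · have := hF ⟨s, y⟩ ⟨t, y⟩
      have e : (⟨s, y⟩ : ℂ) - ⟨t, y⟩ = ((s - t : ℝ) : ℂ) := by apply Complex.ext <;> simp
      rwa [e, Complex.norm_real, Real.norm_eq_abs, Real.norm_eq_abs] at this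
    · have := hconc ⟨t, y⟩ (δ * 1)
      rwa [e1, e2] at this
  · have e : 2 * S = z.re + S - (z.re - S) := by ring
    rw [e]
    refine kink_slice1 E hEm _ _ _ (fun p hp => hp.1) fun y => ?_
    have e1 : ∀ t : ℝ, (⟨y, t⟩ : ℂ) + δ * Complex.I = ⟨y, t + δ⟩ := fun t => by
      apply Complex.ext <;> simp
    have e2 : ∀ t : ℝ, (⟨y, t⟩ : ℂ) - δ * Complex.I = ⟨y, t - δ⟩ := fun t => by
      apply Complex.ext <;> simp
    refine le_trans (measure_mono ?_) (kink_meas1 (fun t => F ⟨y, t⟩) L δ c (z.im - S) (z.im + S)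
      hδ hc (fun s t => ?_) (fun t => ?_))
    · intro t ht
      simp only [mem_preimage, hE, mem_ofPred_eq, e1, e2] at ht
      exact ⟨ht.2.1, ht.2.2⟩
    · have := hF ⟨y, s⟩ ⟨y, t⟩
      have e : (⟨y, s⟩ : ℂ) - ⟨y, t⟩ = ((s - t : ℝ) : ℂ) * Complex.I := by
        apply Complex.ext <;> simp
      rwa [e, norm_mul, Complex.norm_I, mul_one, Complex.norm_real, Real.norm_eq_abs,
        Real.norm_eq_abs] at this
    · have := hconc ⟨y, t⟩ (δ * Complex.I)
      rwa [e1, e2] at this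

/-- infimum of a family of affine Lipschitz functions -/
theorem kink_inf {A : Type*} (ℓ : A → ℂ → ℝ) (L : ℝ) (hL : 0 ≤ L) (hlip : ∀ g, Lip L (ℓ g))
    (haff : ∀ g x h, ℓ g (x + h) + ℓ g (x - h) = 2 * ℓ g x)
    (hbdd : ∀ x, BddBelow (range fun g => ℓ g x)) :
    ∃ f : ℂ → ℝ, Lip L f ∧ (∀ x h, f (x + h) + f (x - h) ≤ 2 * f x) ∧ (∀ g x, f x ≤ ℓ g x) ∧
      ∀ (_ : A) x c, (∀ g, c ≤ ℓ g x) → c ≤ f x := by
  rcases isEmpty_or_nonempty A with hA | hA
  · refine ⟨fun _ => 0, fun y y' => by simp; positivity, fun _ _ => by simp,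
      fun g => hA.elim g, fun g => hA.elim g⟩
  have hle : ∀ g x, ⨅ g, ℓ g x ≤ ℓ g x := fun g x => ciInf_le (hbdd x) g
  have hlip1 : ∀ y y', (⨅ g, ℓ g y) - L * ‖y - y'‖ ≤ ⨅ g, ℓ g y' := fun y y' => by
    refine le_ciInf fun g => ?_
    have h1 := hle g y
    have h2 := hlip g y y'
    rw [Real.norm_eq_abs, abs_le] at h2
    linarith [h2.2]
  refine ⟨fun x => ⨅ g, ℓ g x, fun y y' => ?_, fun x h => ?_, hle, fun _ x c hc => le_ciInf hc⟩
  · have h1 := hlip1 y y'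
    have h2 := hlip1 y' y
    rw [norm_sub_rev] at h2
    rw [Real.norm_eq_abs, abs_le]
    constructor <;> linarith
  · have : ((⨅ g, ℓ g (x + h)) + ⨅ g, ℓ g (x - h)) / 2 ≤ ⨅ g, ℓ g x := by
      refine le_ciInf fun g => ?_
      have h1 := hle g (x + h)
      have h2 := hle g (x - h)
      have h3 := haff g x h
      linarith
    linarith

/-- quantile -/
theorem kink_quant {ι : Type*} (N : Finset ι) (Γ c : ι → ℝ) (μ : ℝ) (hμ : 0 < μ)
    (hW : μ ≤ ∑ i ∈ N, Γ i) :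
    ∃ α : ℝ, μ ≤ ∑ i ∈ N.filter (fun i => c i ≤ α), Γ i ∧
      ∑ i ∈ N.filter (fun i => c i < α), Γ i < μ := by
  have hN : N.Nonempty := by
    rcases N.eq_empty_or_nonempty with h | h
    · rw [h, Finset.sum_empty] at hW; linarith
    · exact h
  set S := N.filter (fun j => μ ≤ ∑ i ∈ N.filter (fun i => c i ≤ c j), Γ i) with hS
  have hSn : S.Nonempty := by
    obtain ⟨j, hj, hj2⟩ := N.exists_max_image c hN
    refine ⟨j, Finset.mem_filter.mpr ⟨hj, ?_⟩⟩
    rwa [Finset.filter_true_of_mem hj2]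
  obtain ⟨j, hj, hj2⟩ := S.exists_min_image c hSn
  refine ⟨c j, (Finset.mem_filter.mp hj).2, ?_⟩
  by_contra hcon
  push Not at hcon
  have hn : (N.filter (fun i => c i < c j)).Nonempty := by
    rcases (N.filter (fun i => c i < c j)).eq_empty_or_nonempty with h | h
    · rw [h, Finset.sum_empty] at hcon; linarith
    · exact h
  obtain ⟨k, hk, hk2⟩ := (N.filter (fun i => c i < c j)).exists_max_image c hn
  have hk' := Finset.mem_filter.mp hk
  have e : N.filter (fun i => c i ≤ c k) = N.filter (fun i => c i < c j) := by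
    ext i
    simp only [Finset.mem_filter]
    constructor
    · rintro ⟨h1, h2⟩; exact ⟨h1, h2.trans_lt hk'.2⟩
    · rintro ⟨h1, h2⟩; exact ⟨h1, hk2 i (Finset.mem_filter.mpr ⟨h1, h2⟩)⟩
  have : k ∈ S := Finset.mem_filter.mpr ⟨hk'.1, by rw [e]; exact hcon⟩
  have := hj2 k this
  linarith [hk'.2]

/-- the affine functions -/
def kinkφ (z p x : ℂ) : ℝ := ‖p - z‖ ^ 2 - 2 * dot (x - z) (p - z)

theorem kinkφ_eq (z p x : ℂ) : kinkφ z p x = ‖x - p‖ ^ 2 - ‖x - z‖ ^ 2 := by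
  simp only [kinkφ, ← dot_self, dot, Complex.sub_re, Complex.sub_im]; ring

theorem kinkφ_add (z p x h : ℂ) : kinkφ z p (x + h) = kinkφ z p x - 2 * dot h (p - z) := by
  simp only [kinkφ, dot, Complex.sub_re, Complex.sub_im, Complex.add_re, Complex.add_im]; ring

theorem kinkφ_sub (z p x h : ℂ) : kinkφ z p (x - h) = kinkφ z p x + 2 * dot h (p - z) := by
  simp only [kinkφ, dot, Complex.sub_re, Complex.sub_im]; ring

def KinkGood {ι : Type*} (J : Finset ι) (Γ : ι → ℝ) (τ : ℝ) (g : ι → ℝ) : Prop :=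
  (∀ i, 0 ≤ g i ∧ g i ≤ Γ i) ∧ ∑ i ∈ J, g i = τ

theorem kink_f {ι : Type*} (J : Finset ι) (p : ι → ℂ) (Γ : ι → ℝ) (z : ℂ) (R τ : ℝ)
    (hR : 0 ≤ R) (hτ : 0 ≤ τ) (hJ : ∀ i ∈ J, ‖p i - z‖ ≤ R) :
    ∃ f : ℂ → ℝ, Lip (2 * R * τ) f ∧ (∀ x h, f (x + h) + f (x - h) ≤ 2 * f x) ∧
      (∀ g, KinkGood J Γ τ g → ∀ x, f x ≤ ∑ i ∈ J, g i * kinkφ z (p i) x) ∧
      ∀ g₀, KinkGood J Γ τ g₀ → ∀ x c,
        (∀ g, KinkGood J Γ τ g → c ≤ ∑ i ∈ J, g i * kinkφ z (p i) x) → c ≤ f x := by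
  refine (fun ⟨f, h1, h2, h3, h4⟩ => ⟨f, h1, h2, fun g hg x => h3 ⟨g, hg⟩ x,
      fun g₀ hg₀ x c hc => h4 ⟨g₀, hg₀⟩ x c fun g => hc g.1 g.2⟩)
    (kink_inf (A := {g // KinkGood J Γ τ g})
      (fun g x => ∑ i ∈ J, g.1 i * kinkφ z (p i) x) (2 * R * τ) (by positivity) ?_ ?_ ?_)
  · rintro ⟨g, hg, hgs⟩ y y'
    simp only
    rw [← Finset.sum_sub_distrib]
    refine (norm_sum_le _ _).trans ?_
    rw [← hgs, Finset.mul_sum, Finset.sum_mul]
    refine Finset.sum_le_sum fun i hi => ?_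
    have e : y = y' + (y - y') := by ring
    have e2 : kinkφ z (p i) y = kinkφ z (p i) y' - 2 * dot (y - y') (p i - z) := by
      rw [← kinkφ_add, ← e]
    rw [e2, ← mul_sub, Real.norm_eq_abs, abs_mul, abs_of_nonneg (hg i).1]
    have h5 := abs_dot_le (y - y') (p i - z)
    have h6 : ‖y - y'‖ * ‖p i - z‖ ≤ ‖y - y'‖ * R :=
      mul_le_mul_of_nonneg_left (hJ i hi) (norm_nonneg _)
    have h7 : |kinkφ z (p i) y' - 2 * dot (y - y') (p i - z) - kinkφ z (p i) y'| ≤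
        2 * R * ‖y - y'‖ := by
      rw [show kinkφ z (p i) y' - 2 * dot (y - y') (p i - z) - kinkφ z (p i) y' =
        -2 * dot (y - y') (p i - z) by ring, abs_mul]
      norm_num
      nlinarith
    have := mul_le_mul_of_nonneg_left h7 (hg i).1
    nlinarith
  · rintro ⟨g, hg, hgs⟩ x h
    simp only
    rw [← Finset.sum_add_distrib, Finset.mul_sum]
    refine Finset.sum_congr rfl fun i _ => ?_
    rw [kinkφ_add, kinkφ_sub]; ring
  · intro x
    refine ⟨-(τ * ‖x - z‖ ^ 2), ?_⟩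
    rintro _ ⟨⟨g, hg, hgs⟩, rfl⟩
    simp only
    rw [← hgs, Finset.sum_mul, ← Finset.sum_neg_distrib]
    refine Finset.sum_le_sum fun i _ => ?_
    rw [kinkφ_eq]
    have := mul_nonneg (hg i).1 (sq_nonneg ‖x - p i‖)
    nlinarith

theorem kink_g {ι : Type*} (J Dp P : Finset ι) (Γ : ι → ℝ) (hΓ : ∀ i, 0 ≤ Γ i) (μ : ℝ)
    (hμ : 0 < μ) (hD : Dp ⊆ J) (hP : P ⊆ J) (hdis : ∀ i ∈ P, i ∉ Dp) (hW : μ ≤ ∑ i ∈ P, Γ i) :
    ∃ g, KinkGood J Γ (∑ i ∈ Dp, Γ i + μ) g ∧ ∀ (ψ : ι → ℝ) (M : ℝ), (∀ i ∈ P, ψ i ≤ M) →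
      ∑ i ∈ J, g i * ψ i ≤ ∑ i ∈ Dp, Γ i * ψ i + μ * M := by
  set W := ∑ i ∈ P, Γ i with hWd
  have hW0 : 0 < W := hμ.trans_le hW
  have ht0 : 0 ≤ μ / W := by positivity
  have ht1 : μ / W ≤ 1 := (div_le_one hW0).mpr hW
  set g : ι → ℝ := fun i => (if i ∈ Dp then Γ i else 0) + (if i ∈ P then μ / W * Γ i else 0)
    with hg
  have key : ∀ ψ : ι → ℝ, ∑ i ∈ J, g i * ψ i =
      ∑ i ∈ Dp, Γ i * ψ i + μ / W * ∑ i ∈ P, Γ i * ψ i := by
    intro ψ
    simp only [hg, add_mul, Finset.sum_add_distrib, ite_mul, zero_mul]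
    rw [← Finset.sum_filter, ← Finset.sum_filter, Finset.filter_mem_eq_inter,
      Finset.filter_mem_eq_inter, Finset.inter_eq_right.mpr hD, Finset.inter_eq_right.mpr hP,
      Finset.mul_sum]
    simp only [mul_assoc]
  refine ⟨g, ⟨fun i => ?_, ?_⟩, fun ψ M hM => ?_⟩
  · have h0 := hΓ i
    have h1 : μ / W * Γ i ≤ Γ i := mul_le_of_le_one_left h0 ht1
    have h2 : 0 ≤ μ / W * Γ i := mul_nonneg ht0 h0
    simp only [hg]
    by_cases hi : i ∈ P
    · simp only [if_neg (hdis i hi), if_pos hi]; constructor <;> linarith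
    · simp only [if_neg hi]; split_ifs <;> constructor <;> linarith
  · have := key fun _ => 1
    simp only [mul_one] at this
    rw [this, ← hWd, div_mul_cancel₀ _ hW0.ne']
  · rw [key]
    have h1 : ∑ i ∈ P, Γ i * ψ i ≤ W * M := by
      rw [hWd, Finset.sum_mul]
      exact Finset.sum_le_sum fun i hi => mul_le_mul_of_nonneg_left (hM i hi) (hΓ i)
    have h2 := mul_le_mul_of_nonneg_left h1 ht0
    have e : μ / W * (W * M) = μ * M := by field_simp
    linarith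

theorem kink_key {ι : Type*} (J Dp PL PR : Finset ι) (p : ι → ℂ) (Γ : ι → ℝ) (hΓ : ∀ i, 0 ≤ Γ i)
    (z x u : ℂ) (f : ℂ → ℝ) (τ μ r w s δ α β : ℝ) (hμ : 0 < μ) (hδ : 0 ≤ δ)
    (hr : 0 < r) (hrs : r ≤ s) (hw : 0 < w) (hws : w ≤ s)
    (hup : ∀ g, KinkGood J Γ τ g → ∀ x, f x ≤ ∑ i ∈ J, g i * kinkφ z (p i) x)
    (hlow : ∀ g₀, KinkGood J Γ τ g₀ → ∀ x c,
        (∀ g, KinkGood J Γ τ g → c ≤ ∑ i ∈ J, g i * kinkφ z (p i) x) → c ≤ f x)
    (hD : Dp ⊆ J) (hD1 : ∀ i ∈ Dp, ‖x - p i‖ < r - w) (hD2 : ∀ i ∈ J, i ∉ Dp → r - w ≤ ‖x - p i‖)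
    (hL : PL ⊆ J) (hL1 : ∀ i ∈ PL, i ∉ Dp) (hL2 : ∀ i ∈ PL, ‖x - p i‖ ≤ r + w ∧ dot u (p i) ≤ α)
    (hL3 : μ ≤ ∑ i ∈ PL, Γ i)
    (hR : PR ⊆ J) (hR1 : ∀ i ∈ PR, i ∉ Dp) (hR2 : ∀ i ∈ PR, ‖x - p i‖ ≤ r + w ∧ β ≤ dot u (p i))
    (hR3 : μ ≤ ∑ i ∈ PR, Γ i) (hτ : τ = ∑ i ∈ Dp, Γ i + μ) :
    f (x + δ * u) + f (x - δ * u) ≤ 2 * f x + 8 * s * w * μ - 2 * δ * μ * (β - α) := by
  obtain ⟨gL, hgL, hgL2⟩ := kink_g J Dp PL Γ hΓ μ hμ hD hL hL1 hL3
  obtain ⟨gR, hgR, hgR2⟩ := kink_g J Dp PR Γ hΓ μ hμ hD hR hR1 hR3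
  rw [← hτ] at hgL hgR
  set ρ := max (r - w) 0 with hρ
  have h1 := (hup gR hgR (x + δ * u)).trans (hgR2 (fun i => kinkφ z (p i) (x + δ * u))
    ((r + w) ^ 2 - ‖x - z‖ ^ 2 - 2 * δ * (β - dot u z)) fun i hi => by
      obtain ⟨a1, a2⟩ := hR2 i hi
      rw [kinkφ_add, kinkφ_eq, dot_real_mul_left, dot_sub_right]
      have := pow_le_pow_left₀ (norm_nonneg _) a1 2
      nlinarith)
  have h2 := (hup gL hgL (x - δ * u)).trans (hgL2 (fun i => kinkφ z (p i) (x - δ * u))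
    ((r + w) ^ 2 - ‖x - z‖ ^ 2 + 2 * δ * (α - dot u z)) fun i hi => by
      obtain ⟨a1, a2⟩ := hL2 i hi
      rw [kinkφ_sub, kinkφ_eq, dot_real_mul_left, dot_sub_right]
      have := pow_le_pow_left₀ (norm_nonneg _) a1 2
      nlinarith)
  have h3 : ∑ i ∈ Dp, Γ i * kinkφ z (p i) (x + δ * u) + ∑ i ∈ Dp, Γ i * kinkφ z (p i) (x - δ * u)
      = 2 * ∑ i ∈ Dp, Γ i * kinkφ z (p i) x := by
    rw [← Finset.sum_add_distrib, Finset.mul_sum]
    refine Finset.sum_congr rfl fun i _ => ?_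
    rw [kinkφ_add, kinkφ_sub]; ring
  have h4 : ∑ i ∈ Dp, Γ i * kinkφ z (p i) x + μ * (ρ ^ 2 - ‖x - z‖ ^ 2) ≤ f x := by
    refine hlow gL hgL x _ fun g hg => ?_
    have a1 : ∑ i ∈ Dp, Γ i * (‖x - p i‖ ^ 2 - ρ ^ 2) ≤ ∑ i ∈ J, g i * (‖x - p i‖ ^ 2 - ρ ^ 2) := by
      refine le_trans (Finset.sum_le_sum fun i hi => ?_)
        (Finset.sum_le_sum_of_subset_of_nonneg hD fun i hi hi2 => ?_)
      · have b1 : ‖x - p i‖ ≤ ρ := (hD1 i hi).le.trans (le_max_left _ _)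
        have := pow_le_pow_left₀ (norm_nonneg _) b1 2
        have := (hg.1 i).2
        nlinarith
      · have b1 : ρ ≤ ‖x - p i‖ := max_le (hD2 i hi hi2) (norm_nonneg _)
        have := pow_le_pow_left₀ (le_max_right _ _) b1 2
        exact mul_nonneg (hg.1 i).1 (by linarith)
    have a2 : ∑ i ∈ J, g i * kinkφ z (p i) x =
        ∑ i ∈ J, g i * (‖x - p i‖ ^ 2 - ρ ^ 2) + τ * (ρ ^ 2 - ‖x - z‖ ^ 2) := by
      rw [← hg.2, Finset.sum_mul, ← Finset.sum_add_distrib]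
      refine Finset.sum_congr rfl fun i _ => ?_
      rw [kinkφ_eq]; ring
    have a3 : ∑ i ∈ Dp, Γ i * kinkφ z (p i) x =
        ∑ i ∈ Dp, Γ i * (‖x - p i‖ ^ 2 - ρ ^ 2) + (∑ i ∈ Dp, Γ i) * (ρ ^ 2 - ‖x - z‖ ^ 2) := by
      rw [Finset.sum_mul, ← Finset.sum_add_distrib]
      refine Finset.sum_congr rfl fun i _ => ?_
      rw [kinkφ_eq]; ring
    rw [a2, a3, hτ]
    nlinarith
  have h5 : (r + w) ^ 2 - ρ ^ 2 ≤ 4 * s * w := by
    rcases le_total (r - w) 0 with h | h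
    · rw [hρ, max_eq_right h]; nlinarith
    · rw [hρ, max_eq_left h]; nlinarith
  have h6 := mul_le_mul_of_nonneg_left h5 hμ.le
  nlinarith

/-- two quantiles far apart in one of the coordinate directions -/
theorem kink_dir {ι : Type*} (N : Finset ι) (p : ι → ℂ) (Γ : ι → ℝ) (hΓ : ∀ i, 0 ≤ Γ i)
    (μ m D : ℝ) (hμ : 0 < μ) (hμm : 4 * μ ≤ m)
    (hq : ∀ q : ℂ, m ≤ ∑ i ∈ N.filter (fun i => p i ∉ ball q D), Γ i) :
    ∃ u : ℂ, (u = 1 ∨ u = Complex.I) ∧ ∃ α β : ℝ, D / 4 ≤ β - α ∧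
      μ ≤ ∑ i ∈ N.filter (fun i => dot u (p i) ≤ α), Γ i ∧
      μ ≤ ∑ i ∈ N.filter (fun i => β ≤ dot u (p i)), Γ i := by
  have hW : μ ≤ ∑ i ∈ N, Γ i := by
    have h1 := hq 0
    have h2 : ∑ i ∈ N.filter (fun i => p i ∉ ball (0 : ℂ) D), Γ i ≤ ∑ i ∈ N, Γ i :=
      Finset.sum_le_sum_of_subset_of_nonneg (Finset.filter_subset _ _) fun i _ _ => hΓ i
    linarith
  obtain ⟨a1, ha1, ha1'⟩ := kink_quant N Γ (fun i => (p i).re) μ hμ hW
  obtain ⟨b1, hb1, hb1'⟩ := kink_quant N Γ (fun i => -(p i).re) μ hμ hW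
  obtain ⟨a2, ha2, ha2'⟩ := kink_quant N Γ (fun i => (p i).im) μ hμ hW
  obtain ⟨b2, hb2, hb2'⟩ := kink_quant N Γ (fun i => -(p i).im) μ hμ hW
  by_cases c1 : D / 4 ≤ -b1 - a1
  · refine ⟨1, Or.inl rfl, a1, -b1, c1, ?_, ?_⟩
    · simpa [dot] using ha1
    · simpa [dot, neg_le] using hb1
  by_cases c2 : D / 4 ≤ -b2 - a2
  · refine ⟨Complex.I, Or.inr rfl, a2, -b2, c2, ?_, ?_⟩
    · simpa [dot] using ha2
    · simpa [dot, neg_le] using hb2
  exfalso
  push Not at c1 c2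
  have h1 := hq ⟨a1, a2⟩
  have h2 : ∑ i ∈ N.filter (fun i => p i ∉ ball (⟨a1, a2⟩ : ℂ) D), Γ i ≤
      ∑ i ∈ N.filter (fun i => (p i).re < a1), Γ i + ∑ i ∈ N.filter (fun i => -(p i).re < b1), Γ i
      + ∑ i ∈ N.filter (fun i => (p i).im < a2), Γ i +
        ∑ i ∈ N.filter (fun i => -(p i).im < b2), Γ i := by
    simp only [Finset.sum_filter, ← Finset.sum_add_distrib]
    refine Finset.sum_le_sum fun i _ => ?_
    have h0 := hΓ i
    by_cases hb : p i ∈ ball (⟨a1, a2⟩ : ℂ) D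
    · simp only [hb, not_true_eq_false, if_false]
      positivity
    · simp only [hb, not_false_eq_true, if_true]
      by_contra hcon
      apply hb
      have e1 : a1 ≤ (p i).re := by
        by_contra h; push Not at h; apply hcon; simp only [h, if_true]; split_ifs <;> linarith
      have e2 : b1 ≤ -(p i).re := by
        by_contra h; push Not at h; apply hcon; simp only [h, if_true]; split_ifs <;> linarith
      have e3 : a2 ≤ (p i).im := by
        by_contra h; push Not at h; apply hcon; simp only [h, if_true]; split_ifs <;> linarith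
      have e4 : b2 ≤ -(p i).im := by
        by_contra h; push Not at h; apply hcon; simp only [h, if_true]; split_ifs <;> linarith
      rw [mem_ball, dist_eq_norm]
      refine (Complex.norm_le_abs_re_add_abs_im _).trans_lt ?_
      simp only [Complex.sub_re, Complex.sub_im]
      rw [abs_of_nonneg (by linarith), abs_of_nonneg (by linarith)]
      linarith
  linarith

theorem kink : KinkStmt := by
  refine ⟨8 * 2 * (2 * 28 * 32 ^ 2 * 24), by norm_num, ?_⟩
  intro d hΓ z s w D m T hw hws hD hm hT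
  have hs : 0 < s := hw.trans_le hws
  set J := d.I.filter (fun i => ‖d.pos i - z‖ ≤ 14 * s) with hJ
  have hf := fun k : ℕ => kink_f J d.pos d.Γ z (14 * s) (k * m / 8) (by positivity)
    (by positivity) (fun i hi => (Finset.mem_filter.mp hi).2)
  choose f hf1 hf2 hf3 hf4 using hf
  set δ := 32 * s * w / D with hδ
  have hδ0 : 0 ≤ δ := by positivity
  set K := ⌈8 * T / m⌉₊ + 2 with hK
  have hK1 : (K : ℝ) ≤ 8 * T / m + 3 := by
    have := Nat.ceil_lt_add_one (show 0 ≤ 8 * T / m by positivity)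
    rw [hK]; push_cast; linarith
  have hK2 : (K : ℝ) ≤ 8 * ((T + m) / m) := by
    have : 8 * ((T + m) / m) = 8 * T / m + 8 := by field_simp
    linarith
  set E : ℕ → ℂ → Set ℂ := fun k u =>
    {x ∈ ball z (12 * s) | s * w * m ≤ 2 * f k x - f k (x + δ * u) - f k (x - δ * u)} with hE
  set B : ℝ := 2 * 28 * 32 ^ 2 * 24 * ((T + m) / m) * (s ^ 3 * w / D ^ 2) with hB
  have hB0 : 0 ≤ B := by positivity
  have hEm : ∀ k ∈ Finset.range K, ∀ u, (u = 1 ∨ u = Complex.I) →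
      volume (E k u) ≤ ENNReal.ofReal B := by
    intro k hk u hu
    have hk1 : (k : ℝ) + 1 ≤ K := by exact_mod_cast Finset.mem_range.mp hk
    have hk2 : k * m / 8 ≤ T + m := by
      have h1 : (k : ℝ) ≤ 8 * T / m + 2 := by linarith
      have h2 := mul_le_mul_of_nonneg_right h1 hm.le
      have e : (8 * T / m + 2) * m = 8 * T + 2 * m := by field_simp
      linarith
    have hl : Lip (2 * (14 * s) * (T + m)) (f k) :=
      (hf1 k).mono (mul_le_mul_of_nonneg_left hk2 (by positivity))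
    refine (kink_meas2 (f k) _ δ (s * w * m) (12 * s) z u hu hδ0 (by positivity) (by positivity)
      hl (hf2 k)).trans (le_of_eq ?_)
    congr 1
    rw [hB, hδ]; field_simp; ring
  have hsub : {x ∈ ball z (12 * s) | ∃ r, 0 < r ∧ r ≤ s ∧ d.mΓ (ball x (r - w)) ≤ T ∧
        ∀ q : ℂ, m ≤ d.mΓ (Ann x r w \ ball q D)} ⊆
      ⋃ k ∈ Finset.range K, (E k 1 ∪ E k Complex.I) := by
    rintro x ⟨hx, r, hr, hrs, hT1, hq⟩
    have hxz : ‖x - z‖ < 12 * s := by rwa [mem_ball, dist_eq_norm] at hx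
    set Dp := d.I.filter (fun i => d.pos i ∈ ball x (r - w)) with hDp
    set N := d.I.filter (fun i => d.pos i ∈ Ann x r w) with hN
    set d0 := ∑ i ∈ Dp, d.Γ i with hd0
    have hd0T : d0 ≤ T := hT1
    have hd00 : 0 ≤ d0 := Finset.sum_nonneg fun i _ => hΓ i
    set k := ⌈8 * d0 / m⌉₊ + 1 with hk
    have hkK : k ∈ Finset.range K := by
      rw [Finset.mem_range, hk, hK]
      have : ⌈8 * d0 / m⌉₊ ≤ ⌈8 * T / m⌉₊ := Nat.ceil_mono (by gcongr)
      omega
    set μ := k * m / 8 - d0 with hμ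
    have e8 : 8 * d0 / m * m = 8 * d0 := by field_simp
    have hμ1 : m / 8 ≤ μ := by
      have h1 := Nat.le_ceil (8 * d0 / m)
      have h2 := mul_le_mul_of_nonneg_right h1 hm.le
      rw [hμ, hk]; push_cast; nlinarith
    have hμ2 : 4 * μ ≤ m := by
      have h1 := (Nat.ceil_lt_add_one (show 0 ≤ 8 * d0 / m by positivity)).le
      have h2 := mul_le_mul_of_nonneg_right h1 hm.le
      rw [hμ, hk]; push_cast; nlinarith
    have hμ0 : 0 < μ := by linarith
    obtain ⟨u, hu, α, β, hαβ, hα, hβ⟩ := kink_dir N d.pos d.Γ hΓ μ m D hμ0 hμ2 fun q => by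
      refine (hq q).trans (le_of_eq ?_)
      rw [hN, Finset.filter_filter]
      unfold Atoms.mΓ
      refine Finset.sum_congr ?_ fun _ _ => rfl
      ext i
      simp only [Finset.mem_filter, Set.mem_sdiff]
    have hNJ : ∀ i ∈ N, i ∈ J ∧ i ∉ Dp ∧ ‖x - d.pos i‖ ≤ r + w := by
      intro i hi
      obtain ⟨h1, h2⟩ := Finset.mem_filter.mp hi
      have h3 : |‖d.pos i - x‖ - r| ≤ w := by rw [← dist_eq_norm]; exact h2
      rw [abs_le] at h3
      refine ⟨Finset.mem_filter.mpr ⟨h1, ?_⟩, fun h => ?_, by rw [norm_sub_rev]; linarith [h3.2]⟩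
      · have := norm_sub_le_norm_sub_add_norm_sub (d.pos i) x z
        linarith [h3.2]
      · have := (Finset.mem_filter.mp h).2
        rw [mem_ball, dist_eq_norm] at this
        linarith [h3.1]
    have key := kink_key J Dp (N.filter (fun i => dot u (d.pos i) ≤ α))
      (N.filter (fun i => β ≤ dot u (d.pos i))) d.pos d.Γ hΓ z x u (f k) (k * m / 8) μ r w s δ α β
      hμ0 hδ0 hr hrs hw hws (hf3 k) (hf4 k)
      (fun i hi => by
        obtain ⟨h1, h2⟩ := Finset.mem_filter.mp hi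
        rw [mem_ball, dist_eq_norm] at h2
        have := norm_sub_le_norm_sub_add_norm_sub (d.pos i) x z
        exact Finset.mem_filter.mpr ⟨h1, by linarith⟩)
      (fun i hi => by
        have h2 := (Finset.mem_filter.mp hi).2
        rwa [mem_ball, dist_eq_norm, norm_sub_rev] at h2)
      (fun i hi hi2 => by
        by_contra h
        push Not at h
        exact hi2 (Finset.mem_filter.mpr ⟨(Finset.mem_filter.mp hi).1, by
          rwa [mem_ball, dist_eq_norm, norm_sub_rev]⟩))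
      (fun i hi => (hNJ i (Finset.mem_filter.mp hi).1).1)
      (fun i hi => (hNJ i (Finset.mem_filter.mp hi).1).2.1)
      (fun i hi => ⟨(hNJ i (Finset.mem_filter.mp hi).1).2.2, (Finset.mem_filter.mp hi).2⟩) hα
      (fun i hi => (hNJ i (Finset.mem_filter.mp hi).1).1)
      (fun i hi => (hNJ i (Finset.mem_filter.mp hi).1).2.1)
      (fun i hi => ⟨(hNJ i (Finset.mem_filter.mp hi).1).2.2, (Finset.mem_filter.mp hi).2⟩) hβ
      (by rw [hμ]; ring)
    have h1 : 2 * δ * μ * (D / 4) ≤ 2 * δ * μ * (β - α) :=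
      mul_le_mul_of_nonneg_left hαβ (by positivity)
    have h2 : 2 * δ * μ * (D / 4) = 16 * s * w * μ := by rw [hδ]; field_simp; ring
    have h3 : s * w * (m / 8) ≤ s * w * μ := mul_le_mul_of_nonneg_left hμ1 (by positivity)
    have hxE : x ∈ E k u := ⟨hx, by nlinarith⟩
    refine mem_iUnion₂.mpr ⟨k, hkK, ?_⟩
    rcases hu with rfl | rfl
    · exact Or.inl hxE
    · exact Or.inr hxE
  refine (measure_mono hsub).trans ((measure_biUnion_finset_le _ _).trans ?_)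
  have h1 : ∀ k ∈ Finset.range K, volume (E k 1 ∪ E k Complex.I) ≤ ENNReal.ofReal (2 * B) := by
    intro k hk
    refine (measure_union_le _ _).trans ?_
    rw [two_mul, ENNReal.ofReal_add hB0 hB0]
    exact add_le_add (hEm k hk _ (Or.inl rfl)) (hEm k hk _ (Or.inr rfl))
  refine (Finset.sum_le_sum h1).trans ?_
  rw [Finset.sum_const, Finset.card_range, nsmul_eq_mul, ← ENNReal.ofReal_natCast,
    ← ENNReal.ofReal_mul (Nat.cast_nonneg _)]
  refine ENNReal.ofReal_le_ofReal ?_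
  refine (mul_le_mul_of_nonneg_right hK2 (by positivity)).trans (le_of_eq ?_)
  rw [hB]; ring

end

end Crest.Agent.R112
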