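import Crest.Agent.R112.Basic

/-! Row 112: the lattice of cubes, the discounted cancellation `X`, and Lemma P. -/

set_option autoImplicit false

namespace Crest.Agent.R112

open MeasureTheory Set Metric Filter Topology
open scoped ENNReal NNReal Classical

noncomputable section

theorem Lat_meas (σ : ℝ) (a : ℤ × ℤ) : MeasurableSet (cube σ a) :=
  (measurableSet_le measurable_const Complex.measurable_re).inter
    ((measurableSet_lt Complex.measurable_re measurable_const).inter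
      ((measurableSet_le measurable_const Complex.measurable_im).inter
        (measurableSet_lt Complex.measurable_im measurable_const)))

theorem Lat_mem {σ : ℝ} (hσ : 0 < σ) (a : ℤ × ℤ) (y : ℂ) :
    y ∈ cube σ a ↔ (⌊y.re / σ⌋, ⌊y.im / σ⌋) = a := by
  rw [Prod.ext_iff, Int.floor_eq_iff, Int.floor_eq_iff, le_div_iff₀ hσ, le_div_iff₀ hσ,
    div_lt_iff₀ hσ, div_lt_iff₀ hσ, mul_comm _ σ, mul_comm _ σ, mul_comm _ σ, mul_comm _ σ,
    and_assoc]
  rfl

theorem Lat_disj {σ : ℝ} (hσ : 0 < σ) : Pairwise (Function.onFun Disjoint (cube σ)) :=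
  fun a c h => Set.disjoint_left.2 fun y hy hy' =>
    h (((Lat_mem hσ a y).1 hy).symm.trans ((Lat_mem hσ c y).1 hy'))

theorem Lat_union {K : ℕ} (hK : 1 ≤ K) (n : ℕ) (a : ℤ × ℤ) :
    cube ((K : ℝ) ^ (n + 1)) a = ⋃ c ∈ children K a, cube ((K : ℝ) ^ n) c := by
  have hK' : (0 : ℝ) < K := by exact_mod_cast hK
  ext y
  rw [Lat_mem (pow_pos hK' _)]
  simp only [mem_iUnion, Lat_mem (pow_pos hK' _), mem_children hK, exists_prop, exists_eq_right',
    up, pow_succ, ← div_div, Int.floor_div_natCast]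

theorem Lat_sub {K : ℕ} (hK : 1 ≤ K) (n : ℕ) {a c : ℤ × ℤ} (hc : c ∈ children K a) :
    cube ((K : ℝ) ^ n) c ⊆ cube ((K : ℝ) ^ (n + 1)) a := by
  rw [Lat_union hK]
  exact subset_biUnion_of_mem (u := fun c => cube ((K : ℝ) ^ n) c) (Finset.mem_coe.2 hc)

theorem Lat_split {E : Type} [NormedAddCommGroup E] [NormedSpace ℝ E] {K : ℕ} (hK : 1 ≤ K) (n : ℕ)
    (a : ℤ × ℤ) {f : ℂ → E} (hf : IntegrableOn f (cube ((K : ℝ) ^ (n + 1)) a)) :
    ∫ y in cube ((K : ℝ) ^ (n + 1)) a, f y =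
      ∑ c ∈ children K a, ∫ y in cube ((K : ℝ) ^ n) c, f y := by
  have hK' : (0 : ℝ) < K := by exact_mod_cast hK
  rw [Lat_union hK]
  exact integral_biUnion_finset _ (fun c _ => Lat_meas _ c)
    (fun c _ c' _ h => Lat_disj (pow_pos hK' n) h) fun c hc => hf.mono_set (Lat_sub hK n hc)

theorem Lat_Dch {K : ℕ} (hK : 1 ≤ K) {γ : ℂ → ℂ} (hγ : Integrable γ) (n : ℕ) (a : ℤ × ℤ) :
    0 ≤ Dch K (lat K γ) n a := by
  rw [Dch, sub_nonneg, lat, Lat_split hK n a hγ.integrableOn]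
  exact norm_sum_le _ _

theorem latt : LatStmt := by
  intro K hK γ hγ
  have hD := Lat_Dch hK hγ
  have hX : ∀ n a, 0 ≤ X K γ n a := fun n => by
    induction n with
    | zero => exact fun a => integral_nonneg fun _ => norm_nonneg _
    | succ n ih =>
      intro a
      exact add_nonneg (hD n a) (mul_nonneg (by norm_num) (Finset.sum_nonneg fun c _ => ih c))
  have h0 : ∑' a, ∫⁻ y in cube 1 a, ‖γ y‖ₑ ≤ ∫⁻ y, ‖γ y‖ₑ := by
    rw [← lintegral_iUnion (Lat_meas 1) (Lat_disj one_pos)]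
    exact setLIntegral_le_lintegral _ _
  have hS0 : ∑' a, ‖lat K γ 0 a‖ₑ ≤ ∫⁻ y, ‖γ y‖ₑ := by
    refine le_trans (ENNReal.tsum_le_tsum fun a => ?_) h0
    rw [lat, pow_zero]
    exact enorm_integral_le_lintegral_enorm _
  have hX0 : ∑' a, ENNReal.ofReal (X K γ 0 a) ≤ ∫⁻ y, ‖γ y‖ₑ := by
    refine le_trans (ENNReal.tsum_le_tsum fun a => ?_) h0
    exact (ofReal_integral_norm_eq_lintegral_enorm hγ.integrableOn).le
  refine ⟨fun n a => Lat_split hK n a hγ.integrableOn, hS0, hX, fun n => ?_, fun N => ?_⟩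
  · induction n with
    | zero =>
      intro a
      rw [pow_zero, pow_zero, one_mul]
      exact le_rfl
    | succ n ih =>
      intro a
      rw [Lat_split hK n a hγ.norm.integrableOn]
      refine (Finset.sum_le_sum fun c _ => ih c).trans ?_
      rw [← Finset.mul_sum, X, pow_succ]
      have := hD n a
      have h2 : (0 : ℝ) < 2 ^ n := by positivity
      nlinarith
  · have h1 : ∀ n, ∑' a, ENNReal.ofReal (Dch K (lat K γ) n a) + ∑' a, ‖lat K γ (n + 1) a‖ₑ =
        ∑' a, ‖lat K γ n a‖ₑ := fun n => by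
      rw [← ENNReal.tsum_add, ← tsum_children hK (fun a => ‖lat K γ n a‖ₑ)]
      refine tsum_congr fun a => ?_
      simp only [← ofReal_norm]
      rw [← ENNReal.ofReal_add (hD n a) (norm_nonneg _),
        ← ENNReal.ofReal_sum_of_nonneg fun c _ => norm_nonneg _, Dch, sub_add_cancel]
    have h2 : ∀ n, 2 * ∑' a, ENNReal.ofReal (X K γ (n + 1) a) =
        2 * ∑' a, ENNReal.ofReal (Dch K (lat K γ) n a) + ∑' a, ENNReal.ofReal (X K γ n a) :=
      fun n => by
        rw [← ENNReal.tsum_mul_left, ← ENNReal.tsum_mul_left,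
          ← tsum_children hK (fun a => ENNReal.ofReal (X K γ n a)), ← ENNReal.tsum_add]
        refine tsum_congr fun a => ?_
        rw [← ENNReal.ofReal_ofNat 2, ← ENNReal.ofReal_mul (by norm_num),
          ← ENNReal.ofReal_mul (by norm_num), ← ENNReal.ofReal_sum_of_nonneg fun c _ => hX n c,
          ← ENNReal.ofReal_add (mul_nonneg (by norm_num) (hD n a))
            (Finset.sum_nonneg fun c _ => hX n c), X]
        congr 1
        ring
    have h3 : ∑ n ∈ Finset.range (N + 1), ∑' a, ENNReal.ofReal (X K γ n a) +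
        ∑' a, ENNReal.ofReal (X K γ N a) + 2 * ∑' a, ‖lat K γ N a‖ₑ =
        2 * ∑' a, ENNReal.ofReal (X K γ 0 a) + 2 * ∑' a, ‖lat K γ 0 a‖ₑ := by
      induction N with
      | zero => simp [two_mul]
      | succ N ih =>
        rw [Finset.sum_range_succ _ (N + 1), add_assoc _ (∑' a, ENNReal.ofReal (X K γ (N + 1) a))
          (∑' a, ENNReal.ofReal (X K γ (N + 1) a)), ← two_mul, h2, ← ih, ← h1 N]
        ring
    calc _ ≤ _ := le_self_add.trans le_self_add
      _ = _ := h3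
      _ ≤ 2 * (∫⁻ y, ‖γ y‖ₑ) + 2 * ∫⁻ y, ‖γ y‖ₑ := by gcongr
      _ = _ := by ring

theorem Lat_dist {σ : ℝ} {a : ℤ × ℤ} {y y' : ℂ} (hy : y ∈ cube σ a) (hy' : y' ∈ cube σ a) :
    ‖y - y'‖ ≤ 2 * σ := by
  obtain ⟨h1, h2, h3, h4⟩ := hy
  obtain ⟨h5, h6, h7, h8⟩ := hy'
  refine (Complex.norm_le_abs_re_add_abs_im _).trans ?_
  have h9 : |(y - y').re| ≤ σ := by
    rw [Complex.sub_re, abs_le]
    constructor <;> linarith
  have h10 : |(y - y').im| ≤ σ := by
    rw [Complex.sub_im, abs_le]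
    constructor <;> linarith
  linarith

theorem Lat_intOn {γ : ℂ → ℂ} (hγ : Integrable γ) (w : ℂ) {τ : ℂ → ℝ} (hτ : Continuous τ)
    {σ : ℝ} {a : ℤ × ℤ} {c₀ c₁ : ℝ} (h : ∀ y ∈ cube σ a, c₀ ≤ τ y ∧ τ y ≤ c₁) :
    IntegrableOn (fun y => τ y * dot w (γ y)) (cube σ a) := by
  have h1 : Integrable fun y => dot w (γ y) := by
    simp only [dot_eq_inner]
    exact hγ.const_inner w
  refine Integrable.bdd_mul (c := |c₀| + |c₁|) h1.integrableOn hτ.aestronglyMeasurable
    ((ae_restrict_mem (Lat_meas σ a)).mono fun y hy => ?_)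
  rw [Real.norm_eq_abs, abs_le]
  constructor <;> linarith [(h y hy).1, (h y hy).2, neg_abs_le c₀, le_abs_self c₁, abs_nonneg c₀,
    abs_nonneg c₁]

theorem lemmaP (hL : LatStmt) : LemmaPStmt := by
  intro K hK γ hγ θ w Cw Λ τ hθ hw hw' hΛ hτ n
  have hK1 : 1 ≤ K := by omega
  have hK' : (4 : ℝ) ≤ K := by exact_mod_cast hK
  obtain ⟨hadd, -, hX, -, -⟩ := hL K hK1 γ hγ
  have hCw : 0 ≤ Cw := (norm_nonneg w).trans hw
  induction n with
  | zero =>
    intro a c₀ h
    simp only [pow_zero, mul_one] at h ⊢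
    have h1 : dot w (lat K γ 0 a) = ∫ y in cube 1 a, dot w (γ y) := by
      simp only [dot_eq_inner, lat, pow_zero]
      exact (integral_inner hγ.integrableOn w).symm
    have h2 : Integrable fun y => dot w (γ y) := by
      simp only [dot_eq_inner]
      exact hγ.const_inner w
    have h3 : ∫ y in cube 1 a, (c₀ * dot w (γ y) - 2 * Λ * Cw * ‖γ y‖) ≤
        ∫ y in cube 1 a, τ y * dot w (γ y) := by
      refine setIntegral_mono_on ((h2.const_mul _).sub (hγ.norm.const_mul _)).integrableOn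
        (Lat_intOn hγ w hτ.continuous h) (Lat_meas 1 a) fun y hy => ?_
      obtain ⟨h4, h5⟩ := h y hy
      have h6 : |dot w (γ y)| ≤ Cw * ‖γ y‖ :=
        (abs_dot_le _ _).trans (mul_le_mul_of_nonneg_right hw (norm_nonneg _))
      have h7 : 0 ≤ Cw * ‖γ y‖ := by positivity
      have h8 := mul_le_mul_of_nonneg_left (abs_le.1 h6).1 (sub_nonneg.2 h4)
      have h9 := mul_le_mul_of_nonneg_right (show τ y - c₀ ≤ 2 * Λ by linarith) h7
      nlinarith
    rw [integral_sub (h2.const_mul _).integrableOn (hγ.norm.const_mul _).integrableOn,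
      integral_const_mul, integral_const_mul, ← h1] at h3
    refine le_trans ?_ h3
    have h4 := aexc_nonneg hθ (lat K γ 0 a)
    have h5 := hX 0 a
    have h6 : 0 ≤ Λ * Cw := by positivity
    change _ ≤ _ - 2 * Λ * Cw * X K γ 0 a
    nlinarith [mul_nonneg h6 h4, mul_nonneg h6 h5]
  | succ n ih =>
    intro a c₀ h
    have hσ : (0 : ℝ) < (K : ℝ) ^ n := by positivity
    have h1 : ∀ c ∈ children K a, c₀ * dot w (lat K γ n c) -
        2 * Λ * (K : ℝ) ^ (n + 1) * Cw * aexc θ (lat K γ n c) -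
        8 * Λ * (K : ℝ) ^ n * Cw * (aexc θ (lat K γ n c) + X K γ n c) ≤
        ∫ y in cube ((K : ℝ) ^ n) c, τ y * dot w (γ y) := fun c hc => by
      have hsub := Lat_sub hK1 n hc
      have hy₀ : (⟨(K : ℝ) ^ n * c.1, (K : ℝ) ^ n * c.2⟩ : ℂ) ∈ cube ((K : ℝ) ^ n) c :=
        ⟨le_rfl, by simp only; nlinarith, le_rfl, by simp only; nlinarith⟩
      have hne : (τ '' cube ((K : ℝ) ^ n) c).Nonempty := ⟨_, _, hy₀, rfl⟩
      have hlow : c₀ ∈ lowerBounds (τ '' cube ((K : ℝ) ^ n) c) := by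
        rintro _ ⟨y, hy, rfl⟩
        exact (h y (hsub hy)).1
      set c₁ := sInf (τ '' cube ((K : ℝ) ^ n) c) with hc₁
      have h2 : c₀ ≤ c₁ := le_csInf hne hlow
      have h3 : ∀ y ∈ cube ((K : ℝ) ^ n) c, c₁ ≤ τ y := fun y hy => csInf_le ⟨_, hlow⟩ ⟨y, hy, rfl⟩
      have h4 : c₁ - c₀ ≤ 2 * Λ * (K : ℝ) ^ (n + 1) := by
        linarith [h3 _ hy₀, (h _ (hsub hy₀)).2]
      refine le_trans ?_ (ih c c₁ fun y hy => ⟨h3 y hy, ?_⟩)
      · have h5 := mul_le_mul_of_nonneg_left (hw' (lat K γ n c)) (sub_nonneg.2 h2)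
        have h6 := mul_le_mul_of_nonneg_right h4
          (mul_nonneg hCw (aexc_nonneg hθ (lat K γ n c)))
        nlinarith
      · rw [← sub_le_iff_le_add]
        refine le_csInf hne ?_
        rintro _ ⟨y', hy', rfl⟩
        have h5 := (hτ y y').trans (mul_le_mul_of_nonneg_left (Lat_dist hy hy') hΛ)
        rw [Real.norm_eq_abs, abs_le] at h5
        linarith [h5.2]
    rw [Lat_split hK1 n a (Lat_intOn hγ w hτ.continuous h)]
    refine le_trans ?_ (Finset.sum_le_sum h1)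
    have h2 : ∑ c ∈ children K a, aexc θ (lat K γ n c) =
        aexc θ (lat K γ (n + 1) a) + Dch K (lat K γ) n a := by
      rw [sum_aexc, ← hadd, aexc, Dch]
      ring
    rw [Finset.sum_sub_distrib, Finset.sum_sub_distrib, ← Finset.mul_sum, ← Finset.mul_sum,
      ← Finset.mul_sum, ← dot_sum_right, ← hadd, Finset.sum_add_distrib, h2, X, pow_succ]
    have h3 := aexc_nonneg hθ (lat K γ (n + 1) a)
    have h4 := Lat_Dch hK1 hγ n a
    have h5 : 0 ≤ ∑ c ∈ children K a, X K γ n c := Finset.sum_nonneg fun c _ => hX n c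
    have h6 : 0 ≤ Λ * (K : ℝ) ^ n * Cw := by positivity
    have h7 : 2 * K * (aexc θ (lat K γ (n + 1) a) + Dch K (lat K γ) n a) +
        8 * (aexc θ (lat K γ (n + 1) a) + Dch K (lat K γ) n a + ∑ c ∈ children K a, X K γ n c) ≤
        8 * K * (aexc θ (lat K γ (n + 1) a) +
          (Dch K (lat K γ) n a + 1 / 2 * ∑ c ∈ children K a, X K γ n c)) := by
      nlinarith
    nlinarith [mul_le_mul_of_nonneg_left h7 h6]

end

end Crest.Agent.R112
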