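import Crest.Agent.R112.LimitA

/-! Row 112: the weak gradient of the maximal function as a limit. -/

set_option autoImplicit false

namespace Crest.Agent.R112

open MeasureTheory Set Metric Filter Topology
open scoped ENNReal NNReal Classical

noncomputable section

theorem lim_avg_eq {f : ℂ → ℝ} (hf : Integrable f) (x : ℂ) {r : ℝ} (hr : 0 < r) :
    (∫⁻ y in ball x r, ‖f y‖ₑ) / volume (ball x r) = ENNReal.ofReal (avg (fun y => |f y|) x r) := by
  unfold avg
  rw [ENNReal.ofReal_div_of_pos (by positivity),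
    ← ofReal_integral_norm_eq_lintegral_enorm hf.integrableOn, Complex.volume_ball,
    ENNReal.ofReal_mul Real.pi_pos.le, ENNReal.ofReal_pow hr.le, mul_comm]
  congr 2
  rw [← NNReal.coe_real_pi, ENNReal.ofReal_coe_nnreal]

theorem lim_avg_nonneg (f : ℂ → ℝ) (x : ℂ) (r : ℝ) : 0 ≤ avg (fun y => |f y|) x r :=
  div_nonneg (integral_nonneg fun _ => abs_nonneg _) (by positivity)

theorem lim_usup_le {h : ℂ → ℝ} {a R : ℝ} (haR : a ≤ R) {x : ℂ} {B : ℝ}
    (hB : ∀ r ∈ Icc a R, avg h x r ≤ B) : Usup h (fun _ => a) R x ≤ B := by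
  refine csSup_le ((nonempty_Icc.mpr haR).image _) ?_
  rintro _ ⟨r, hr, rfl⟩
  exact hB r hr

section
variable (hU : UsupL1Stmt) {K : ℕ} (hK : 2 ≤ K) {h : ℂ → ℝ} (hh : Integrable h)
include hU hK hh

theorem lim_le_Wr {i l : ℤ} {x : ℂ} {r : ℝ} (h1 : (K : ℝ) ^ i ≤ r) (h2 : r ≤ (K : ℝ) ^ l) :
    avg h x r ≤ Wr h K i l x := by
  have hK0 : (0 : ℝ) < K := by exact_mod_cast (show 0 < K by omega)
  exact (hU.2.2 h hh _ _ (zpow_pos hK0 i) (h1.trans h2) x).1 r ⟨h1, h2⟩

theorem lim_Wr_mono {i l i' l' : ℤ} (h1 : i' ≤ i) (h2 : i ≤ l) (h3 : l ≤ l') (x : ℂ) :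
    Wr h K i l x ≤ Wr h K i' l' x := by
  have hK1 : (1 : ℝ) ≤ K := by exact_mod_cast (show 1 ≤ K by omega)
  refine lim_usup_le (zpow_le_zpow_right₀ hK1 h2) fun r hr => ?_
  exact lim_le_Wr hU hK hh ((zpow_le_zpow_right₀ hK1 h1).trans hr.1)
    (hr.2.trans (zpow_le_zpow_right₀ hK1 h3))

theorem lim_Wr_split {i m l : ℤ} (h1 : i ≤ m) (h2 : m ≤ l) (x : ℂ) :
    Wr h K i l x = max (Wr h K i m x) (Wr h K m l x) := by
  have hK1 : (1 : ℝ) ≤ K := by exact_mod_cast (show 1 ≤ K by omega)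
  exact (hU.2.2 h hh _ _ (zpow_pos (by linarith) i) (zpow_le_zpow_right₀ hK1 (h1.trans h2)) x).2.2
    _ ⟨zpow_le_zpow_right₀ hK1 h1, zpow_le_zpow_right₀ hK1 h2⟩

theorem lim_Wr_le {i l : ℤ} (h1 : i ≤ l) (x : ℂ) :
    Wr h K i l x ≤ (∫ y, |h y|) / (Real.pi * ((K : ℝ) ^ i) ^ 2) := by
  have hK1 : (1 : ℝ) ≤ K := by exact_mod_cast (show 1 ≤ K by omega)
  exact (le_abs_self _).trans
    (hU.2.2 h hh _ _ (zpow_pos (by linarith) i) (zpow_le_zpow_right₀ hK1 h1) x).2.1

end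

/-- the truncated maximal functions -/
def Wd (f : ℂ → ℝ) (K : ℕ) (i : ℕ) : ℂ → ℝ := Wr (fun y => |f y|) K (-((i : ℤ) + 1)) ((i : ℤ) + 1)

section
variable (hU : UsupL1Stmt) {K : ℕ} (hK : 2 ≤ K) {f : ℂ → ℝ} (hf : Integrable f)
include hU hK hf

theorem lim_Wd_mono (x : ℂ) : Monotone fun i => Wd f K i x := fun i j hij =>
  lim_Wr_mono hU hK hf.abs (by omega) (by omega) (by omega) x

theorem lim_Wd_nonneg (i : ℕ) (x : ℂ) : 0 ≤ Wd f K i x := by
  have hK1 : (1 : ℝ) ≤ K := by exact_mod_cast (show 1 ≤ K by omega)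
  exact (lim_avg_nonneg f x 1).trans (lim_le_Wr hU hK hf.abs
    (zpow_le_one_of_nonpos₀ hK1 (by omega)) (one_le_zpow₀ hK1 (by omega)))

theorem lim_cM_eq (x : ℂ) : cM f x = ⨆ i, ENNReal.ofReal (Wd f K i x) := by
  have hK1 : (1 : ℝ) < K := by exact_mod_cast (show 1 < K by omega)
  have hK0 : (0 : ℝ) < K := by linarith
  apply le_antisymm
  · refine iSup₂_le fun r hr => ?_
    obtain ⟨i, hi⟩ := pow_unbounded_of_one_lt (max r r⁻¹) hK1
    have hi' : (K : ℝ) ^ i ≤ (K : ℝ) ^ ((i : ℤ) + 1) := by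
      rw [← zpow_natCast]; exact zpow_le_zpow_right₀ hK1.le (by omega)
    rw [lim_avg_eq hf x hr]
    refine le_iSup_of_le i (ENNReal.ofReal_le_ofReal (lim_le_Wr hU hK hf.abs ?_ ?_))
    · rw [zpow_neg]
      exact inv_le_of_inv_le₀ hr (((le_max_right _ _).trans hi.le).trans hi')
    · exact ((le_max_left _ _).trans hi.le).trans hi'
  · refine iSup_le fun i => ?_
    by_cases ht : cM f x = ⊤
    · rw [ht]; exact le_top
    · refine ENNReal.ofReal_le_of_le_toReal (lim_usup_le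
        (zpow_le_zpow_right₀ hK1.le (by omega)) fun r hr => ?_)
      have hr0 : 0 < r := (zpow_pos hK0 _).trans_le hr.1
      rw [← ENNReal.ofReal_le_iff_le_toReal ht, ← lim_avg_eq hf x hr0]
      exact le_iSup₂_of_le (f := fun (r : ℝ) (_ : 0 < r) =>
        (∫⁻ y in ball x r, ‖f y‖ₑ) / volume (ball x r)) r hr0 le_rfl

/-- large radii are irrelevant on a ball -/
theorem lim_tail (k : ℕ) : ∃ i₀ : ℕ, ∀ i, i₀ ≤ i → ∀ x ∈ ball (0 : ℂ) k, ∀ l : ℤ, (i : ℤ) + 1 ≤ l →
    Wr (fun y => |f y|) K ((i : ℤ) + 1) l x ≤ Wd f K i x := by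
  have hK1 : (1 : ℝ) < K := by exact_mod_cast (show 1 < K by omega)
  have hK2 : (2 : ℝ) ≤ K := by exact_mod_cast hK
  have hK0 : (0 : ℝ) < K := by linarith
  have h1 : Tendsto (fun n : ℕ => ∫ y in ball (0 : ℂ) n, |f y|) atTop (𝓝 (∫ y, |f y|)) := by
    have := tendsto_setIntegral_of_monotone (μ := volume) (f := fun y => |f y|)
      (s := fun n : ℕ => ball (0 : ℂ) n) (fun _ => measurableSet_ball)
      (fun a b hab => ball_subset_ball (by exact_mod_cast hab)) hf.abs.integrableOn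
    rwa [iUnion_ball_nat, Measure.restrict_univ] at this
  obtain ⟨n, hn⟩ : ∃ n : ℕ, (∫ y, |f y|) / 4 ≤ ∫ y in ball (0 : ℂ) n, |f y| := by
    have h0 : (0 : ℝ) ≤ ∫ y, |f y| := integral_nonneg fun y => abs_nonneg _
    rcases h0.eq_or_lt with h | h
    · refine ⟨0, ?_⟩
      have h' : ∫ y, |f y| = 0 := h.symm
      rw [h']; simp
    · have h' : (0 : ℝ) < ∫ y, |f y| := h
      exact (h1.eventually (eventually_ge_nhds (by linarith))).exists
  obtain ⟨i₀, hi₀⟩ := pow_unbounded_of_one_lt ((n : ℝ) + k) hK1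
  refine ⟨i₀, fun i hi x hx l hl => ?_⟩
  have h2 : (n : ℝ) + k ≤ (K : ℝ) ^ i := hi₀.le.trans (pow_le_pow_right₀ hK1.le hi)
  have h3 : avg (fun y => |f y|) x ((K : ℝ) ^ i) ≤ Wd f K i x := by
    refine lim_le_Wr hU hK hf.abs ?_ ?_ <;> rw [← zpow_natCast] <;>
      exact zpow_le_zpow_right₀ hK1.le (by omega)
  refine (lim_Wr_le hU hK hf.abs hl x).trans (le_trans ?_ h3)
  simp only [abs_abs]
  have h4 : ∫ y in ball (0 : ℂ) n, |f y| ≤ ∫ y in ball x ((K : ℝ) ^ i), |f y| := by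
    refine setIntegral_mono_set hf.abs.integrableOn
      (Eventually.of_forall fun y => abs_nonneg _) (LE.le.eventuallyLE ?_)
    refine ball_subset_ball' ?_
    rw [mem_ball, dist_comm] at hx
    linarith
  unfold avg
  rw [zpow_add_one₀ hK0.ne', zpow_natCast, div_le_div_iff₀ (by positivity) (by positivity)]
  have h5 : 0 ≤ ∫ y in ball x ((K : ℝ) ^ i), |f y| := integral_nonneg fun y => abs_nonneg _
  have h6 : 0 < Real.pi * ((K : ℝ) ^ i) ^ 2 := by positivity
  have h7 : (4 : ℝ) ≤ (K : ℝ) ^ 2 := by nlinarith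
  calc (∫ y, |f y|) * (Real.pi * ((K : ℝ) ^ i) ^ 2)
      ≤ (4 * ∫ y in ball x ((K : ℝ) ^ i), |f y|) * (Real.pi * ((K : ℝ) ^ i) ^ 2) :=
        mul_le_mul_of_nonneg_right (by linarith) h6.le
    _ ≤ ((K : ℝ) ^ 2 * ∫ y in ball x ((K : ℝ) ^ i), |f y|) * (Real.pi * ((K : ℝ) ^ i) ^ 2) :=
        mul_le_mul_of_nonneg_right (mul_le_mul_of_nonneg_right h7 h5) h6.le
    _ = _ := by ring

end

theorem lim_cauchy (hU : UsupL1Stmt) {K : ℕ} {C : ℝ≥0} (hK : 2 ≤ K) (hB : BigAt K C)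
    (hS : SmallAt K) {f : ℂ → ℝ} {g : ℂ → ℂ} (hf : Integrable f) (hg : Integrable g)
    (hP : ApproxP (fun y => |f y|) g) (k : ℕ) (ε : ℝ≥0∞) (hε : 0 < ε) :
    ∃ i₀, ∀ i i', i₀ ≤ i → i ≤ i' →
      ∫⁻ x in ball (0 : ℂ) k, ‖grad (Wd f K i') x - grad (Wd f K i) x‖ₑ ≤ ε := by
  have hK0 : (0 : ℝ) < K := by exact_mod_cast (show 0 < K by omega)
  set h : ℂ → ℝ := fun y => |f y| with hh
  have hε3 : 0 < ε / 3 := ENNReal.div_pos hε.ne' (by norm_num)
  obtain ⟨m₀, hm₀⟩ := hS h g hf.abs hg hP (ε / 3) hε3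
  set m : ℤ := min m₀ 0 with hm
  have hLip := fun (i l : ℤ) (hil : i < l) => (hB h g hf.abs hg hP i l hil).1
  set Lm : ℝ := (∫ y, ‖g y‖) / (Real.pi * ((K : ℝ) ^ m) ^ 2) with hLm
  have hLm0 : 0 ≤ Lm := div_nonneg (integral_nonneg fun _ => norm_nonneg _) (by positivity)
  have hWc : ∀ i : ℕ, Continuous (Wd f K i) := fun i => (hLip _ _ (by omega)).continuous
  have hcM : Measurable (cM f) := by
    rw [show cM f = fun x => ⨆ i, ENNReal.ofReal (Wd f K i x) from funext (lim_cM_eq hU hK hf)]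
    exact Measurable.iSup fun i => (hWc i).measurable.ennreal_ofReal
  -- the exceptional sets
  set F : ℕ → Set ℂ := fun i =>
    {x | Wd f K i x = Wr h K m ((i : ℤ) + 1) x ∧ ENNReal.ofReal (Wd f K i x) < cM f x} with hF
  have hFm : ∀ i, MeasurableSet (F i) := fun i =>
    (measurableSet_eq_fun (hWc i).measurable (hLip _ _ (by omega)).continuous.measurable).inter
      (measurableSet_lt (hWc i).measurable.ennreal_ofReal hcM)
  obtain ⟨i₁, hi₁⟩ := lim_tail hU hK hf k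
  have hFev : ∀ x ∈ ball (0 : ℂ) k, ∀ᶠ i in atTop, x ∉ F i := by
    intro x hx
    by_contra hcon
    rw [not_eventually] at hcon
    simp only [not_not] at hcon
    obtain ⟨i, hi, hxi⟩ := frequently_atTop.mp hcon i₁
    refine absurd hxi.2 (not_lt.mpr ?_)
    rw [lim_cM_eq hU hK hf]
    refine iSup_le fun j => ENNReal.ofReal_le_ofReal ?_
    obtain ⟨j', hj', hxj⟩ := frequently_atTop.mp hcon (max i j)
    have hij : i ≤ j' := (le_max_left _ _).trans hj'
    refine (lim_Wd_mono hU hK hf x ((le_max_right _ _).trans hj')).trans ?_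
    show Wd f K j' x ≤ Wd f K i x
    rw [hxj.1, lim_Wr_split hU hK hf.abs (m := (i : ℤ) + 1) (by omega) (by omega)]
    exact max_le hxi.1.ge (hi₁ i hi x hx _ (by omega))
  have hdom : Tendsto (fun i => ∫⁻ x in ball (0 : ℂ) k,
      (F i).indicator (fun x => ENNReal.ofReal Lm + ‖g x‖ₑ) x) atTop (𝓝 0) := by
    have hgm : AEMeasurable (fun x => ENNReal.ofReal Lm + ‖g x‖ₑ)
        (volume.restrict (ball (0 : ℂ) k)) :=
      (aemeasurable_const.add hg.1.enorm).restrict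
    have := tendsto_lintegral_of_dominated_convergence' (μ := volume.restrict (ball (0 : ℂ) k))
      (F := fun i x => (F i).indicator (fun x => ENNReal.ofReal Lm + ‖g x‖ₑ) x) (f := fun _ => 0)
      (fun x => ENNReal.ofReal Lm + ‖g x‖ₑ) (fun i => hgm.indicator (hFm i))
      (fun i => Eventually.of_forall fun x => indicator_le_self _ _ x) ?_ ?_
    · simpa using this
    · rw [lintegral_add_left measurable_const, lintegral_const, Measure.restrict_apply_univ]
      exact ENNReal.add_ne_top.mpr ⟨ENNReal.mul_ne_top ENNReal.ofReal_ne_top measure_ball_lt_top.ne,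
        ((setLIntegral_le_lintegral _ _).trans_lt hg.2).ne⟩
    · refine (ae_restrict_iff' measurableSet_ball).mpr (Eventually.of_forall fun x hx => ?_)
      refine tendsto_const_nhds.congr' ?_
      filter_upwards [hFev x hx] with i hi
      rw [indicator_of_notMem hi]
  obtain ⟨i₂, hi₂⟩ := ENNReal.tendsto_atTop_zero.mp hdom (ε / 3) hε3
  refine ⟨max (max i₁ i₂) m.natAbs, fun i i' hi hii' => ?_⟩
  have hi1 : i₁ ≤ i := ((le_max_left _ _).trans (le_max_left _ _)).trans hi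
  have hi2 : i₂ ≤ i := ((le_max_right _ _).trans (le_max_left _ _)).trans hi
  have hi3 : m.natAbs ≤ i := (le_max_right _ _).trans hi
  have hm1 : m ≤ m₀ := min_le_left _ _
  have hm2 : m ≤ 0 := min_le_right _ _
  have hpt : ∀ᵐ x, x ∈ ball (0 : ℂ) k → ‖grad (Wd f K i') x - grad (Wd f K i) x‖ₑ ≤
      ‖grad (Wr h K (-((i' : ℤ) + 1)) m) x - g x‖ₑ + ‖grad (Wr h K (-((i : ℤ) + 1)) m) x - g x‖ₑ +
        (F i).indicator (fun x => ENNReal.ofReal Lm + ‖g x‖ₑ) x := by
    have e1 := limA_grad_eq (hLip (-((i : ℤ) + 1)) ((i : ℤ) + 1) (by omega))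
      (hLip (-((i' : ℤ) + 1)) ((i' : ℤ) + 1) (by omega))
      (fun x => lim_Wr_mono hU hK hf.abs (by omega) (by omega) (by omega) x)
    have e2 := limA_grad_eq (hLip (-((i' : ℤ) + 1)) m (by omega))
      (hLip (-((i' : ℤ) + 1)) ((i' : ℤ) + 1) (by omega))
      (fun x => lim_Wr_mono hU hK hf.abs (by omega) (by omega) (by omega) x)
    have e3 := limA_grad_eq (hLip (-((i : ℤ) + 1)) m (by omega))
      (hLip (-((i : ℤ) + 1)) ((i : ℤ) + 1) (by omega))
      (fun x => lim_Wr_mono hU hK hf.abs (by omega) (by omega) (by omega) x)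
    have e4 := limA_grad_eq (hLip m ((i : ℤ) + 1) (by omega))
      (hLip (-((i : ℤ) + 1)) ((i : ℤ) + 1) (by omega))
      (fun x => lim_Wr_mono hU hK hf.abs (by omega) (by omega) (by omega) x)
    filter_upwards [e1, e2, e3, e4] with x e1 e2 e3 e4 hx
    by_cases heq : Wd f K i x = Wd f K i' x
    · have : grad (Wd f K i) x = grad (Wd f K i') x := e1 heq
      rw [this, sub_self, enorm_zero]; exact zero_le
    have hlt : Wd f K i x < Wd f K i' x := lt_of_le_of_ne (lim_Wd_mono hU hK hf x hii') heq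
    have hV : Wr h K m ((i' : ℤ) + 1) x ≤ Wd f K i x := by
      rw [lim_Wr_split hU hK hf.abs (m := (i : ℤ) + 1) (by omega) (by omega)]
      exact max_le (lim_Wr_mono hU hK hf.abs (by omega) (by omega) (by omega) x)
        (hi₁ i hi1 x hx _ (by omega))
    have hs' := lim_Wr_split hU hK hf.abs (i := -((i' : ℤ) + 1)) (m := m) (l := (i' : ℤ) + 1)
      (by omega) (by omega) x
    have hs := lim_Wr_split hU hK hf.abs (i := -((i : ℤ) + 1)) (m := m) (l := (i : ℤ) + 1)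
      (by omega) (by omega) x
    have h1 : grad (Wr h K (-((i' : ℤ) + 1)) m) x = grad (Wd f K i') x := by
      refine e2 ?_
      rcases max_choice (Wr h K (-((i' : ℤ) + 1)) m x) (Wr h K m ((i' : ℤ) + 1) x) with h' | h'
      · rw [hs', h']
      · exfalso
        have : Wd f K i' x = Wr h K m ((i' : ℤ) + 1) x := hs'.trans h'
        linarith
    rw [h1]
    have htri : ‖grad (Wd f K i') x - grad (Wd f K i) x‖ₑ ≤
        ‖grad (Wd f K i') x - g x‖ₑ + ‖grad (Wd f K i) x - g x‖ₑ := by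
      have := enorm_sub_le (a := grad (Wd f K i') x - g x) (b := grad (Wd f K i) x - g x)
      rwa [sub_sub_sub_cancel_right] at this
    refine htri.trans ?_
    rw [add_assoc]
    refine add_le_add le_rfl ?_
    rcases max_choice (Wr h K (-((i : ℤ) + 1)) m x) (Wr h K m ((i : ℤ) + 1) x) with h' | h'
    · have h2 : grad (Wr h K (-((i : ℤ) + 1)) m) x = grad (Wd f K i) x := e3 (by rw [hs, h'])
      rw [h2]; exact le_self_add
    · have h3 : Wd f K i x = Wr h K m ((i : ℤ) + 1) x := hs.trans h'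
      have h2 : grad (Wr h K m ((i : ℤ) + 1)) x = grad (Wd f K i) x := e4 h3.symm
      have hxF : x ∈ F i := by
        refine ⟨h3, ?_⟩
        rw [lim_cM_eq hU hK hf]
        refine lt_of_lt_of_le ?_ (le_iSup (fun j => ENNReal.ofReal (Wd f K j x)) i')
        exact (ENNReal.ofReal_lt_ofReal_iff_of_nonneg (lim_Wd_nonneg hU hK hf i x)).mpr hlt
      rw [indicator_of_mem hxF]
      refine le_add_left (enorm_sub_le.trans (add_le_add ?_ le_rfl))
      rw [← h2, ← ofReal_norm]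
      exact ENNReal.ofReal_le_ofReal (limA_norm_grad_le hLm0 (hLip m _ (by omega)) x)
  have hgm : ∀ W : ℂ → ℝ, AEMeasurable (fun x => ‖grad W x - g x‖ₑ) volume := fun W =>
    ((measurable_grad W).aestronglyMeasurable.sub hg.1).enorm
  refine (lintegral_mono_ae ((ae_restrict_iff' measurableSet_ball).mpr hpt)).trans ?_
  simp only [add_assoc]
  rw [lintegral_add_left' (hgm _).restrict, lintegral_add_left' (hgm _).restrict, ← add_assoc]
  calc _ ≤ ε / 3 + ε / 3 + ε / 3 := by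
        refine add_le_add (add_le_add ?_ ?_) (hi₂ i hi2)
        · exact (setLIntegral_le_lintegral _ _).trans (hm₀ _ _ hm1 (by omega))
        · exact (setLIntegral_le_lintegral _ _).trans (hm₀ _ _ hm1 (by omega))
    _ = ε := ENNReal.add_thirds ε

theorem limit (hU : UsupL1Stmt) (K : ℕ) (C : ℝ≥0) (hK : 2 ≤ K) (hB : BigAt K C)
    (hS : SmallAt K) : LimitStmt := by
  refine ⟨C, fun f g hf hg hP => ?_⟩
  have hBi := fun i : ℕ =>
    hB (fun y => |f y|) g hf.abs hg hP (-((i : ℤ) + 1)) ((i : ℤ) + 1) (by omega)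
  have hWc : ∀ i : ℕ, Continuous (Wd f K i) := fun i => (hBi i).1.continuous
  have hWm : ∀ i : ℕ, Measurable fun x => ENNReal.ofReal (Wd f K i x) := fun i =>
    (hWc i).measurable.ennreal_ofReal
  have hcMeq : cM f = fun x => ⨆ i, ENNReal.ofReal (Wd f K i x) := funext (lim_cM_eq hU hK hf)
  have hcM : Measurable (cM f) := by rw [hcMeq]; exact Measurable.iSup hWm
  have hmono : Monotone fun i x => ENNReal.ofReal (Wd f K i x) := fun i j hij x =>
    ENNReal.ofReal_le_ofReal (lim_Wd_mono hU hK hf x hij)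
  have hstrip : ∀ S : ℝ, 0 < S → ∫⁻ x in {x : ℂ | |x.re| < S}, cM f x ≠ ⊤ := by
    intro S hS
    rw [hcMeq, lintegral_iSup hWm hmono]
    refine ne_top_of_le_ne_top ?_ (iSup_le fun i => (hBi i).2.2 S hS)
    exact ENNReal.mul_ne_top (ENNReal.mul_ne_top ENNReal.coe_ne_top ENNReal.ofReal_ne_top) hg.2.ne
  have hopen : ∀ S : ℝ, IsOpen {x : ℂ | |x.re| < S} := fun S =>
    isOpen_lt (by fun_prop) continuous_const
  have hfin : ∀ᵐ x, cM f x < ⊤ := by
    have : ∀ᵐ x, ∀ n : ℕ, x ∈ {x : ℂ | |x.re| < (n : ℝ) + 1} → cM f x < ⊤ := by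
      rw [ae_all_iff]
      intro n
      exact (ae_restrict_iff' (hopen _).measurableSet).mp
        (ae_lt_top hcM (hstrip _ (by positivity)))
    filter_upwards [this] with x hx
    obtain ⟨n, hn⟩ := exists_nat_gt |x.re|
    exact hx n (show |x.re| < (n : ℝ) + 1 by linarith)
  have hloc : LocallyIntegrable (fun x => (cM f x).toReal) := by
    intro x
    refine ⟨{y : ℂ | |y.re| < |x.re| + 1}, (hopen _).mem_nhds (by simp), ?_⟩
    exact integrable_toReal_of_lintegral_ne_top hcM.aemeasurable (hstrip _ (by positivity))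
  obtain ⟨G, hGm, hGc, hGb⟩ := limA_cauchy (fun i => grad (Wd f K i)) (fun i => measurable_grad _)
    (fun k ε hε => lim_cauchy hU hK hB hS hf hg hP k ε hε)
  have hCg : (C : ℝ≥0∞) * ∫⁻ y, ‖g y‖ₑ < ⊤ := ENNReal.mul_lt_top ENNReal.coe_lt_top hg.2
  have hGle := hGb _ fun i => (hBi i).2.1
  have hGi : Integrable G := ⟨hGm, hGle.trans_lt hCg⟩
  refine ⟨hfin, hloc, G, ?_, hGi, ?_⟩
  · refine limA_wg (Wd f K) (fun i => ⟨_, (hBi i).1⟩) _ hloc (fun i => ?_) ?_ G hGi
      (fun i => ⟨(measurable_grad _).aestronglyMeasurable, (hBi i).2.1.trans_lt hCg⟩) hGc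
    · filter_upwards [hfin] with x hx
      rw [abs_of_nonneg (lim_Wd_nonneg hU hK hf i x), ← ENNReal.ofReal_le_iff_le_toReal hx.ne,
        lim_cM_eq hU hK hf]
      exact le_iSup (fun j => ENNReal.ofReal (Wd f K j x)) i
    · filter_upwards [hfin] with x hx
      have h1 : Tendsto (fun i => ENNReal.ofReal (Wd f K i x)) atTop (𝓝 (cM f x)) := by
        rw [lim_cM_eq hU hK hf]
        exact tendsto_atTop_iSup fun i j hij => hmono hij x
      refine ((ENNReal.tendsto_toReal hx.ne).comp h1).congr fun i => ?_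
      exact ENNReal.toReal_ofReal (lim_Wd_nonneg hU hK hf i x)
  · rw [integral_norm_eq_lintegral_enorm hGm, integral_norm_eq_lintegral_enorm hg.1]
    have := ENNReal.toReal_mono hCg.ne hGle
    rwa [ENNReal.toReal_mul, ENNReal.coe_toReal] at this

end

end Crest.Agent.R112
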