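import Crest.Agent.R112.Basic

/-! Row 112: abstract lemmas for the passage to the limit. -/

set_option autoImplicit false

namespace Crest.Agent.R112

open MeasureTheory Set Metric Filter Topology
open scoped ENNReal NNReal Classical

noncomputable section

theorem limA_grad_eq {V V' : ℂ → ℝ} {L L' : ℝ} (hV : Lip L V) (hV' : Lip L' V')
    (hle : ∀ x, V x ≤ V' x) : ∀ᵐ x, V x = V' x → grad V x = grad V' x := by
  filter_upwards [hV.lipschitzWith.ae_differentiableAt (μ := volume),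
    hV'.lipschitzWith.ae_differentiableAt (μ := volume)] with x h1 h2 heq
  have hmin : IsLocalMin (fun y => V' y - V y) x :=
    Filter.Eventually.of_forall fun y => by have := hle y; simp only; linarith
  have hf := hmin.fderiv_eq_zero
  rw [fderiv_fun_sub h2 h1, sub_eq_zero] at hf
  unfold grad; rw [hf]

theorem limA_norm_grad_le {V : ℂ → ℝ} {L : ℝ} (hL : 0 ≤ L) (hV : Lip L V) (x : ℂ) :
    ‖grad V x‖ ≤ L := by
  rw [norm_grad_eq]
  have := norm_fderiv_le_of_lipschitz ℝ (x₀ := x) hV.lipschitzWith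
  rwa [Real.coe_toNNReal _ hL] at this

theorem limA_ibp {V : ℂ → ℝ} {L : ℝ} (hV : Lip L V) {φ : ℂ → ℝ} (hφ : ContDiff ℝ (⊤ : ℕ∞) φ)
    (hc : HasCompactSupport φ) (v : ℂ) :
    ∫ x, V x * fderiv ℝ φ x v = -∫ x, dot (grad V x) v * φ x := by
  have hφ1 : C1c φ := ⟨hφ.of_le (by exact_mod_cast le_top), hc⟩
  obtain ⟨D, hD⟩ := hφ1.exists_lipschitz
  have h := hV.lipschitzWith.integral_lineDeriv_mul_eq (μ := volume) hD hc v
  have h1 : ∫ x, lineDeriv ℝ V x v * φ x = ∫ x, dot (grad V x) v * φ x := by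
    refine integral_congr_ae ?_
    filter_upwards [hV.lipschitzWith.ae_differentiableAt (μ := volume)] with x hx
    rw [hx.lineDeriv_eq_fderiv, fderiv_eq_dot]
  have h2 : ∫ x, lineDeriv ℝ φ x (-v) * V x = -∫ x, V x * fderiv ℝ φ x v := by
    rw [← integral_neg]
    refine integral_congr_ae (Eventually.of_forall fun x => ?_)
    have hx : DifferentiableAt ℝ φ x := hφ1.1.differentiable one_ne_zero x
    simp only
    rw [hx.lineDeriv_eq_fderiv, map_neg]; ring
  rw [h1, h2] at h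
  rw [h, neg_neg]

/-- a sequence that is Cauchy in `L¹` of every ball converges -/
theorem limA_cauchy (G : ℕ → ℂ → ℂ) (hG : ∀ i, Measurable (G i))
    (hc : ∀ k : ℕ, ∀ ε : ℝ≥0∞, 0 < ε → ∃ i₀, ∀ i i', i₀ ≤ i → i ≤ i' →
      ∫⁻ x in ball (0 : ℂ) k, ‖G i' x - G i x‖ₑ ≤ ε) :
    ∃ G' : ℂ → ℂ, AEStronglyMeasurable G' volume ∧
      (∀ k : ℕ, Tendsto (fun i => ∫⁻ x in ball (0 : ℂ) k, ‖G i x - G' x‖ₑ) atTop (𝓝 0)) ∧
      ∀ B : ℝ≥0∞, (∀ i, ∫⁻ x, ‖G i x‖ₑ ≤ B) → ∫⁻ x, ‖G' x‖ₑ ≤ B := by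
  have hpos : ∀ k : ℕ, (0 : ℝ≥0∞) < 2⁻¹ ^ k := fun k =>
    ENNReal.pow_pos (ENNReal.inv_pos.mpr (by norm_num)) k
  choose N hN using fun k : ℕ => hc k (2⁻¹ ^ k) (hpos k)
  let φ : ℕ → ℕ := fun k => k + ∑ j ∈ Finset.range (k + 1), N j
  have hφ1 : ∀ k, N k ≤ φ k := fun k =>
    le_add_left (Finset.single_le_sum (f := N) (fun _ _ => Nat.zero_le _)
      (Finset.self_mem_range_succ k))
  have hφ2 : ∀ k, φ k ≤ φ (k + 1) := fun k => by
    simp only [φ, Finset.sum_range_succ (n := k + 1)]; omega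
  have hφ3 : Tendsto φ atTop atTop := tendsto_atTop_mono (fun k => Nat.le_add_right _ _) tendsto_id
  have hmeas : ∀ k : ℕ, Measurable fun x =>
      (ball (0 : ℂ) k).indicator (fun x => ‖G (φ (k + 1)) x - G (φ k) x‖ₑ) x := fun k =>
    ((hG _).sub (hG _)).enorm.indicator measurableSet_ball
  have hfin : ∫⁻ x, ∑' k : ℕ,
      (ball (0 : ℂ) k).indicator (fun x => ‖G (φ (k + 1)) x - G (φ k) x‖ₑ) x ≠ ⊤ := by
    rw [lintegral_tsum fun k => (hmeas k).aemeasurable]
    refine ne_top_of_le_ne_top (b := ∑' k : ℕ, (2⁻¹ : ℝ≥0∞) ^ k) ?_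
      (ENNReal.tsum_le_tsum fun k => ?_)
    · rw [ENNReal.tsum_geometric]; simp
    · rw [lintegral_indicator measurableSet_ball]
      exact hN k _ _ (hφ1 k) (hφ2 k)
  have hae := ae_lt_top' (AEMeasurable.tsum fun k => (hmeas k).aemeasurable) hfin
  have hconv : ∀ᵐ x, Tendsto (fun k => G (φ k) x) atTop (𝓝 (limUnder atTop fun k => G (φ k) x)) := by
    filter_upwards [hae] with x hx
    refine tendsto_nhds_limUnder (cauchySeq_tendsto_of_complete ?_)
    obtain ⟨j, hj⟩ := exists_nat_gt ‖x‖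
    rw [← cauchySeq_shift j]
    refine cauchySeq_of_edist_le_of_tsum_ne_top (fun k => (ball (0 : ℂ) ((k + j : ℕ) : ℝ)).indicator
      (fun x => ‖G (φ (k + j + 1)) x - G (φ (k + j)) x‖ₑ) x) (fun k => ?_) ?_
    · rw [indicator_of_mem]
      · rw [edist_comm, edist_eq_enorm_sub, Nat.succ_eq_add_one, Nat.add_right_comm k 1 j]
      · rw [mem_ball_zero_iff]
        exact hj.trans_le (by exact_mod_cast Nat.le_add_left j k)
    · refine ne_top_of_le_ne_top hx.ne ?_
      exact ENNReal.tsum_comp_le_tsum_of_injective (add_left_injective j)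
        (fun k : ℕ => (ball (0 : ℂ) k).indicator (fun x => ‖G (φ (k + 1)) x - G (φ k) x‖ₑ) x)
  set G' : ℂ → ℂ := fun x => limUnder atTop fun k => G (φ k) x with hG'
  refine ⟨G', aestronglyMeasurable_of_tendsto_ae atTop
    (fun k => (hG (φ k)).aestronglyMeasurable) hconv, fun k => ?_, fun B hB => ?_⟩
  · rw [ENNReal.tendsto_atTop_zero]
    intro ε hε
    obtain ⟨i₀, hi₀⟩ := hc k ε hε
    refine ⟨i₀, fun i hi => ?_⟩
    have h1 : ∫⁻ x in ball (0 : ℂ) k, ‖G i x - G' x‖ₑ =
        ∫⁻ x in ball (0 : ℂ) k, liminf (fun n => ‖G (φ n) x - G i x‖ₑ) atTop := by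
      refine lintegral_congr_ae (ae_restrict_of_ae ?_)
      filter_upwards [hconv] with x hx
      rw [((hx.sub_const (G i x)).enorm).liminf_eq, enorm_sub_rev]
    rw [h1]
    refine (lintegral_liminf_le fun n => ((hG _).sub (hG _)).enorm).trans ?_
    refine liminf_le_of_frequently_le' (Eventually.frequently ?_)
    filter_upwards [hφ3.eventually_ge_atTop i] with n hn using hi₀ i _ hi hn
  · have h1 : ∫⁻ x, ‖G' x‖ₑ = ∫⁻ x, liminf (fun n => ‖G (φ n) x‖ₑ) atTop := by
      refine lintegral_congr_ae ?_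
      filter_upwards [hconv] with x hx
      rw [hx.enorm.liminf_eq]
    rw [h1]
    refine (lintegral_liminf_le fun n => (hG _).enorm).trans ?_
    exact liminf_le_of_frequently_le' (Eventually.frequently (Eventually.of_forall fun n => hB _))

/-- passage to the limit in the definition of the weak gradient -/
theorem limA_wg (W : ℕ → ℂ → ℝ) (hW : ∀ i, ∃ L, Lip L (W i)) (M : ℂ → ℝ)
    (hM : LocallyIntegrable M volume) (hb : ∀ i, ∀ᵐ x, |W i x| ≤ M x)
    (ht : ∀ᵐ x, Tendsto (fun i => W i x) atTop (𝓝 (M x))) (G : ℂ → ℂ) (hG : Integrable G)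
    (hGi : ∀ i, Integrable (grad (W i)))
    (hc : ∀ k : ℕ, Tendsto (fun i => ∫⁻ x in ball (0 : ℂ) k, ‖grad (W i) x - G x‖ₑ) atTop (𝓝 0)) :
    WG M G := by
  refine ⟨hM, hG.locallyIntegrable, fun φ hφ hcs v => ?_⟩
  have hφ1 : C1c φ := ⟨hφ.of_le (by exact_mod_cast le_top), hcs⟩
  have hψc : Continuous fun x => fderiv ℝ φ x v :=
    (hφ1.1.continuous_fderiv one_ne_zero).clm_apply continuous_const
  have hψs : HasCompactSupport fun x => fderiv ℝ φ x v := hcs.fderiv_apply ℝ v
  have h1 : Tendsto (fun i => ∫ x, W i x * fderiv ℝ φ x v) atTop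
      (𝓝 (∫ x, M x * fderiv ℝ φ x v)) := by
    refine tendsto_integral_of_dominated_convergence (fun x => M x * |fderiv ℝ φ x v|) ?_ ?_ ?_ ?_
    · intro i
      obtain ⟨L, hL⟩ := hW i
      exact (hL.continuous.mul hψc).aestronglyMeasurable
    · exact hM.integrable_smul_right_of_hasCompactSupport hψc.abs hψs.abs
    · intro i
      filter_upwards [hb i] with x hx
      rw [Real.norm_eq_abs, abs_mul]
      exact mul_le_mul_of_nonneg_right hx (abs_nonneg _)
    · filter_upwards [ht] with x hx using hx.mul_const _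
  obtain ⟨A, hA⟩ := hcs.exists_bound_of_continuous hφ1.continuous
  obtain ⟨ρ, hρ⟩ := hcs.isCompact.isBounded.subset_ball (0 : ℂ)
  obtain ⟨k, hk⟩ := exists_nat_ge ρ
  have hint : ∀ F : ℂ → ℂ, Integrable F → Integrable fun x => dot (F x) v * φ x := by
    intro F hF
    refine Integrable.mono' (hF.norm.mul_const (‖v‖ * A)) ?_ (Eventually.of_forall fun x => ?_)
    · exact ((continuous_dot.comp_aestronglyMeasurable
        (hF.1.prodMk aestronglyMeasurable_const))).mul hφ1.continuous.aestronglyMeasurable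
    · rw [norm_mul, ← mul_assoc]
      exact mul_le_mul (abs_dot_le _ _) (hA x) (norm_nonneg _) (by positivity)
  have h2 : Tendsto (fun i => ∫ x, dot (grad (W i) x) v * φ x) atTop
      (𝓝 (∫ x, dot (G x) v * φ x)) := by
    refine tendsto_integral_of_L1 _ (hint G hG).1 (Eventually.of_forall fun i => hint _ (hGi i)) ?_
    have h3 := ENNReal.Tendsto.const_mul (a := ENNReal.ofReal (‖v‖ * A)) (hc k)
      (Or.inr ENNReal.ofReal_ne_top)
    rw [mul_zero] at h3
    refine tendsto_of_tendsto_of_tendsto_of_le_of_le tendsto_const_nhds h3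
      (fun _ => zero_le) fun i => ?_
    simp only
    rw [← lintegral_const_mul' _ _ ENNReal.ofReal_ne_top, ← lintegral_indicator measurableSet_ball]
    refine lintegral_mono fun x => ?_
    by_cases hx : x ∈ ball (0 : ℂ) k
    · rw [indicator_of_mem hx, ← sub_mul, ← dot_sub_left, ← ofReal_norm,
        ← ofReal_norm, ← ENNReal.ofReal_mul
          (mul_nonneg (norm_nonneg _) ((norm_nonneg _).trans (hA 0)))]
      refine ENNReal.ofReal_le_ofReal ?_
      rw [norm_mul]
      have := mul_le_mul (abs_dot_le (grad (W i) x - G x) v) (hA x) (norm_nonneg _) (by positivity)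
      rw [Real.norm_eq_abs]; linarith
    · have : φ x = 0 := by
        by_contra h
        exact hx (ball_subset_ball hk (hρ (subset_tsupport _ h)))
      simp [this]
  have h4 : (fun i => ∫ x, W i x * fderiv ℝ φ x v) =
      fun i => -∫ x, dot (grad (W i) x) v * φ x := by
    funext i
    obtain ⟨L, hL⟩ := hW i
    exact limA_ibp hL hφ hcs v
  rw [h4] at h1
  exact tendsto_nhds_unique h1 h2.neg

end

end Crest.Agent.R112
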