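import Crest.Agent.R112.Basic

/-! Row 112: the Poincaré inequality on discs and the localised core estimate. -/

set_option autoImplicit false

namespace Crest.Agent.R112

open MeasureTheory Set Metric Filter Topology
open scoped ENNReal NNReal Classical

noncomputable section

namespace Local

theorem scale (g : ℂ → ℝ≥0∞) (hg : Measurable g) (a : ℂ) (t : ℝ) (ht : 1 / 2 ≤ t) :
    ∫⁻ y, g (a + t • y) ≤ 4 * ∫⁻ y, g y := by
  have ht0 : t ≠ 0 := by intro h; rw [h] at ht; norm_num at ht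
  have hm : Measurable (fun w : ℂ => g (a + w)) := hg.comp (measurable_const.add measurable_id)
  have h1 : ∫⁻ y, g (a + t • y) = ∫⁻ w, g (a + w) ∂(Measure.map (fun y : ℂ => t • y) volume) := by
    rw [lintegral_map hm (measurable_const_smul t)]
  rw [h1, Measure.map_addHaar_smul volume ht0, lintegral_smul_measure,
    lintegral_add_left_eq_self (fun w => g w) a, smul_eq_mul]
  refine mul_le_mul' ?_ le_rfl
  have h2 : |(t ^ Module.finrank ℝ ℂ)⁻¹| ≤ 4 := by
    rw [Complex.finrank_real_complex, abs_of_nonneg (by positivity)]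
    rw [inv_le_comm₀ (by positivity) (by norm_num)]
    nlinarith
  calc ENNReal.ofReal |(t ^ Module.finrank ℝ ℂ)⁻¹| ≤ ENNReal.ofReal 4 :=
        ENNReal.ofReal_le_ofReal h2
    _ = 4 := by simp

theorem seg (b : ℂ → ℝ) (hb : ContDiff ℝ 1 b) (z : ℂ) (ρ : ℝ) (x y : ℂ) (hx : x ∈ ball z ρ)
    (hy : y ∈ ball z ρ) :
    ‖b y - b x‖ₑ ≤ ENNReal.ofReal (2 * ρ) *
      ∫⁻ t in Icc (0 : ℝ) 1, (ball z ρ).indicator (fun w => ‖grad b w‖ₑ) ((1 - t) • x + t • y) := by
  set f : ℝ → ℝ := fun t => b ((1 - t) • x + t • y) with hf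
  have hp : ContDiff ℝ 1 (fun t : ℝ => (1 - t) • x + t • y) := by fun_prop
  have hfc : ContDiff ℝ 1 f := hb.comp hp
  have h0 : f 0 = b x := by simp [hf]
  have h1 : f 1 = b y := by simp [hf]
  have h := enorm_sub_le_lintegral_deriv_of_contDiffOn_Icc (f := f) (a := 0) (b := 1)
    hfc.contDiffOn zero_le_one
  rw [h0, h1] at h
  refine h.trans ?_
  rw [← lintegral_const_mul' _ _ ENNReal.ofReal_ne_top]
  refine setLIntegral_mono' measurableSet_Icc fun t ht => ?_
  have hmem : (1 - t) • x + t • y ∈ ball z ρ :=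
    (convex_ball z ρ) hx hy (by linarith [ht.2]) ht.1 (by ring)
  rw [indicator_of_mem hmem]
  have hd : HasDerivAt (fun t : ℝ => (1 - t) • x + t • y) (y - x) t := by
    have h2 : HasDerivAt (fun t : ℝ => 1 - t) (-1) t := by
      simpa using (hasDerivAt_id t).const_sub 1
    have h3 := (h2.smul_const x).add ((hasDerivAt_id t).smul_const y)
    have e : y - x = (-1 : ℝ) • x + (1 : ℝ) • y := by simp; ring
    rw [e]; exact h3
  have hd2 : HasDerivAt f (fderiv ℝ b ((1 - t) • x + t • y) (y - x)) t :=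
    ((hb.differentiable one_ne_zero _).hasFDerivAt).comp_hasDerivAt t hd
  rw [hd2.deriv, fderiv_eq_dot, ← ofReal_norm_eq_enorm, ← ofReal_norm_eq_enorm,
    ← ENNReal.ofReal_mul' (norm_nonneg _)]
  refine ENNReal.ofReal_le_ofReal ?_
  have h4 : ‖y - x‖ ≤ 2 * ρ := by
    have := dist_triangle_right y x z
    rw [mem_ball] at hx hy
    rw [← dist_eq_norm]; linarith
  rw [Real.norm_eq_abs]
  refine (abs_dot_le _ _).trans ?_
  rw [mul_comm]
  exact mul_le_mul_of_nonneg_right h4 (norm_nonneg _)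

theorem dbl (g : ℂ → ℝ≥0∞) (hg : Measurable g) (B : Set ℂ) (t : ℝ) :
    ∫⁻ x in B, ∫⁻ y in B, g ((1 - t) • x + t • y) ≤ 4 * (∫⁻ y, g y) * volume B := by
  rcases le_total (1 / 2) t with ht | ht
  · calc ∫⁻ x in B, ∫⁻ y in B, g ((1 - t) • x + t • y)
        ≤ ∫⁻ x in B, 4 * (∫⁻ y, g y) :=
          lintegral_mono fun x => (setLIntegral_le_lintegral _ _).trans (scale g hg _ t ht)
      _ = _ := by rw [setLIntegral_const]
  · have hm : Measurable (Function.uncurry fun x y : ℂ => g ((1 - t) • x + t • y)) :=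
      hg.comp (by fun_prop)
    rw [lintegral_lintegral_swap hm.aemeasurable]
    calc ∫⁻ y in B, ∫⁻ x in B, g ((1 - t) • x + t • y)
        ≤ ∫⁻ y in B, 4 * (∫⁻ y, g y) := by
          refine lintegral_mono fun y => (setLIntegral_le_lintegral _ _).trans ?_
          simp_rw [add_comm ((1 - t) • _) (t • y)]
          exact scale g hg _ (1 - t) (by linarith)
      _ = _ := by rw [setLIntegral_const]

def dotL (c : ℂ) : ℂ →L[ℝ] ℝ := c.re • Complex.reCLM + c.im • Complex.imCLM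

theorem dotL_apply (c v : ℂ) : dotL c v = dot c v := by simp [dotL, dot]

theorem hasFDerivAt_aff (c z x : ℂ) : HasFDerivAt (fun y => dot c (y - z)) (dotL c) x := by
  have h := (dotL c).hasFDerivAt (x := x - z) |>.comp x ((hasFDerivAt_id x).sub_const z)
  have e : (fun y => dot c (y - z)) = (dotL c) ∘ (fun y => id y - z) := by
    funext y; simp [dotL_apply]
  rw [e]; simpa using h

theorem contDiff_aff (c z : ℂ) : ContDiff ℝ 1 (fun y => dot c (y - z)) := by
  have e : (fun y => dot c (y - z)) = fun y => dotL c (y - z) := by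
    funext y; simp [dotL_apply]
  rw [e]; fun_prop

theorem grad_sub_aff (W : ℂ → ℝ) (x : ℂ) (hW : DifferentiableAt ℝ W x) (c z : ℂ) (c₀ : ℝ) :
    grad (fun y => W y - dot c (y - z) - c₀) x = grad W x - c := by
  have h : HasFDerivAt (fun y => W y - dot c (y - z) - c₀) (fderiv ℝ W x - dotL c) x :=
    (hW.hasFDerivAt.sub (hasFDerivAt_aff c z x)).sub_const c₀
  unfold grad
  rw [h.fderiv]
  apply Complex.ext <;> simp [dotL_apply, dot]

theorem integral_dot_ball (c x : ℂ) (r : ℝ) : ∫ y in ball x r, dot c (y - x) = 0 := by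
  set F : ℂ → ℝ := (ball x r).indicator (fun y => dot c (y - x)) with hF
  have h1 : ∫ y in ball x r, dot c (y - x) = ∫ y, F y :=
    (integral_indicator measurableSet_ball).symm
  have h2 : ∫ y, F (2 * x - y) = ∫ y, F y := integral_sub_left_eq_self F volume (2 * x)
  have h3 : ∀ y, F (2 * x - y) = -F y := by
    intro y
    have e : 2 * x - y - x = -(y - x) := by ring
    have hm : 2 * x - y ∈ ball x r ↔ y ∈ ball x r := by
      rw [mem_ball, mem_ball, dist_eq_norm, dist_eq_norm, e, norm_neg]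
    by_cases hy : y ∈ ball x r
    · rw [hF, indicator_of_mem hy, indicator_of_mem (hm.mpr hy), e, dot_neg_right]
    · rw [hF, indicator_of_notMem hy, indicator_of_notMem (fun h => hy (hm.mp h)), neg_zero]
  simp_rw [h3, integral_neg] at h2
  rw [h1]; linarith

theorem avg_aff (b f : ℂ → ℝ) (hb : Continuous b) (c z x : ℂ) (c₀ r : ℝ) (hr : 0 < r)
    (hf : ∀ y ∈ ball x r, f y = b y - dot c (y - z) - c₀) :
    avg f x r = avg b x r - dot c (x - z) - c₀ := by
  have hi : ∀ u : ℂ → ℝ, Continuous u → IntegrableOn u (ball x r) := fun u hu =>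
    (hu.continuousOn.integrableOn_compact (isCompact_closedBall x r)).mono_set
      ball_subset_closedBall
  have h1 : ∫ y in ball x r, f y =
      ∫ y in ball x r, (b y - dot c (y - x) - (dot c (x - z) + c₀)) := by
    refine setIntegral_congr_fun measurableSet_ball fun y hy => ?_
    have e : y - z = (y - x) + (x - z) := by ring
    rw [hf y hy, e, dot_add_right]; ring
  have hv : (volume : Measure ℂ).real (ball x r) = Real.pi * r ^ 2 := by
    rw [Measure.real, Complex.volume_ball]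
    simp [hr.le]; ring
  have h2 : IntegrableOn (fun y => dot c (y - x)) (ball x r) := hi _ (by fun_prop)
  have h3 : IntegrableOn (fun y => b y - dot c (y - x)) (ball x r) := hi _ (by fun_prop)
  unfold avg
  rw [h1, integral_sub h3 (hi _ continuous_const), integral_sub (hi _ hb) h2, integral_dot_ball,
    setIntegral_const, hv, smul_eq_mul]
  have : Real.pi * r ^ 2 ≠ 0 := by positivity
  field_simp
  ring

theorem cutoff : ∃ L : ℝ, 0 ≤ L ∧ ∀ (z : ℂ) (ρ : ℝ), 0 < ρ → ∃ χ : ℂ → ℝ, C1c χ ∧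
    (∀ y ∈ ball z (2 * ρ), χ y = 1) ∧ (∀ y, |χ y| ≤ 1) ∧
    (∀ y, 7 / 2 * ρ ≤ dist y z → χ y = 0) ∧ ∀ y, ‖fderiv ℝ χ y‖ ≤ L / ρ := by
  let χ₁ : ContDiffBump (0 : ℂ) := ⟨5 / 2, 7 / 2, by norm_num, by norm_num⟩
  have h1 : C1c χ₁ := ⟨χ₁.contDiff, χ₁.hasCompactSupport⟩
  obtain ⟨L, hL0, hL⟩ := h1.exists_bound
  refine ⟨L, hL0, fun z ρ hρ => ?_⟩
  have hn : ∀ y : ℂ, dist (ρ⁻¹ • (y - z)) 0 = dist y z / ρ := by
    intro y
    rw [dist_zero_right, norm_smul, dist_eq_norm, norm_inv, Real.norm_eq_abs, abs_of_pos hρ]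
    ring
  have hz : ∀ y, 7 / 2 * ρ ≤ dist y z → χ₁ (ρ⁻¹ • (y - z)) = 0 := by
    intro y hy
    apply χ₁.zero_of_le_dist
    rw [hn, le_div_iff₀ hρ]; exact hy
  refine ⟨fun y => χ₁ (ρ⁻¹ • (y - z)), ⟨?_, ?_⟩, ?_, ?_, hz, ?_⟩
  · exact h1.1.comp (by fun_prop)
  · refine HasCompactSupport.intro (isCompact_closedBall z (7 / 2 * ρ)) fun y hy => hz y ?_
    rw [mem_closedBall, not_le] at hy; exact hy.le
  · intro y hy
    apply χ₁.one_of_mem_closedBall
    rw [mem_closedBall, hn, div_le_iff₀ hρ]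
    rw [mem_ball] at hy
    change dist y z ≤ 5 / 2 * ρ
    linarith
  · intro y
    rw [abs_of_nonneg χ₁.nonneg]; exact χ₁.le_one
  · intro y
    have hd : HasFDerivAt (fun y : ℂ => ρ⁻¹ • (y - z)) (ρ⁻¹ • ContinuousLinearMap.id ℝ ℂ) y :=
      ((hasFDerivAt_id y).sub_const z).const_smul ρ⁻¹
    have hd2 := (h1.1.differentiable one_ne_zero (ρ⁻¹ • (y - z))).hasFDerivAt.comp y hd
    have e : (fun y => χ₁ (ρ⁻¹ • (y - z))) = χ₁ ∘ fun y : ℂ => ρ⁻¹ • (y - z) := rfl
    rw [e, hd2.fderiv]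
    refine (ContinuousLinearMap.opNorm_comp_le _ _).trans ?_
    rw [norm_smul, ContinuousLinearMap.norm_id, norm_inv, Real.norm_eq_abs, abs_of_pos hρ,
      mul_one, ← norm_grad_eq, div_eq_mul_inv]
    exact mul_le_mul_of_nonneg_right (hL _) (inv_nonneg.mpr hρ.le)

end Local

theorem poincare : PoincareStmt := by
  refine ⟨8, fun b hb z ρ hρ => ?_⟩
  set B := ball z ρ with hB
  set g : ℂ → ℝ≥0∞ := B.indicator (fun w => ‖grad b w‖ₑ) with hgdef
  have hg : Measurable g := (measurable_grad b).enorm.indicator measurableSet_ball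
  have hG : ∫⁻ y, g y = ∫⁻ y in B, ‖grad b y‖ₑ := lintegral_indicator measurableSet_ball _
  have hB0 : volume B ≠ 0 := (measure_ball_pos volume z hρ).ne'
  have hB1 : volume B ≠ ∞ := measure_ball_lt_top.ne
  have hbm : Measurable b := hb.continuous.measurable
  have hF : Measurable (fun x : ℂ => ∫⁻ y in B, ‖b y - b x‖ₑ) := by
    refine Measurable.lintegral_prod_right (f := fun x y : ℂ => ‖b y - b x‖ₑ) ?_
    exact ((hbm.comp measurable_snd).sub (hbm.comp measurable_fst)).enorm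
  obtain ⟨x₀, -, hx₀⟩ := exists_le_setLAverage hB0 hB1 hF.aemeasurable
  refine ⟨b x₀, hx₀.trans ?_⟩
  rw [setLAverage_eq]
  refine ENNReal.div_le_of_le_mul ?_
  have hm3 : Measurable (fun p : (ℂ × ℂ) × ℝ => g ((1 - p.2) • p.1.1 + p.2 • p.1.2)) :=
    hg.comp (by fun_prop)
  calc ∫⁻ x in B, ∫⁻ y in B, ‖b y - b x‖ₑ
      ≤ ∫⁻ x in B, ∫⁻ y in B, ENNReal.ofReal (2 * ρ) *
          ∫⁻ t in Icc (0 : ℝ) 1, g ((1 - t) • x + t • y) :=
        setLIntegral_mono' measurableSet_ball fun x hx =>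
          setLIntegral_mono' measurableSet_ball fun y hy => Local.seg b hb z ρ x y hx hy
    _ = ENNReal.ofReal (2 * ρ) * ∫⁻ x in B, ∫⁻ y in B,
          ∫⁻ t in Icc (0 : ℝ) 1, g ((1 - t) • x + t • y) := by
        simp_rw [lintegral_const_mul' _ _ ENNReal.ofReal_ne_top]
    _ = ENNReal.ofReal (2 * ρ) * ∫⁻ x in B, ∫⁻ t in Icc (0 : ℝ) 1,
          ∫⁻ y in B, g ((1 - t) • x + t • y) := by
        congr 1
        refine lintegral_congr fun x => lintegral_lintegral_swap ?_
        exact (hg.comp (by fun_prop)).aemeasurable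
    _ = ENNReal.ofReal (2 * ρ) * ∫⁻ t in Icc (0 : ℝ) 1, ∫⁻ x in B,
          ∫⁻ y in B, g ((1 - t) • x + t • y) := by
        congr 1
        refine lintegral_lintegral_swap ?_
        refine Measurable.aemeasurable ?_
        refine Measurable.lintegral_prod_right
          (f := fun (p : ℂ × ℝ) (y : ℂ) => g ((1 - p.2) • p.1 + p.2 • y)) ?_
        exact hg.comp (by fun_prop)
    _ ≤ ENNReal.ofReal (2 * ρ) * ∫⁻ t in Icc (0 : ℝ) 1, 4 * (∫⁻ y, g y) * volume B :=
        mul_le_mul' le_rfl (lintegral_mono fun t => Local.dbl g hg B t)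
    _ = _ := by
        rw [setLIntegral_const, Real.volume_Icc, hG, ENNReal.ofReal_mul (by norm_num)]
        simp only [sub_zero, ENNReal.ofReal_one, mul_one, ENNReal.ofReal_ofNat, ENNReal.coe_ofNat]
        ring

theorem localAt (hP : PoincareStmt) (hD : DerivStmt) (K : ℕ) (C : ℝ≥0) (hK : 2 ≤ K)
    (h : CoreAt K C) : ∃ C' : ℝ≥0, LocalAt K C' := by
  obtain ⟨CP, hP⟩ := hP
  obtain ⟨L, hL0, hcut⟩ := Local.cutoff
  refine ⟨C * (1 + 4 * L.toNNReal * CP), fun b hb i m him z c => ?_⟩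
  have hK1 : (1 : ℝ) ≤ K := by exact_mod_cast (by omega : 1 ≤ K)
  have hK0 : (0 : ℝ) < K := by linarith
  set ρ : ℝ := (K : ℝ) ^ m with hρdef
  have hρ : 0 < ρ := zpow_pos hK0 m
  have ha : (0 : ℝ) < (K : ℝ) ^ i := zpow_pos hK0 i
  have haρ : (K : ℝ) ^ i ≤ ρ := zpow_le_zpow_right₀ hK1 him.le
  obtain ⟨χ, hχ, hχ1, hχb, hχ0, hχd⟩ := hcut z ρ hρ
  have hb₁ : ContDiff ℝ 1 (fun y => b y - dot c (y - z) - 0) :=
    (hb.1.sub (Local.contDiff_aff c z)).sub contDiff_const
  have hbd : ∀ y, DifferentiableAt ℝ b y := hb.1.differentiable one_ne_zero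
  obtain ⟨c₀, hc₀⟩ := hP _ hb₁ z (4 * ρ) (by positivity)
  simp only [Local.grad_sub_aff b _ (hbd _)] at hc₀
  simp only [sub_zero] at hc₀
  set G := ∫⁻ y in ball z (4 * ρ), ‖grad b y - c‖ₑ with hG
  set u : ℂ → ℝ := fun y => b y - dot c (y - z) - c₀ with hu
  have huc : ContDiff ℝ 1 u := (hb.1.sub (Local.contDiff_aff c z)).sub contDiff_const
  set f : ℂ → ℝ := fun y => χ y * u y with hf
  have hfc : C1c f := ⟨hχ.1.mul huc, hχ.2.mul_right⟩
  -- the gradient of the localised function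
  have hgrad : ∀ y, ‖grad f y‖ₑ ≤ (ball z (4 * ρ)).indicator
      (fun y => ‖grad b y - c‖ₑ + ENNReal.ofReal (L / ρ) * ‖u y‖ₑ) y := by
    intro y
    by_cases hy : y ∈ ball z (4 * ρ)
    · rw [indicator_of_mem hy]
      have hd : fderiv ℝ f y = χ y • fderiv ℝ u y + u y • fderiv ℝ χ y :=
        fderiv_mul (hχ.1.differentiable one_ne_zero y) (huc.differentiable one_ne_zero y)
      have hgu : grad u y = grad b y - c := Local.grad_sub_aff b y (hbd y) c z c₀
      have h1 : ‖grad f y‖ ≤ ‖grad b y - c‖ + L / ρ * ‖u y‖ := by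
        rw [norm_grad_eq, hd, ← hgu, norm_grad_eq]
        refine (norm_add_le _ _).trans (add_le_add ?_ ?_)
        · rw [norm_smul]
          exact mul_le_of_le_one_left (norm_nonneg _) (hχb y)
        · rw [norm_smul, mul_comm]
          exact mul_le_mul_of_nonneg_right (hχd y) (norm_nonneg _)
      rw [← ofReal_norm_eq_enorm, ← ofReal_norm_eq_enorm, ← ofReal_norm_eq_enorm,
        ← ENNReal.ofReal_mul (div_nonneg hL0 hρ.le),
        ← ENNReal.ofReal_add (norm_nonneg _) (mul_nonneg (div_nonneg hL0 hρ.le) (norm_nonneg _))]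
      exact ENNReal.ofReal_le_ofReal h1
    · rw [indicator_of_notMem hy]
      have ho : IsOpen {w : ℂ | 7 / 2 * ρ < dist w z} :=
        isOpen_lt continuous_const (continuous_id.dist continuous_const)
      have hy' : 7 / 2 * ρ < dist y z := by
        rw [mem_ball, not_lt] at hy; linarith
      have he : f =ᶠ[𝓝 y] fun _ => (0 : ℝ) := by
        filter_upwards [ho.mem_nhds hy'] with w hw
        simp only [hf, hχ0 w (le_of_lt hw), zero_mul]
      rw [← ofReal_norm_eq_enorm, norm_grad_eq, he.fderiv_eq]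
      simp
  have hint : ∫⁻ y, ‖grad f y‖ₑ ≤ (1 + 4 * (L.toNNReal : ℝ≥0∞) * CP) * G := by
    have hm : Measurable (fun y => ‖grad b y - c‖ₑ) :=
      ((measurable_grad b).sub measurable_const).enorm
    calc ∫⁻ y, ‖grad f y‖ₑ
        ≤ ∫⁻ y in ball z (4 * ρ), (‖grad b y - c‖ₑ + ENNReal.ofReal (L / ρ) * ‖u y‖ₑ) := by
          rw [← lintegral_indicator measurableSet_ball]; exact lintegral_mono hgrad
      _ = G + ENNReal.ofReal (L / ρ) * ∫⁻ y in ball z (4 * ρ), ‖u y‖ₑ := by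
          rw [lintegral_add_left hm, lintegral_const_mul' _ _ ENNReal.ofReal_ne_top]
      _ ≤ G + ENNReal.ofReal (L / ρ) * (CP * ENNReal.ofReal (4 * ρ) * G) :=
          add_le_add le_rfl (mul_le_mul' le_rfl hc₀)
      _ = _ := by
          have e : ENNReal.ofReal (L / ρ) * ENNReal.ofReal (4 * ρ) = 4 * (L.toNNReal : ℝ≥0∞) := by
            rw [← ENNReal.ofReal_mul (div_nonneg hL0 hρ.le),
              show L / ρ * (4 * ρ) = 4 * L by field_simp, ENNReal.ofReal_mul (by norm_num)]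
            simp [ENNReal.ofReal]
          rw [← e]; ring
  -- the shift of the supremum
  have hlip : Lip 0 (fun _ : ℂ => (K : ℝ) ^ i) := fun y y' => by simp
  obtain ⟨⟨Lb, hLb⟩, hatt, -⟩ := hD b hb (fun _ => (K : ℝ) ^ i) ρ _ 0 ha le_rfl
    (fun _ => ⟨le_rfl, haρ⟩) hlip
  obtain ⟨-, hatt', -⟩ := hD f hfc (fun _ => (K : ℝ) ^ i) ρ _ 0 ha le_rfl
    (fun _ => ⟨le_rfl, haρ⟩) hlip
  have hshift : ∀ x ∈ ball z ρ, Wr f K i m x = Wr b K i m x - dot c (x - z) - c₀ := by
    intro x hx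
    have hav : ∀ r ∈ Icc ((K : ℝ) ^ i) ρ, avg f x r = avg b x r - dot c (x - z) - c₀ := by
      intro r hr
      refine Local.avg_aff b f hb.continuous c z x c₀ r (ha.trans_le hr.1) fun y hy => ?_
      have hy2 : y ∈ ball z (2 * ρ) := by
        rw [mem_ball] at hx hy ⊢
        have := dist_triangle y x z
        linarith [hr.2]
      simp only [hf, hχ1 y hy2, one_mul, hu]
    obtain ⟨r₁, hr₁, e₁, m₁⟩ := hatt' x
    obtain ⟨r₂, hr₂, e₂, m₂⟩ := hatt x
    change Usup f (fun _ => (K : ℝ) ^ i) ρ x = Usup b (fun _ => (K : ℝ) ^ i) ρ x - _ - _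
    rw [e₁, e₂]
    have h1 := m₁ r₂ hr₂
    have h2 := m₂ r₁ hr₁
    have h3 := hav r₁ hr₁
    have h4 := hav r₂ hr₂
    linarith
  have hae : ∀ᵐ x ∂(volume : Measure ℂ), DifferentiableAt ℝ (Wr b K i m) x :=
    hLb.ae_differentiableAt
  calc ∫⁻ x in ball z ρ, ‖grad (Wr b K i m) x - c‖ₑ
      = ∫⁻ x in ball z ρ, ‖grad (Wr f K i m) x‖ₑ := by
        refine setLIntegral_congr_fun_ae measurableSet_ball ?_
        filter_upwards [hae] with x hx hxb
        have he : Wr f K i m =ᶠ[𝓝 x] fun y => Wr b K i m y - dot c (y - z) - c₀ := by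
          filter_upwards [isOpen_ball.mem_nhds hxb] with w hw using hshift w hw
        rw [← Local.grad_sub_aff _ x hx c z c₀]
        unfold grad
        rw [he.fderiv_eq]
    _ ≤ ∫⁻ x, ‖grad (Wr f K i m) x‖ₑ := setLIntegral_le_lintegral _ _
    _ ≤ C * ∫⁻ y, ‖grad f y‖ₑ := h f hfc i m him
    _ ≤ C * ((1 + 4 * (L.toNNReal : ℝ≥0∞) * CP) * G) := mul_le_mul' le_rfl hint
    _ = _ := by push_cast; ring

end

end Crest.Agent.R112
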