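import Crest.Agent.R112.Basic

/-! Row 112: lower semicontinuity of the gradient norm under pointwise limits. -/

set_option autoImplicit false

namespace Crest.Agent.R112

open MeasureTheory Set Metric Filter Topology
open scoped ENNReal NNReal ContDiff

theorem lsc_lip {Ws : ℕ → ℂ → ℝ} {W : ℂ → ℝ} {L : ℝ≥0} (hL : ∀ n, LipschitzWith L (Ws n))
    (hW : ∀ x, Tendsto (fun n => Ws n x) atTop (𝓝 (W x))) : LipschitzWith L W :=
  LipschitzWith.of_dist_le_mul fun x y =>
    le_of_tendsto' ((hW x).dist (hW y)) fun n => (hL n).dist_le_mul x y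

theorem lsc_ibp {W φ : ℂ → ℝ} {L : ℝ≥0} (hL : LipschitzWith L W) (hφ : ContDiff ℝ ∞ φ)
    (hc : HasCompactSupport φ) (v : ℂ) :
    ∫ x, fderiv ℝ W x v * φ x = ∫ x, fderiv ℝ φ x (-v) * W x := by
  obtain ⟨C, hC⟩ := hφ.lipschitzWith_of_hasCompactSupport hc (by simp)
  have h := hL.integral_lineDeriv_mul_eq (μ := volume) hC hc v
  simp only [(hφ.differentiable (by simp)).differentiableAt.lineDeriv_eq_fderiv] at h
  rw [← h]
  refine integral_congr_ae ?_
  filter_upwards [hL.ae_differentiableAt (μ := volume)] with x hx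
  rw [hx.lineDeriv_eq_fderiv]

theorem lsc_smooth {Ws : ℕ → ℂ → ℝ} {W : ℂ → ℝ} {L : ℝ≥0} (hL : ∀ n, LipschitzWith L (Ws n))
    (hW : ∀ x, Tendsto (fun n => Ws n x) atTop (𝓝 (W x))) {φ : ℂ → ℝ} (hφ : ContDiff ℝ ∞ φ)
    (hc : HasCompactSupport φ) (v : ℂ) :
    Tendsto (fun n => ∫ x, fderiv ℝ (Ws n) x v * φ x) atTop (𝓝 (∫ x, fderiv ℝ W x v * φ x)) := by
  simp only [fun n => lsc_ibp (hL n) hφ hc v, lsc_ibp (lsc_lip hL hW) hφ hc v]
  obtain ⟨C, hC⟩ := (hW 0).norm.bddAbove_range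
  have hcont : Continuous fun x => fderiv ℝ φ x (-v) :=
    (hφ.continuous_fderiv (by simp)).clm_apply continuous_const
  refine tendsto_integral_of_dominated_convergence
    (fun x => ‖fderiv ℝ φ x (-v)‖ * (C + L * ‖x‖))
    (fun n => (hcont.mul (hL n).continuous).aestronglyMeasurable) ?_ (fun n => ?_) ?_
  · refine Continuous.integrable_of_hasCompactSupport (by fun_prop) ?_
    exact (hc.fderiv_apply ℝ (-v)).norm.mul_right
  · refine Eventually.of_forall fun x => ?_
    rw [norm_mul]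
    refine mul_le_mul_of_nonneg_left ?_ (norm_nonneg _)
    have h1 : ‖Ws n 0‖ ≤ C := hC ⟨n, rfl⟩
    have h2 := (hL n).dist_le_mul x 0
    rw [dist_eq_norm, dist_zero_right] at h2
    have h3 := norm_sub_norm_le (Ws n x) (Ws n 0)
    linarith
  · exact Eventually.of_forall fun x => (hW x).const_mul _

theorem lsc_bdd {W : ℂ → ℝ} {L : ℝ≥0} (hL : LipschitzWith L W) (x v : ℂ) :
    ‖fderiv ℝ W x v‖ ≤ L * ‖v‖ :=
  ((fderiv ℝ W x).le_opNorm v).trans
    (mul_le_mul_of_nonneg_right (norm_fderiv_le_of_lipschitz ℝ hL) (norm_nonneg _))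

theorem lsc_int {W : ℂ → ℝ} {L : ℝ≥0} (hL : LipschitzWith L W) (v : ℂ) {ψ : ℂ → ℝ}
    (hψ : Integrable ψ) : Integrable fun x => fderiv ℝ W x v * ψ x :=
  hψ.bdd_mul (measurable_fderiv_apply_const ℝ W v).aestronglyMeasurable
    (Eventually.of_forall fun x => lsc_bdd hL x v)

theorem lsc_diff {W : ℂ → ℝ} {L : ℝ≥0} (hL : LipschitzWith L W) (v : ℂ) {ψ φ : ℂ → ℝ}
    (hψ : Integrable ψ) (hφ : Integrable φ) :
    |(∫ x, fderiv ℝ W x v * ψ x) - ∫ x, fderiv ℝ W x v * φ x| ≤ L * ‖v‖ * ∫ x, ‖ψ x - φ x‖ := by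
  rw [← integral_sub (lsc_int hL v hψ) (lsc_int hL v hφ), ← integral_const_mul,
    ← Real.norm_eq_abs]
  refine norm_integral_le_of_norm_le ((hψ.sub hφ).norm.const_mul _)
    (Eventually.of_forall fun x => ?_)
  rw [← mul_sub, norm_mul]
  exact mul_le_mul_of_nonneg_right (lsc_bdd hL x v) (norm_nonneg _)

theorem lsc_weak {Ws : ℕ → ℂ → ℝ} {W : ℂ → ℝ} {L : ℝ≥0} (hL : ∀ n, LipschitzWith L (Ws n))
    (hW : ∀ x, Tendsto (fun n => Ws n x) atTop (𝓝 (W x))) {ψ : ℂ → ℝ} (hψ : Integrable ψ)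
    (v : ℂ) :
    Tendsto (fun n => ∫ x, fderiv ℝ (Ws n) x v * ψ x) atTop (𝓝 (∫ x, fderiv ℝ W x v * ψ x)) := by
  rw [Metric.tendsto_nhds]
  intro ε hε
  have hM : 0 ≤ L * ‖v‖ := by positivity
  have hδ : 0 < ε / 3 / (L * ‖v‖ + 1) := by positivity
  obtain ⟨φ, hc, hφ, hn⟩ :=
    (memLp_one_iff_integrable.2 hψ).exist_eLpNorm_sub_le (by simp) le_rfl hδ
  have hφi : Integrable φ := hφ.continuous.integrable_of_hasCompactSupport hc
  have h1 : ∫ x, ‖ψ x - φ x‖ ≤ ε / 3 / (L * ‖v‖ + 1) := by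
    rw [eLpNorm_one_eq_lintegral_enorm, ← ofReal_integral_norm_eq_lintegral_enorm (hψ.sub hφi),
      ENNReal.ofReal_le_ofReal_iff hδ.le] at hn
    exact hn
  have h2 : L * ‖v‖ * ∫ x, ‖ψ x - φ x‖ ≤ ε / 3 := by
    refine (mul_le_mul (le_add_of_nonneg_right zero_le_one) h1
      (integral_nonneg fun x => norm_nonneg _) (by positivity)).trans (le_of_eq ?_)
    field_simp
  have h3 := Metric.tendsto_nhds.1 (lsc_smooth hL hW hφ hc v) (ε / 3) (by positivity)
  filter_upwards [h3] with n hn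
  rw [Real.dist_eq] at hn ⊢
  have h4 := abs_le.1 ((lsc_diff (hL n) v hψ hφi).trans h2)
  have h5 := abs_le.1 ((lsc_diff (lsc_lip hL hW) v hψ hφi).trans h2)
  have h6 := abs_lt.1 hn
  rw [abs_lt]
  constructor <;> linarith [h4.1, h4.2, h5.1, h5.2, h6.1, h6.2]

theorem lsc_comp {O : Set ℂ} (hO : MeasurableSet O) {Ws : ℕ → ℂ → ℝ} {W : ℂ → ℝ} {L : ℝ≥0}
    (hL : ∀ n, LipschitzWith L (Ws n)) (hW : ∀ x, Tendsto (fun n => Ws n x) atTop (𝓝 (W x)))
    (v : ℂ) (a : ℝ) {B : ℝ≥0∞} (hB : ∀ᶠ n in atTop, ∫⁻ x in O, ‖fderiv ℝ (Ws n) x v - a‖ₑ ≤ B) :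
    ∫⁻ x in O, ‖fderiv ℝ W x v - a‖ₑ ≤ B := by
  have hU : O = ⋃ k : ℕ, O ∩ ball 0 k := by
    rw [← inter_iUnion, iUnion_ball_nat, inter_univ]
  have hmono : Monotone fun k : ℕ => O ∩ ball (0 : ℂ) k := fun k l h =>
    inter_subset_inter_right _ (ball_subset_ball (by exact_mod_cast h))
  rw [hU, setLIntegral_iUnion_of_directed _ hmono.directed_le]
  refine iSup_le fun k => ?_
  set S := O ∩ ball (0 : ℂ) k with hS
  have hSm : MeasurableSet S := hO.inter measurableSet_ball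
  have hSf : volume S ≠ ⊤ :=
    ((measure_mono inter_subset_right).trans_lt measure_ball_lt_top).ne
  have hm : Measurable fun x => fderiv ℝ W x v - a :=
    (measurable_fderiv_apply_const ℝ W v).sub_const a
  set s : ℂ → ℝ := fun x => if 0 ≤ fderiv ℝ W x v - a then 1 else -1 with hs
  have hsm : Measurable s :=
    Measurable.ite (measurableSet_le measurable_const hm) measurable_const measurable_const
  have hs1 : ∀ x, ‖s x‖ = 1 := fun x => by
    simp only [hs]; split_ifs <;> simp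
  have hψ : Integrable (S.indicator s) := by
    rw [integrable_indicator_iff hSm]
    exact Measure.integrableOn_of_bounded hSf hsm.aestronglyMeasurable (M := 1)
      (Eventually.of_forall fun x => (hs1 x).le)
  have hsplit : ∀ {V : ℂ → ℝ}, LipschitzWith L V →
      (∫ x, fderiv ℝ V x v * S.indicator s x) - ∫ x, a * S.indicator s x =
        ∫ x in S, (fderiv ℝ V x v - a) * s x := by
    intro V hV
    rw [← integral_sub (lsc_int hV v hψ) (hψ.const_mul a), ← integral_indicator hSm]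
    refine integral_congr_ae (Eventually.of_forall fun x => ?_)
    by_cases hx : x ∈ S
    · simp only [indicator_of_mem hx]; ring
    · simp [indicator_of_notMem hx]
  have h1 := (lsc_weak hL hW hψ v).sub_const (∫ x, a * S.indicator s x)
  simp only [fun n => hsplit (hL n), hsplit (lsc_lip hL hW)] at h1
  have h2 : ∀ x, (fderiv ℝ W x v - a) * s x = ‖fderiv ℝ W x v - a‖ := fun x => by
    simp only [hs, Real.norm_eq_abs]
    split_ifs with h
    · rw [abs_of_nonneg h, mul_one]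
    · rw [abs_of_neg (not_le.1 h), mul_neg_one]
  simp only [h2] at h1
  have h3 : IntegrableOn (fun x => fderiv ℝ W x v - a) S :=
    Measure.integrableOn_of_bounded hSf hm.aestronglyMeasurable (M := L * ‖v‖ + ‖a‖)
      (Eventually.of_forall fun x => (norm_sub_le _ _).trans
        (add_le_add_left (lsc_bdd (lsc_lip hL hW) x v) _))
  rw [← ofReal_integral_norm_eq_lintegral_enorm h3]
  refine le_of_tendsto (ENNReal.tendsto_ofReal h1) ?_
  filter_upwards [hB] with n hn
  refine (Real.ofReal_le_enorm _).trans ((enorm_integral_le_lintegral_enorm _).trans ?_)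
  refine le_trans ?_ ((lintegral_mono_set (inter_subset_left : S ⊆ O)).trans hn)
  refine lintegral_mono fun x => le_of_eq ?_
  rw [enorm_mul, ← ofReal_norm (s x), hs1, ENNReal.ofReal_one, mul_one]

theorem lsc : LscStmt := by
  intro O hO Ws W L c B hL hW hB
  have h1 := lsc_comp hO.measurableSet hL hW 1 c.re (B := B) (by
    filter_upwards [hB] with n hn
    refine le_trans (lintegral_mono fun x => ?_) hn
    exact enorm_le_iff_norm_le.2 (Complex.abs_re_le_norm (grad (Ws n) x - c)))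
  have h2 := lsc_comp hO.measurableSet hL hW Complex.I c.im (B := B) (by
    filter_upwards [hB] with n hn
    refine le_trans (lintegral_mono fun x => ?_) hn
    exact enorm_le_iff_norm_le.2 (Complex.abs_im_le_norm (grad (Ws n) x - c)))
  rw [two_mul]
  refine le_trans ?_ (add_le_add h1 h2)
  rw [← lintegral_add_left ((measurable_fderiv_apply_const ℝ W 1).sub_const _).enorm]
  refine lintegral_mono fun x => ?_
  simp only [← ofReal_norm]
  rw [← ENNReal.ofReal_add (norm_nonneg _) (norm_nonneg _)]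
  exact ENNReal.ofReal_le_ofReal (Complex.norm_le_abs_re_add_abs_im (grad W x - c))

end Crest.Agent.R112
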