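import Crest.Agent.R112.Basic

/-! Row 112: construction and geometry of the forest. -/

set_option autoImplicit false

namespace Crest.Agent.R112

open MeasureTheory Set Metric Filter Topology
open scoped ENNReal NNReal Classical

noncomputable section

theorem Rules_dinf_tri (a b c : ℤ × ℤ) : dinf a c ≤ dinf a b + dinf b c := by
  unfold dinf; omega

theorem Rules_self_mem (A : ℕ) (a : ℤ × ℤ) : a ∈ nbhd A a := by
  rw [mem_nbhd_iff_dinf]; simp [dinf]

theorem Rules_Mloc_le (u : ℕ → ℤ × ℤ → ℂ) (n : ℕ) (a : ℤ × ℤ) (t : ℝ) (ht : 0 ≤ t)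
    (h : ∀ c ∈ nbhd 16 a, ‖u n c‖ ≤ 2 ^ dinf a c * t) : Mloc u (n, a) ≤ C1 * t := by
  have : Mloc u (n, a) ≤ (nbhd 16 a).card • (2 ^ 16 * t) := by
    refine Finset.sum_le_card_nsmul _ _ _ fun c hc => (h c hc).trans ?_
    exact mul_le_mul_of_nonneg_right
      (pow_le_pow_right₀ (by norm_num) ((mem_nbhd_iff_dinf _ _ _).1 hc)) ht
  rw [card_nbhd, nsmul_eq_mul] at this
  refine this.trans (le_of_eq ?_)
  unfold C1; push_cast; ring

theorem Rules_heavy_le {K : ℕ} (hK : 128 ≤ K) (u : ℕ → ℤ × ℤ → ℂ) (n : ℕ) (a : ℤ × ℤ)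
    (h : Heavy K u (n, a)) : Mloc u (n, a) ≤ C1 * ‖u n a‖ :=
  Rules_Mloc_le u n a _ (norm_nonneg _) fun c hc =>
    h c ((mem_nbhd_iff_dinf _ _ _).2 (((mem_nbhd_iff_dinf _ _ _).1 hc).trans (by omega)))

theorem Rules_sponsor {K : ℕ} (hK : 128 ≤ K) (h8 : 8 ∣ K) (u : ℕ → ℤ × ℤ → ℂ) (n : ℕ)
    (a : ℤ × ℤ) :
    (∃ c ∈ nbhd (K / 8) a, Heavy K u (n, c) ∧ Mloc u (n, a) ≤ C1 * ‖u n c‖) ∨ Long K u (n, a) := by
  obtain ⟨c, hc, hmax⟩ := Finset.exists_max_image (nbhd (K / 4) a)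
    (fun c => ‖u n c‖ / 2 ^ dinf a c) ⟨a, Rules_self_mem _ _⟩
  have key : ∀ c', dinf a c' ≤ K / 4 → ‖u n c'‖ ≤ 2 ^ dinf a c' * (‖u n c‖ / 2 ^ dinf a c) := by
    intro c' h'
    have := hmax c' ((mem_nbhd_iff_dinf _ _ _).2 h')
    rwa [div_le_iff₀ (by positivity), mul_comm] at this
  have hM : Mloc u (n, a) ≤ C1 * (‖u n c‖ / 2 ^ dinf a c) :=
    Rules_Mloc_le u n a _ (by positivity) fun c' h' =>
      key c' (((mem_nbhd_iff_dinf _ _ _).1 h').trans (by omega))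
  have hC : (0 : ℝ) ≤ C1 := by unfold C1; positivity
  by_cases hd : dinf a c ≤ K / 8
  · refine Or.inl ⟨c, (mem_nbhd_iff_dinf _ _ _).2 hd, fun c' h' => ?_, hM.trans ?_⟩
    · have h1 := (mem_nbhd_iff_dinf _ _ _).1 h'
      have h2 := Rules_dinf_tri a c c'
      simp only at h1 ⊢
      refine (key c' (by omega)).trans ?_
      have h3 : (2 : ℝ) ^ dinf a c' ≤ 2 ^ dinf c c' * 2 ^ dinf a c := by
        rw [← pow_add]; exact pow_le_pow_right₀ (by norm_num) (by omega)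
      calc _ ≤ 2 ^ dinf c c' * 2 ^ dinf a c * (‖u n c‖ / 2 ^ dinf a c) := by gcongr
        _ = _ := by field_simp
    · exact mul_le_mul_of_nonneg_left
        (div_le_self (norm_nonneg _) (one_le_pow₀ (by norm_num))) hC
  · refine Or.inr (hM.trans ?_)
    have h1 : ‖u n c‖ ≤ ∑ c ∈ nbhd (K / 4) a, ‖u n c‖ :=
      Finset.single_le_sum (f := fun c => ‖u n c‖) (fun _ _ => norm_nonneg _) hc
    have h2 : (2 : ℝ) ^ (K / 8) ≤ 2 ^ dinf a c := pow_le_pow_right₀ (by norm_num) (by omega)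
    rw [div_mul_eq_mul_div, mul_div_assoc]
    gcongr

/-- one step of the construction -/
def Rules_step (K : ℕ) (u : ℕ → ℤ × ℤ → ℂ) (n : ℕ) (prev : ℤ × ℤ → Node × Prop) (a : ℤ × ℤ) :
    Node × Prop :=
  if ‖thw K u (n, a) - thw K u (prev (up K a)).1‖ ≤ 1 / 16 then prev (up K a)
  else if Heavy K u (n, a) then ((n, a), True)
  else if h : ∃ c ∈ nbhd (K / 8) a, Heavy K u (n, c) ∧ Mloc u (n, a) ≤ C1 * ‖u n c‖ then
    (if ‖thw K u (n, h.choose) - thw K u (prev (up K h.choose)).1‖ ≤ 1 / 16 ∧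
        ‖thw K u (n, a) - thw K u (n, h.choose)‖ ≤ 1 / 16 then ((prev (up K h.choose)).1, False)
      else ((n, a), True))
  else prev (up K a)

/-- the state at depth `i` -/
def Rules_st (K : ℕ) (u : ℕ → ℤ × ℤ → ℂ) (N : ℕ) (i : ℕ) : ℤ × ℤ → Node × Prop :=
  Nat.rec (fun a => ((N, a), True)) (fun i prev => Rules_step K u (N - (i + 1)) prev) i

theorem rules : RulesStmt := by
  intro K hK h8 u N
  refine ⟨fun P => (Rules_st K u N (N - P.1) P.2).1, fun P => (Rules_st K u N (N - P.1) P.2).2, ?_⟩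
  have hst : ∀ n, n < N → Rules_st K u N (N - n) =
      Rules_step K u n (Rules_st K u N (N - (n + 1))) := by
    intro n hn
    have e : N - n = N - (n + 1) + 1 := by omega
    have e' : N - (N - (n + 1) + 1) = n := by omega
    rw [e]
    change Rules_step K u (N - (N - (n + 1) + 1)) _ = _
    rw [e']; rfl
  refine ⟨fun a => ?_, fun n a hn hH hS => ?_, fun n a hn => ?_⟩
  · simp [Rules_st]
  · simp only [Stay] at hS
    simp only [hst n hn, Rules_step, if_neg hS, if_pos hH, and_self]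
  · simp only [Stay, hst n hn]
    set prev := Rules_st K u N (N - (n + 1))
    unfold Rules_step
    by_cases hS : ‖thw K u (n, a) - thw K u (prev (up K a)).1‖ ≤ 1 / 16
    · left; rw [if_pos hS]; exact ⟨hS, rfl, Iff.rfl⟩
    rw [if_neg hS]
    by_cases hH : Heavy K u (n, a)
    · rw [if_pos hH]
      exact Or.inr (Or.inl ⟨hS, ⟨a, Rules_self_mem _ _, hH, Rules_heavy_le hK u n a hH,
        Or.inl hS⟩, rfl, trivial⟩)
    rw [if_neg hH]
    by_cases h : ∃ c ∈ nbhd (K / 8) a, Heavy K u (n, c) ∧ Mloc u (n, a) ≤ C1 * ‖u n c‖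
    · rw [dif_pos h]
      obtain ⟨h1, h2, h3⟩ := h.choose_spec
      split_ifs with h4
      · exact Or.inr (Or.inr (Or.inl ⟨hS, ⟨_, h1, h4.1, h4.2, rfl⟩, fun h => h⟩))
      · refine Or.inr (Or.inl ⟨hS, ⟨_, h1, h2, h3, ?_⟩, rfl, trivial⟩)
        by_contra hcon
        push Not at hcon
        exact h4 hcon
    · rw [dif_neg h]
      exact Or.inr (Or.inr (Or.inr ⟨(Rules_sponsor hK h8 u n a).resolve_left h, rfl, Iff.rfl⟩))

theorem Rules_coord {K : ℕ} (hK : 128 ≤ K) (s t : ℤ) (h : |t - s| ≤ (K / 8 : ℕ)) :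
    |((s : ℝ) + 1 / 2) - K * (((t / K : ℤ) : ℝ) + 1 / 2)| ≤ 5 / 8 * K := by
  have hK' : (0 : ℤ) < K := by omega
  have h1 := Int.mul_ediv_add_emod t K
  have h2 := Int.emod_nonneg t hK'.ne'
  have h3 := Int.emod_lt_of_pos t hK'
  rw [abs_le] at h
  have h4 : 8 * (K * (t / K) - s) ≤ K := by omega
  have h5 : -(K : ℤ) ≤ 8 * (K * (t / K) - s + K - 1) := by omega
  have h4' : (8 : ℝ) * (K * ((t / K : ℤ) : ℝ) - s) ≤ K := by exact_mod_cast h4
  have h5' : -(K : ℝ) ≤ 8 * (K * ((t / K : ℤ) : ℝ) - s + K - 1) := by exact_mod_cast h5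
  rw [abs_le]; constructor <;> linarith

theorem Rules_dist {K : ℕ} (hK : 128 ≤ K) (n : ℕ) (a c : ℤ × ℤ) (hc : c ∈ nbhd (K / 8) a) :
    dist (cen ((K : ℝ) ^ n) a) (cen ((K : ℝ) ^ (n + 1)) (up K c)) ≤ (K : ℝ) ^ (n + 1) - K ^ n := by
  rw [mem_nbhd] at hc
  have h1 := Rules_coord hK a.1 c.1 hc.1
  have h2 := Rules_coord hK a.2 c.2 hc.2
  have hK' : (128 : ℝ) ≤ K := by exact_mod_cast hK
  have hp : 0 < (K : ℝ) ^ n := by positivity
  set x := ((a.1 : ℝ) + 1 / 2) - K * (((c.1 / K : ℤ) : ℝ) + 1 / 2)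
  set y := ((a.2 : ℝ) + 1 / 2) - K * (((c.2 / K : ℤ) : ℝ) + 1 / 2)
  have e : cen ((K : ℝ) ^ n) a - cen ((K : ℝ) ^ (n + 1)) (up K c) =
      (((K : ℝ) ^ n : ℝ) : ℂ) * ⟨x, y⟩ := by
    apply Complex.ext <;>
      simp only [cen, up, x, y, Complex.sub_re, Complex.sub_im, Complex.re_ofReal_mul,
        Complex.im_ofReal_mul] <;> ring
  have h3 : ‖(⟨x, y⟩ : ℂ)‖ ≤ K - 1 := by
    refine abs_le_of_sq_le_sq' ?_ (by linarith) |>.2
    rw [Complex.sq_norm, Complex.normSq_apply]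
    have := sq_le_sq' (abs_le.1 h1).1 (abs_le.1 h1).2
    have := sq_le_sq' (abs_le.1 h2).1 (abs_le.1 h2).2
    simp only
    nlinarith
  rw [dist_eq_norm, e, norm_mul, Complex.norm_real, Real.norm_eq_abs, abs_of_pos hp, pow_succ]
  nlinarith

theorem geom : GeomStmt := by
  intro K hK _ u N root fresh hR
  have main : ∀ i n a, n + i = N → n ≤ (root (n, a)).1 ∧ (root (n, a)).1 ≤ N ∧
      root (root (n, a)) = root (n, a) ∧
      ∀ m, n ≤ m → m ≤ (root (n, a)).1 → ∃ a', root (m, a') = root (n, a) ∧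
        dist (cen ((K : ℝ) ^ n) a) (cen ((K : ℝ) ^ m) a') ≤ (K : ℝ) ^ m - K ^ n ∧
        (m = (root (n, a)).1 → (m, a') = root (n, a)) := by
    have own : ∀ n a, n ≤ N → root (n, a) = (n, a) → n ≤ (root (n, a)).1 ∧ (root (n, a)).1 ≤ N ∧
        root (root (n, a)) = root (n, a) ∧
        ∀ m, n ≤ m → m ≤ (root (n, a)).1 → ∃ a', root (m, a') = root (n, a) ∧
          dist (cen ((K : ℝ) ^ n) a) (cen ((K : ℝ) ^ m) a') ≤ (K : ℝ) ^ m - K ^ n ∧
          (m = (root (n, a)).1 → (m, a') = root (n, a)) := by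
      intro n a hn h
      rw [h]
      refine ⟨le_rfl, hn, h, fun m h1 h2 => ?_⟩
      obtain rfl : m = n := le_antisymm h2 h1
      exact ⟨a, h, by simp, fun _ => rfl⟩
    intro i
    induction i with
    | zero =>
      intro n a hn
      obtain rfl : n = N := by omega
      exact own n a le_rfl (hR.top a).1
    | succ i ih =>
      intro n a hn
      have hc : root (n, a) = (n, a) ∨ ∃ c ∈ nbhd (K / 8) a, root (n, a) = root (n + 1, up K c) := by
        rcases hR.cases n a (by omega) with h | h | ⟨-, ⟨c, h1, -, -, h2⟩, -⟩ | h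
        · exact Or.inr ⟨a, Rules_self_mem _ _, h.2.1⟩
        · exact Or.inl h.2.2.1
        · exact Or.inr ⟨c, h1, h2⟩
        · exact Or.inr ⟨a, Rules_self_mem _ _, h.2.1⟩
      rcases hc with h | ⟨c, hc, h⟩
      · exact own n a (by omega) h
      obtain ⟨i1, i2, i3, i4⟩ := ih (n + 1) (up K c) (by omega)
      rw [← h] at i1 i2 i3 i4
      refine ⟨by omega, i2, i3, fun m h1 h2 => ?_⟩
      rcases h1.eq_or_lt with rfl | h1
      · exact ⟨a, rfl, by simp, fun e => by omega⟩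
      obtain ⟨a', j1, j2, j3⟩ := i4 m h1 h2
      refine ⟨a', j1, (dist_triangle _ (cen ((K : ℝ) ^ (n + 1)) (up K c)) _).trans ?_, j3⟩
      linarith [Rules_dist hK n a c hc]
  rintro ⟨n, a⟩ hn
  obtain ⟨h1, h2, h3, h4⟩ := main (N - n) n a (by simp only at hn; omega)
  refine ⟨h1, h2, h3, fun m k1 k2 => ?_⟩
  obtain ⟨a', j1, j2, j3⟩ := h4 m k1 k2
  exact ⟨a', j1, j2.trans (sub_le_self _ (by positivity)), j3⟩

end

end Crest.Agent.R112
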