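import Crest.Agent.R112.Basic

/-! Row 112: a good shift of the lattice (greedy choice from fine to coarse levels). -/

set_option autoImplicit false

namespace Crest.Agent.R112

open MeasureTheory Set Metric Filter Topology
open scoped ENNReal NNReal Classical

noncomputable section

/-- the `K × K` box with corner `z` -/
def Shift_box (K : ℕ) (z : ℤ × ℤ) : Finset (ℤ × ℤ) :=
  Finset.Ico z.1 (z.1 + K) ×ˢ Finset.Ico z.2 (z.2 + K)

theorem Shift_sum_box {M : Type*} [AddCommMonoid M] (K : ℕ) (z b : ℤ × ℤ) (φ : ℤ × ℤ → M) :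
    ∑ c ∈ Shift_box K z, φ (c + b) = ∑ c ∈ Shift_box K (z + b), φ c :=
  Finset.sum_equiv (Equiv.addRight b) (fun c => by
    simp only [Shift_box, Finset.mem_product, Finset.mem_Ico, Equiv.coe_addRight, Prod.fst_add,
      Prod.snd_add]
    omega) fun _ _ => rfl

theorem Shift_children (K : ℕ) (a : ℤ × ℤ) :
    children K a = Shift_box K ((K : ℤ) * a.1, (K : ℤ) * a.2) := rfl

theorem Shift_win {K : ℕ} (h2 : 2 ∣ K) (a : ℤ × ℤ) :
    win K a = Shift_box K (a + (-((K / 2 : ℕ) : ℤ), -((K / 2 : ℕ) : ℤ))) := by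
  ext c
  simp only [win, Shift_box, Finset.mem_product, Finset.mem_Ico, Prod.fst_add, Prod.snd_add]
  omega

theorem Shift_card (K : ℕ) (z : ℤ × ℤ) : (Shift_box K z).card = K ^ 2 := by
  simp [Shift_box, Finset.card_product, Int.card_Ico, sq]

theorem Shift_tsum_add (φ : ℤ × ℤ → ℝ≥0∞) (b : ℤ × ℤ) : ∑' a, φ (a + b) = ∑' a, φ a :=
  (Equiv.addRight b).tsum_eq φ

theorem Shift_tsum_box (K : ℕ) (φ : ℤ × ℤ → ℝ≥0∞) :
    ∑' a, ∑ c ∈ Shift_box K a, φ c = (K : ℝ≥0∞) ^ 2 * ∑' a, φ a := by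
  have h : ∀ a, ∑ c ∈ Shift_box K a, φ c = ∑ c ∈ Shift_box K 0, φ (a + c) := fun a => by
    simp_rw [add_comm a]
    rw [Shift_sum_box, zero_add]
  simp_rw [h]
  rw [Summable.tsum_finsetSum fun _ _ => ENNReal.summable]
  simp_rw [Shift_tsum_add]
  rw [Finset.sum_const, Shift_card, nsmul_eq_mul]
  push_cast
  rfl

theorem Shift_tsum_split {K : ℕ} (hK : 1 ≤ K) (φ : ℤ × ℤ → ℝ≥0∞) :
    ∑ b ∈ Shift_box K 0, ∑' a : ℤ × ℤ, φ (((K : ℤ) * a.1, (K : ℤ) * a.2) + b) = ∑' a, φ a := by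
  rw [← Summable.tsum_finsetSum fun _ _ => ENNReal.summable, ← tsum_children hK φ]
  refine tsum_congr fun a => ?_
  simp_rw [add_comm ((K : ℤ) * a.1, (K : ℤ) * a.2)]
  rw [Shift_sum_box, zero_add, Shift_children]

theorem Shift_measurableSet (σ : ℝ) (a : ℤ × ℤ) : MeasurableSet (cube σ a) := by
  unfold cube
  refine (measurableSet_le measurable_const Complex.measurable_re).inter
    ((measurableSet_lt Complex.measurable_re measurable_const).inter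
    ((measurableSet_le measurable_const Complex.measurable_im).inter
    (measurableSet_lt Complex.measurable_im measurable_const)))

theorem Shift_mem {σ : ℝ} (hσ : 0 < σ) (a : ℤ × ℤ) (y : ℂ) :
    y ∈ cube σ a ↔ (⌊y.re / σ⌋, ⌊y.im / σ⌋) = a := by
  simp only [cube, mem_ofPred_eq, Prod.ext_iff, Int.floor_eq_iff, le_div_iff₀ hσ, div_lt_iff₀ hσ,
    mul_comm σ, and_assoc]

theorem Shift_disjoint {σ : ℝ} (hσ : 0 < σ) : Pairwise (Function.onFun Disjoint (cube σ)) :=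
  fun a b hab => Set.disjoint_left.2 fun y ha hb =>
    hab (((Shift_mem hσ a y).1 ha).symm.trans ((Shift_mem hσ b y).1 hb))

theorem Shift_cube_succ {K : ℕ} (hK : 1 ≤ K) {σ : ℝ} (hσ : 0 < σ) (a : ℤ × ℤ) :
    cube (σ * K) a = ⋃ c ∈ children K a, cube σ c := by
  have hK' : (0 : ℝ) < K := by exact_mod_cast hK
  ext y
  simp only [mem_iUnion, Shift_mem hσ, Shift_mem (mul_pos hσ hK'), mem_children hK, exists_prop,
    exists_eq_right', up, ← div_div, Int.floor_div_natCast]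

theorem Shift_lat_succ {K : ℕ} (hK : 1 ≤ K) {γ : ℂ → ℂ} (hγ : Integrable γ) (n : ℕ) (a : ℤ × ℤ) :
    lat K γ (n + 1) a = ∑ c ∈ children K a, lat K γ n c := by
  have hσ : (0 : ℝ) < (K : ℝ) ^ n := pow_pos (by exact_mod_cast hK) n
  unfold lat
  rw [pow_succ, Shift_cube_succ hK hσ, integral_biUnion_finset _
    (fun c _ => Shift_measurableSet _ c) (fun c _ d _ h => Shift_disjoint hσ h)
    fun _ _ => hγ.integrableOn]

/-- the lattice point `σ b` -/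
def Shift_pt (σ : ℝ) (b : ℤ × ℤ) : ℂ := ⟨σ * b.1, σ * b.2⟩

theorem Shift_int (f : ℂ → ℂ) (σ : ℝ) (a b : ℤ × ℤ) :
    ∫ y in cube σ a, f (y + Shift_pt σ b) = ∫ y in cube σ (a + b), f y := by
  rw [← integral_indicator (Shift_measurableSet _ _), ← integral_indicator
    (Shift_measurableSet _ _), ← integral_add_right_eq_self ((cube σ (a + b)).indicator f)
    (Shift_pt σ b)]
  refine integral_congr_ae (Eventually.of_forall fun y => ?_)
  have : y + Shift_pt σ b ∈ cube σ (a + b) ↔ y ∈ cube σ a := by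
    simp only [cube, Shift_pt, mem_ofPred_eq, Complex.add_re, Complex.add_im, Prod.fst_add,
      Prod.snd_add, Int.cast_add]
    constructor <;> rintro ⟨h1, h2, h3, h4⟩ <;> refine ⟨?_, ?_, ?_, ?_⟩ <;> linarith
  by_cases h : y ∈ cube σ a
  · simp only [indicator_of_mem h, indicator_of_mem (this.2 h)]
  · simp only [indicator_of_notMem h, indicator_of_notMem (mt this.1 h)]

theorem Shift_lat (K : ℕ) (γ : ℂ → ℂ) (ω : ℂ) {k n : ℕ} (hk : k ≤ n) (a b : ℤ × ℤ) :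
    lat K (fun y => γ (y + (Shift_pt ((K : ℝ) ^ n) b + ω))) k a =
      lat K (fun y => γ (y + ω)) k (a + ((K : ℤ) ^ (n - k) * b.1, (K : ℤ) ^ (n - k) * b.2)) := by
  have : Shift_pt ((K : ℝ) ^ n) b =
      Shift_pt ((K : ℝ) ^ k) ((K : ℤ) ^ (n - k) * b.1, (K : ℤ) ^ (n - k) * b.2) := by
    obtain ⟨j, rfl⟩ := Nat.exists_eq_add_of_le hk
    simp only [Shift_pt, Nat.add_sub_cancel_left, pow_add, mul_assoc]
    push_cast
    rfl
  unfold lat
  rw [← Shift_int, this]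
  simp_rw [add_assoc]

theorem Shift_zero (K : ℕ) (γ : ℂ → ℂ) : ∑' a, ‖lat K γ 0 a‖ₑ ≤ ∫⁻ y, ‖γ y‖ₑ := by
  calc ∑' a, ‖lat K γ 0 a‖ₑ ≤ ∑' a, ∫⁻ y in cube 1 a, ‖γ y‖ₑ :=
        ENNReal.tsum_le_tsum fun a => by
          unfold lat
          rw [pow_zero]
          exact enorm_integral_le_lintegral_enorm _
    _ = ∫⁻ y in ⋃ a, cube 1 a, ‖γ y‖ₑ :=
        (lintegral_iUnion (Shift_measurableSet 1) (Shift_disjoint one_pos) _).symm
    _ ≤ _ := setLIntegral_le_lintegral _ _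

theorem Shift_Dhat_add {K : ℕ} (h2 : 2 ∣ K) {u u' : ℕ → ℤ × ℤ → ℂ} {k : ℕ} {b : ℤ × ℤ}
    (h : ∀ a, u' k a = u k (a + b)) (a : ℤ × ℤ) : Dhat K u' k a = Dhat K u k (a + b) := by
  unfold Dhat
  simp_rw [h, Shift_win h2]
  rw [Shift_sum_box K _ b (u k), Shift_sum_box K _ b fun c => ‖u k c‖, add_right_comm]

theorem Shift_key {K : ℕ} (h2 : 2 ∣ K) (u : ℕ → ℤ × ℤ → ℂ) (n : ℕ) :
    ∑' a, ENNReal.ofReal (Dhat K u n a) + ∑' a, ‖∑ c ∈ Shift_box K a, u n c‖ₑ =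
      (K : ℝ≥0∞) ^ 2 * ∑' a, ‖u n a‖ₑ := by
  rw [← Shift_tsum_box, ← Shift_tsum_add (fun a => ‖∑ c ∈ Shift_box K a, u n c‖ₑ)
    (-((K / 2 : ℕ) : ℤ), -((K / 2 : ℕ) : ℤ)), ← Shift_tsum_add
    (fun a => ∑ c ∈ Shift_box K a, ‖u n c‖ₑ) (-((K / 2 : ℕ) : ℤ), -((K / 2 : ℕ) : ℤ)),
    ← ENNReal.tsum_add]
  refine tsum_congr fun a => ?_
  rw [← Shift_win h2, Dhat, ← ofReal_norm,
    ← ENNReal.ofReal_add (sub_nonneg.2 (norm_sum_le _ _)) (norm_nonneg _), sub_add_cancel,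
    ENNReal.ofReal_sum_of_nonneg fun _ _ => norm_nonneg _]
  simp_rw [ofReal_norm]

theorem Shift_ind {K : ℕ} (hK : 1 ≤ K) (h2 : 2 ∣ K) {γ : ℂ → ℂ} (hγ : Integrable γ) (n : ℕ) :
    ∃ ω : ℂ, ∑ k ∈ Finset.range n, ∑' a,
      ENNReal.ofReal (Dhat K (lat K (fun y => γ (y + ω))) k a) +
        (K : ℝ≥0∞) ^ 2 * ∑' a, ‖lat K (fun y => γ (y + ω)) n a‖ₑ ≤
      (K : ℝ≥0∞) ^ 2 * ∫⁻ y, ‖γ y‖ₑ := by
  induction n with
  | zero =>
    refine ⟨0, ?_⟩
    simp only [Finset.range_zero, Finset.sum_empty, zero_add, add_zero]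
    gcongr
    exact Shift_zero K γ
  | succ n ih =>
    obtain ⟨ω, hω⟩ := ih
    let A : ℤ × ℤ → ℝ≥0∞ := fun b =>
      ∑' a, ‖lat K (fun y => γ (y + (Shift_pt ((K : ℝ) ^ n) b + ω))) (n + 1) a‖ₑ
    obtain ⟨b, -, hb⟩ := (Shift_box K 0).exists_min_image A
      (Finset.card_pos.1 (by rw [Shift_card]; positivity))
    refine ⟨Shift_pt ((K : ℝ) ^ n) b + ω, le_trans ?_ hω⟩
    have h1 : ∀ k ∈ Finset.range (n + 1), ∑' a, ENNReal.ofReal
        (Dhat K (lat K (fun y => γ (y + (Shift_pt ((K : ℝ) ^ n) b + ω)))) k a) =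
        ∑' a, ENNReal.ofReal (Dhat K (lat K (fun y => γ (y + ω))) k a) := fun k hk => by
      have hk' : k ≤ n := Nat.lt_succ_iff.1 (Finset.mem_range.1 hk)
      simp_rw [Shift_Dhat_add h2 fun a => Shift_lat K γ ω hk' a b]
      exact Shift_tsum_add (fun a => ENNReal.ofReal (Dhat K (lat K (fun y => γ (y + ω))) k a)) _
    have h3 : ∑ c ∈ Shift_box K 0, A c =
        ∑' a, ‖∑ c ∈ Shift_box K a, lat K (fun y => γ (y + ω)) n c‖ₑ := by
      rw [← Shift_tsum_split hK]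
      refine Finset.sum_congr rfl fun c _ => tsum_congr fun a => ?_
      rw [Shift_lat_succ hK (hγ.comp_add_right _), Shift_children, ← Shift_sum_box]
      simp [Shift_lat K γ ω le_rfl]
    have h4 : (K : ℝ≥0∞) ^ 2 * A b ≤ ∑ c ∈ Shift_box K 0, A c := by
      have := Finset.card_nsmul_le_sum _ A _ hb
      rwa [Shift_card, nsmul_eq_mul, Nat.cast_pow] at this
    rw [Finset.sum_congr rfl h1, Finset.sum_range_succ, add_assoc, ← Shift_key h2 _ n, ← h3]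
    gcongr

theorem shift : ShiftStmt := fun K hK h2 γ hγ N => by
  obtain ⟨ω, hω⟩ := Shift_ind (by omega) h2 hγ (N + 1)
  exact ⟨ω, le_self_add.trans hω⟩

end

end Crest.Agent.R112
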