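import Crest.Agent.R112.Basic

/-! One level of the E-lemma. -/

set_option autoImplicit false

namespace Crest.Agent.R112

open MeasureTheory Set Metric Filter Topology
open scoped ENNReal NNReal Classical

noncomputable section

namespace Step

/-! ### the radial profiles -/

theorem clamp_ge (α β ρ : ℝ) : α ≤ max α (min ρ β) := le_max_left _ _

theorem clamp_le {α β : ℝ} (h : α ≤ β) (ρ : ℝ) : max α (min ρ β) ≤ β :=
  max_le h (min_le_right _ _)

theorem den_pos {α β : ℝ} (h0 : 0 ≤ α) (h : α < β) : 0 < β ^ 2 - α ^ 2 := by nlinarith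

theorem tail_nonneg {α β : ℝ} (h0 : 0 ≤ α) (h : α < β) (ρ : ℝ) : 0 ≤ tailA α β ρ := by
  have h1 := clamp_ge α β ρ
  have h2 := clamp_le h.le ρ
  exact div_nonneg (by nlinarith) (den_pos h0 h).le

theorem tail_le_one {α β : ℝ} (h0 : 0 ≤ α) (h : α < β) (ρ : ℝ) : tailA α β ρ ≤ 1 := by
  have h1 := clamp_ge α β ρ
  unfold tailA
  rw [div_le_one (den_pos h0 h)]
  nlinarith

theorem tail_of_le {α β ρ : ℝ} (h0 : 0 ≤ α) (h : α < β) (hρ : ρ ≤ α) : tailA α β ρ = 1 := by
  unfold tailA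
  rw [max_eq_left ((min_le_left _ _).trans hρ), div_self (den_pos h0 h).ne']

theorem tail_of_ge {α β ρ : ℝ} (h : α < β) (hρ : β ≤ ρ) : tailA α β ρ = 0 := by
  unfold tailA
  rw [min_eq_right hρ, max_eq_right h.le, sub_self, zero_div]

theorem tau_of_ge {α β ρ : ℝ} (h : α < β) (hρ : β ≤ ρ) : tauA α β ρ = 0 := by
  unfold tauA
  rw [min_eq_right hρ, max_eq_right h.le, sub_self, zero_div]

theorem tau_nonneg {α β : ℝ} (h0 : 0 ≤ α) (h : α < β) (ρ : ℝ) : 0 ≤ tauA α β ρ := by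
  have h2 := clamp_le h.le ρ
  have := den_pos h0 h
  exact div_nonneg (by linarith) (by linarith)

theorem tau_le {α β r : ℝ} (h0 : 0 ≤ α) (h : α < β) (hr : 0 < r) (hs : r ≤ α + β) (ρ : ℝ) :
    tauA α β ρ ≤ 2 / r := by
  have h1 := clamp_ge α β ρ
  have := den_pos h0 h
  unfold tauA
  rw [div_le_div_iff₀ (by linarith) hr]
  have : (β - max α (min ρ β)) * r ≤ (β - α) * (α + β) :=
    mul_le_mul (by linarith) hs hr.le (by linarith)
  nlinarith

theorem tail_le_tau {α β R : ℝ} (h0 : 0 ≤ α) (h : α < β) (hR : β ≤ R) (ρ : ℝ) :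
    tailA α β ρ ≤ R * tauA α β ρ := by
  have h1 := clamp_ge α β ρ
  have h2 := clamp_le h.le ρ
  have hd := den_pos h0 h
  unfold tailA tauA
  rw [mul_div_assoc', div_le_div_iff₀ hd (by linarith)]
  have : (β ^ 2 - (max α (min ρ β)) ^ 2) ≤ 2 * (R * (β - max α (min ρ β))) := by nlinarith
  nlinarith

theorem tail_lip {α β w : ℝ} (h0 : 0 ≤ α) (hw : 0 < w) (h : w ≤ β - α) (s t : ℝ) :
    |tailA α β s - tailA α β t| ≤ 2 / w * |s - t| := by
  have hαβ : α < β := by linarith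
  have hd := den_pos h0 hαβ
  have h1 := clamp_ge α β s
  have h2 := clamp_le hαβ.le s
  have h3 := clamp_ge α β t
  have h4 := clamp_le hαβ.le t
  have h5 := abs_clamp_sub_le α β s t
  unfold tailA
  rw [← sub_div, abs_div, abs_of_pos hd, div_le_iff₀ hd]
  set c := max α (min s β)
  set c' := max α (min t β)
  have e : β ^ 2 - c ^ 2 - (β ^ 2 - c' ^ 2) = -((c - c') * (c + c')) := by ring
  rw [e, abs_neg, abs_mul, abs_of_nonneg (by linarith : 0 ≤ c + c')]
  have h6 : c + c' ≤ 2 / w * (β ^ 2 - α ^ 2) := by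
    rw [div_mul_eq_mul_div, le_div_iff₀ hw]
    have : (c + c') * w ≤ (2 * (β + α)) * (β - α) :=
      mul_le_mul (by linarith) h hw.le (by linarith)
    nlinarith
  calc |c - c'| * (c + c') ≤ |s - t| * (2 / w * (β ^ 2 - α ^ 2)) :=
        mul_le_mul h5 h6 (by linarith) (abs_nonneg _)
    _ = _ := by ring

theorem tau_lip {α β w r : ℝ} (h0 : 0 ≤ α) (hw : 0 < w) (h : w ≤ β - α) (hr : 0 < r)
    (hs : r ≤ α + β) (s t : ℝ) : |tauA α β s - tauA α β t| ≤ 2 / (w * r) * |s - t| := by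
  have hαβ : α < β := by linarith
  have hd := den_pos h0 hαβ
  have h5 := abs_clamp_sub_le α β s t
  unfold tauA
  rw [← sub_div, abs_div, abs_of_pos (by linarith : 0 < (β ^ 2 - α ^ 2) / 2),
    div_le_iff₀ (by linarith)]
  have e : β - max α (min s β) - (β - max α (min t β)) =
      -(max α (min s β) - max α (min t β)) := by ring
  rw [e, abs_neg]
  have h6 : 1 ≤ 2 / (w * r) * ((β ^ 2 - α ^ 2) / 2) := by
    rw [div_mul_eq_mul_div, le_div_iff₀ (by positivity)]
    have : w * r ≤ (β - α) * (α + β) := mul_le_mul h hs hr.le (by linarith)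
    nlinarith
  calc _ ≤ |s - t| * 1 := by linarith
    _ ≤ |s - t| * (2 / (w * r) * ((β ^ 2 - α ^ 2) / 2)) :=
        mul_le_mul_of_nonneg_left h6 (abs_nonneg _)
    _ = _ := by ring

/-- mixture of the tails -/
def tailM (r σ t ρ : ℝ) : ℝ := (1 - t) * tailA (r - σ) r ρ + t * tailA r (r + σ) ρ

section mix
variable {r σ t w : ℝ} (hw : 0 < w) (hσ : w ≤ σ) (hr : σ ≤ r / 2) (t0 : 0 ≤ t) (t1 : t ≤ 1)
include hw hσ hr t0 t1

theorem tailM_nonneg (ρ : ℝ) : 0 ≤ tailM r σ t ρ := by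
  have h1 := tail_nonneg (α := r - σ) (β := r) (by linarith) (by linarith) ρ
  have h2 := tail_nonneg (α := r) (β := r + σ) (by linarith) (by linarith) ρ
  unfold tailM
  have : 0 ≤ 1 - t := by linarith
  positivity

theorem tailM_le_one (ρ : ℝ) : tailM r σ t ρ ≤ 1 := by
  have h1 := tail_le_one (α := r - σ) (β := r) (by linarith) (by linarith) ρ
  have h2 := tail_le_one (α := r) (β := r + σ) (by linarith) (by linarith) ρ
  unfold tailM
  nlinarith

theorem tauM_nonneg (ρ : ℝ) : 0 ≤ tauM r σ t ρ := by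
  have h1 := tau_nonneg (α := r - σ) (β := r) (by linarith) (by linarith) ρ
  have h2 := tau_nonneg (α := r) (β := r + σ) (by linarith) (by linarith) ρ
  unfold tauM
  have : 0 ≤ 1 - t := by linarith
  positivity

theorem tauM_le (ρ : ℝ) : tauM r σ t ρ ≤ 2 / r := by
  have h1 := tau_le (α := r - σ) (β := r) (r := r) (by linarith) (by linarith) (by linarith)
    (by linarith) ρ
  have h2 := tau_le (α := r) (β := r + σ) (r := r) (by linarith) (by linarith) (by linarith)
    (by linarith) ρ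
  unfold tauM
  nlinarith

theorem tailM_le_tau (ρ : ℝ) : tailM r σ t ρ ≤ 2 * r * tauM r σ t ρ := by
  have h1 := tail_le_tau (α := r - σ) (β := r) (R := 2 * r) (by linarith) (by linarith)
    (by linarith) ρ
  have h2 := tail_le_tau (α := r) (β := r + σ) (R := 2 * r) (by linarith) (by linarith)
    (by linarith) ρ
  unfold tailM tauM
  nlinarith

theorem tailM_lip (s s' : ℝ) : |tailM r σ t s - tailM r σ t s'| ≤ 2 / w * |s - s'| := by
  have h1 := tail_lip (α := r - σ) (β := r) (by linarith) hw (by linarith) s s'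
  have h2 := tail_lip (α := r) (β := r + σ) (by linarith) hw (by linarith) s s'
  unfold tailM
  rw [abs_le] at h1 h2 ⊢
  constructor <;> nlinarith [h1.1, h1.2, h2.1, h2.2]

theorem tauM_lip (s s' : ℝ) : |tauM r σ t s - tauM r σ t s'| ≤ 2 / (w * r) * |s - s'| := by
  have h1 := tau_lip (α := r - σ) (β := r) (r := r) (by linarith) hw (by linarith) (by linarith)
    (by linarith) s s'
  have h2 := tau_lip (α := r) (β := r + σ) (r := r) (by linarith) hw (by linarith) (by linarith)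
    (by linarith) s s'
  unfold tauM
  rw [abs_le] at h1 h2 ⊢
  constructor <;> nlinarith [h1.1, h1.2, h2.1, h2.2]

omit t0 t1 in
theorem tailM_of_le {ρ : ℝ} (hρ : ρ ≤ r - σ) : tailM r σ t ρ = 1 := by
  unfold tailM
  rw [tail_of_le (by linarith) (by linarith) hρ,
    tail_of_le (by linarith) (by linarith) (by linarith)]
  ring

omit hr t0 t1 in
theorem tailM_of_ge {ρ : ℝ} (hρ : r + σ ≤ ρ) : tailM r σ t ρ = 0 := by
  unfold tailM
  rw [tail_of_ge (by linarith) (by linarith), tail_of_ge (by linarith) hρ]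
  ring

omit hr t0 t1 in
theorem tauM_of_ge {ρ : ℝ} (hρ : r + σ ≤ ρ) : tauM r σ t ρ = 0 := by
  unfold tauM
  rw [tau_of_ge (by linarith) (by linarith), tau_of_ge (by linarith) hρ]
  ring

end mix

/-! ### globally Lipschitz versions of the unit normal -/

def kap (x : ℂ) (r : ℝ) (y : ℂ) : ℝ := (max ‖y - x‖ (r / 2))⁻¹

def n0 (x : ℂ) (r : ℝ) (y : ℂ) : ℂ := kap x r y • (y - x)

def n1 (x : ℂ) (r : ℝ) (y : ℂ) : ℂ := kap x r y • n0 x r y

theorem kap_le {r : ℝ} (hr : 0 < r) (x y : ℂ) : |kap x r y| ≤ 2 / r := by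
  have h : r / 2 ≤ max ‖y - x‖ (r / 2) := le_max_right _ _
  unfold kap
  rw [abs_of_pos (inv_pos.mpr (by linarith))]
  calc _ ≤ (r / 2)⁻¹ := inv_anti₀ (by linarith) h
    _ = 2 / r := by rw [inv_div]

theorem abs_max_norm (x y y' : ℂ) (h : ℝ) :
    |max ‖y - x‖ h - max ‖y' - x‖ h| ≤ ‖y - y'‖ := by
  refine (abs_max_sub_max_le_abs _ _ _).trans ?_
  have := abs_norm_sub_norm_le (y - x) (y' - x)
  simpa using this

theorem kap_sub {r : ℝ} (hr : 0 < r) (x y y' : ℂ) :
    |kap x r y - kap x r y'| ≤ kap x r y * kap x r y' * ‖y - y'‖ := by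
  have h1 : 0 < max ‖y - x‖ (r / 2) := lt_of_lt_of_le (by linarith) (le_max_right _ _)
  have h2 : 0 < max ‖y' - x‖ (r / 2) := lt_of_lt_of_le (by linarith) (le_max_right _ _)
  have h3 := abs_max_norm x y y' (r / 2)
  unfold kap
  have e : (max ‖y - x‖ (r / 2))⁻¹ - (max ‖y' - x‖ (r / 2))⁻¹ =
      -((max ‖y - x‖ (r / 2))⁻¹ * (max ‖y' - x‖ (r / 2))⁻¹ *
        (max ‖y - x‖ (r / 2) - max ‖y' - x‖ (r / 2))) := by
    field_simp
    ring
  rw [e, abs_neg, abs_mul, abs_of_pos (by positivity)]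
  exact mul_le_mul_of_nonneg_left h3 (by positivity)

theorem kap_pos {r : ℝ} (hr : 0 < r) (x y : ℂ) : 0 < kap x r y :=
  inv_pos.mpr (lt_of_lt_of_le (by linarith) (le_max_right _ _))

theorem kap_lip {r : ℝ} (hr : 0 < r) (x : ℂ) : Lip (4 / r ^ 2) (kap x r) := fun y y' => by
  refine (kap_sub hr x y y').trans (mul_le_mul_of_nonneg_right ?_ (norm_nonneg _))
  have h1 := (le_abs_self _).trans (kap_le hr x y)
  have h2 := (le_abs_self _).trans (kap_le hr x y')
  calc _ ≤ 2 / r * (2 / r) := mul_le_mul h1 h2 (kap_pos hr x y').le (by positivity)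
    _ = _ := by field_simp; ring

theorem kap_mul_le {r : ℝ} (hr : 0 < r) (x y : ℂ) : kap x r y * ‖y - x‖ ≤ 1 := by
  have h1 : 0 < max ‖y - x‖ (r / 2) := lt_of_lt_of_le (by linarith) (le_max_right _ _)
  unfold kap
  rw [inv_mul_le_iff₀ h1, mul_one]
  exact le_max_left _ _

theorem n0_le {r : ℝ} (hr : 0 < r) (x y : ℂ) : ‖n0 x r y‖ ≤ 1 := by
  unfold n0
  rw [norm_smul, Real.norm_eq_abs, abs_of_pos (kap_pos hr x y)]
  exact kap_mul_le hr x y

theorem n0_lip {r : ℝ} (hr : 0 < r) (x : ℂ) : Lip (4 / r) (n0 x r) := fun y y' => by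
  have e : n0 x r y - n0 x r y' =
      kap x r y • (y - y') + (kap x r y - kap x r y') • (y' - x) := by
    unfold n0
    rw [sub_smul, smul_sub, smul_sub, smul_sub, smul_sub]
    abel
  rw [e]
  refine (norm_add_le _ _).trans ?_
  rw [norm_smul, norm_smul, Real.norm_eq_abs, Real.norm_eq_abs]
  have h1 := kap_le hr x y
  have h2 := kap_sub hr x y y'
  have h3 := kap_mul_le hr x y'
  have h4 := kap_pos hr x y
  have h5 : |kap x r y - kap x r y'| * ‖y' - x‖ ≤ kap x r y * ‖y - y'‖ := by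
    calc _ ≤ kap x r y * kap x r y' * ‖y - y'‖ * ‖y' - x‖ :=
          mul_le_mul_of_nonneg_right h2 (norm_nonneg _)
      _ = kap x r y * ‖y - y'‖ * (kap x r y' * ‖y' - x‖) := by ring
      _ ≤ kap x r y * ‖y - y'‖ * 1 := mul_le_mul_of_nonneg_left h3 (by positivity)
      _ = _ := mul_one _
  rw [abs_of_pos h4] at h1 ⊢
  have h6 := mul_le_mul_of_nonneg_right h1 (norm_nonneg (y - y'))
  have e2 : 4 / r * ‖y - y'‖ = 2 * (2 / r * ‖y - y'‖) := by ring
  linarith

theorem n1_le {r : ℝ} (hr : 0 < r) (x y : ℂ) : ‖n1 x r y‖ ≤ 2 / r := by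
  unfold n1
  rw [norm_smul, Real.norm_eq_abs]
  calc _ ≤ 2 / r * 1 := mul_le_mul (kap_le hr x y) (n0_le hr x y) (norm_nonneg _) (by positivity)
    _ = _ := mul_one _

theorem n1_lip {r : ℝ} (hr : 0 < r) (x : ℂ) : Lip (12 / r ^ 2) (n1 x r) := by
  have := (kap_lip hr x).smul (n0_lip hr x) (kap_le hr x) (n0_le hr x)
  refine Lip.mono this (le_of_eq ?_)
  field_simp
  ring

theorem kap_eq {r : ℝ} {x y : ℂ} (h : r / 2 ≤ ‖y - x‖) : kap x r y = ‖y - x‖⁻¹ := by
  unfold kap
  rw [max_eq_left h]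

theorem n0_eq {r : ℝ} {x y : ℂ} (h : r / 2 ≤ ‖y - x‖) : n0 x r y = nhat x y := by
  unfold n0 nhat
  rw [kap_eq h, Complex.real_smul, div_eq_inv_mul]
  push_cast
  rfl

theorem lip_dot {L a : ℝ} {e : ℂ} (he : ‖e‖ ≤ a) {V : ℂ → ℂ} (h : Lip L V) (lam : ℝ) :
    Lip (a * L) (fun y => lam - dot e (V y)) := fun y y' => by
  have e1 : lam - dot e (V y) - (lam - dot e (V y')) = -dot e (V y - V y') := by
    rw [dot_sub_right]; ring
  rw [e1, norm_neg, Real.norm_eq_abs, mul_assoc]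
  exact (abs_dot_le _ _).trans
    (mul_le_mul he (h y y') (norm_nonneg _) ((norm_nonneg _).trans he))

/-! ### integrability -/

theorem int_dot {b : ℂ → ℝ} (hb : C1c b) {V : ℂ → ℂ} (hV : Continuous V) :
    Integrable (fun y => dot (V y) (grad b y)) := by
  refine Continuous.integrable_of_hasCompactSupport
    (Continuous.dot' hV hb.continuous_grad) (hb.hasCompactSupport_grad.mono ?_)
  intro y hy h0
  apply hy
  simp [h0]

theorem int_tau {b : ℂ → ℝ} (hb : C1c b) {τ : ℂ → ℝ} (hτ : Continuous τ) (e : ℂ) :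
    Integrable (fun y => τ y * dot e (grad b y)) := by
  have := int_dot hb (V := fun y => τ y • e) (by fun_prop)
  simpa only [dot_smul_left] using this

theorem cont_tauA (α β : ℝ) (x : ℂ) : Continuous fun y : ℂ => tauA α β ‖y - x‖ := by
  unfold tauA; fun_prop

theorem cont_tailA (α β : ℝ) (x : ℂ) : Continuous fun y : ℂ => tailA α β ‖y - x‖ := by
  unfold tailA; fun_prop

theorem cont_tauM (r σ t : ℝ) (x : ℂ) : Continuous fun y : ℂ => tauM r σ t ‖y - x‖ := by
  unfold tauM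
  exact (continuous_const.mul (cont_tauA _ _ x)).add (continuous_const.mul (cont_tauA _ _ x))

theorem norm_nhat_le (x y : ℂ) : ‖nhat x y‖ ≤ 1 := by
  unfold nhat
  rw [norm_div, Complex.norm_real, norm_norm]
  exact div_self_le_one _

/-- the annulus functional -/
def PP (b : ℂ → ℝ) (x e : ℂ) (lam c α β : ℝ) : ℝ :=
  (∫ y in ann x α β, (b y - c) * (lam - dot e (nhat x y))) / ((β ^ 2 - α ^ 2) / 2)

theorem PP_eq (h1 : IBP1Stmt) {b : ℂ → ℝ} (hb : C1c b) (x e : ℂ) (lam r : ℝ) {α β : ℝ}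
    (h0 : 0 < α) (h : α < β) :
    PP b x e lam (avg b x r) α β =
      lam * Aav b x r α β - ∫ y, tauA α β ‖y - x‖ * dot e (grad b y) := by
  rw [h1 b hb x e α β (avg b x r) h0 h]
  have hi : IntegrableOn (fun y => b y - avg b x r) (ann x α β) := by
    have : IntegrableOn (fun y => b y - avg b x r) (closedBall x β) :=
      (hb.continuous.sub continuous_const).continuousOn.integrableOn_compact
        (isCompact_closedBall x β)
    exact this.mono_set (sdiff_subset.trans ball_subset_closedBall)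
  have hm : Measurable fun y => dot e (nhat x y) := by
    refine Measurable.dot' measurable_const ?_
    unfold nhat
    fun_prop
  have hi2 : IntegrableOn (fun y => (b y - avg b x r) * dot e (nhat x y)) (ann x α β) :=
    Integrable.mul_bdd (c := ‖e‖) hi hm.aestronglyMeasurable (ae_of_all _ fun y => by
      rw [Real.norm_eq_abs]
      exact (abs_dot_le _ _).trans (mul_le_of_le_one_right (norm_nonneg _) (norm_nhat_le x y)))
  unfold PP Aav
  have e1 : ∀ y, (b y - avg b x r) * (lam - dot e (nhat x y)) =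
      lam * (b y - avg b x r) - (b y - avg b x r) * dot e (nhat x y) := fun y => by ring
  simp_rw [e1]
  rw [integral_sub (hi.const_mul lam) hi2, integral_const_mul]
  ring

theorem yv_eq (h1 : IBP1Stmt) {b : ℂ → ℝ} (hb : C1c b) (x e : ℂ) (lam : ℝ) {r σ t : ℝ}
    (h0 : 0 < σ) (h : σ < r) (hB : Bal b x r σ t) :
    yv (grad b) e x r σ t = (1 - t) * PP b x e lam (avg b x r) (r - σ) r +
      t * PP b x e lam (avg b x r) r (r + σ) := by
  rw [PP_eq h1 hb x e lam r (by linarith) (by linarith),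
    PP_eq h1 hb x e lam r (by linarith) (by linarith)]
  unfold yv tauM
  have e1 : ∀ y, ((1 - t) * tauA (r - σ) r ‖y - x‖ + t * tauA r (r + σ) ‖y - x‖) *
      dot e (grad b y) = (1 - t) * (tauA (r - σ) r ‖y - x‖ * dot e (grad b y)) +
        t * (tauA r (r + σ) ‖y - x‖ * dot e (grad b y)) := fun y => by ring
  simp_rw [e1]
  rw [integral_add ((int_tau hb (cont_tauA _ _ x) e).const_mul _)
    ((int_tau hb (cont_tauA _ _ x) e).const_mul _), integral_const_mul, integral_const_mul]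
  linear_combination (-lam) * hB.2.2

/-- the vector field -/
def WW (x e : ℂ) (lam r : ℝ) (y : ℂ) : ℂ := (lam - dot e (n0 x r y)) • n1 x r y

theorem cont_WW (x e : ℂ) (lam : ℝ) {r : ℝ} (hr : 0 < r) : Continuous (WW x e lam r) := by
  have h1 := (n0_lip hr x).continuous
  have h2 := (n1_lip hr x).continuous
  unfold WW
  exact (continuous_const.sub (Continuous.dot' continuous_const h1)).smul h2

theorem PP_sub (h2 : IBP2Stmt) {b : ℂ → ℝ} (hb : C1c b) (x e : ℂ) (lam c : ℝ)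
    {r α β α' β' : ℝ} (hr : 0 < r) (h0 : r / 2 ≤ α) (h : α < β) (h0' : r / 2 ≤ α')
    (h' : α' < β') :
    PP b x e lam c α β - PP b x e lam c α' β' =
      ∫ y, (tailA α β ‖y - x‖ - tailA α' β' ‖y - x‖) * dot (WW x e lam r y) (grad b y) := by
  unfold PP
  rw [h2 b hb x e lam c α β α' β' (by linarith) h (by linarith) h']
  refine integral_congr_ae (ae_of_all _ fun y => ?_)
  by_cases hy : r / 2 ≤ ‖y - x‖
  · simp only [WW, n1, dot_smul_left, n0_eq hy, kap_eq hy]
    ring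
  · push Not at hy
    simp only
    rw [tail_of_le (by linarith) h (by linarith), tail_of_le (by linarith) h' (by linarith)]
    simp

theorem yv_sub (h1 : IBP1Stmt) (h2 : IBP2Stmt) {b : ℂ → ℝ} (hb : C1c b) (x e : ℂ) (lam : ℝ)
    {r σ σ' t t' : ℝ} (h0 : 0 < σ') (hσ : σ' ≤ σ) (h : σ ≤ r / 2) (hB : Bal b x r σ t)
    (hB' : Bal b x r σ' t') :
    yv (grad b) e x r σ t - yv (grad b) e x r σ' t' =
      ∫ y, (tailM r σ t ‖y - x‖ - tailM r σ' t' ‖y - x‖) * dot (WW x e lam r y) (grad b y) := by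
  have hr : 0 < r := by linarith
  rw [yv_eq h1 hb x e lam (by linarith) (by linarith) hB,
    yv_eq h1 hb x e lam h0 (by linarith) hB']
  have a1 := PP_sub h2 hb x e lam (avg b x r) (α := r - σ) (β := r) (α' := r - σ') (β' := r) hr
    (by linarith) (by linarith) (by linarith) (by linarith)
  have a2 := PP_sub h2 hb x e lam (avg b x r) (α := r) (β := r + σ) (α' := r - σ') (β' := r) hr
    (by linarith) (by linarith) (by linarith) (by linarith)
  have a3 := PP_sub h2 hb x e lam (avg b x r) (α := r) (β := r + σ') (α' := r - σ') (β' := r) hr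
    (by linarith) (by linarith) (by linarith) (by linarith)
  have hi : ∀ α β α' β' : ℝ, Integrable fun y =>
      (tailA α β ‖y - x‖ - tailA α' β' ‖y - x‖) * dot (WW x e lam r y) (grad b y) := by
    intro α β α' β'
    have := int_dot hb (V := fun y => (tailA α β ‖y - x‖ - tailA α' β' ‖y - x‖) • WW x e lam r y)
      (((cont_tailA _ _ x).sub (cont_tailA _ _ x)).smul (cont_WW x e lam hr))
    simpa only [dot_smul_left] using this
  have e1 : ∀ y, (tailM r σ t ‖y - x‖ - tailM r σ' t' ‖y - x‖) *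
      dot (WW x e lam r y) (grad b y) =
      ((1 - t) * ((tailA (r - σ) r ‖y - x‖ - tailA (r - σ') r ‖y - x‖) *
          dot (WW x e lam r y) (grad b y)) +
        t * ((tailA r (r + σ) ‖y - x‖ - tailA (r - σ') r ‖y - x‖) *
          dot (WW x e lam r y) (grad b y))) -
        t' * ((tailA r (r + σ') ‖y - x‖ - tailA (r - σ') r ‖y - x‖) *
          dot (WW x e lam r y) (grad b y)) := fun y => by unfold tailM; ring
  simp_rw [e1]
  rw [integral_sub, integral_add, integral_const_mul, integral_const_mul, integral_const_mul,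
    ← a1, ← a2, ← a3]
  · ring
  · exact (hi _ _ _ _).const_mul _
  · exact (hi _ _ _ _).const_mul _
  · exact ((hi _ _ _ _).const_mul _).add ((hi _ _ _ _).const_mul _)
  · exact (hi _ _ _ _).const_mul _

/-! ### the cut-off -/

def chi (q : ℂ) (D : ℝ) (y : ℂ) : ℝ := max 0 (min (3 - ‖y - q‖ / D) 1)

theorem chi_nonneg (q : ℂ) (D : ℝ) (y : ℂ) : 0 ≤ chi q D y := le_max_left _ _

theorem chi_le (q : ℂ) (D : ℝ) (y : ℂ) : chi q D y ≤ 1 := max_le zero_le_one (min_le_right _ _)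

theorem chi_lip (q : ℂ) {D : ℝ} (hD : 0 < D) : Lip (1 / D) (chi q D) :=
  Lip.radial (g := fun s => max 0 (min (3 - s / D) 1)) (by positivity) (fun s t => by
    refine (abs_clamp_sub_le _ _ _ _).trans (le_of_eq ?_)
    have : 3 - s / D - (3 - t / D) = -(1 / D * (s - t)) := by ring
    rw [this, abs_neg, abs_mul, abs_of_pos (by positivity)]) q

theorem chi_one {q y : ℂ} {D : ℝ} (hD : 0 < D) (h : ‖y - q‖ ≤ 2 * D) : chi q D y = 1 := by
  have : ‖y - q‖ / D ≤ 2 := by rwa [div_le_iff₀ hD]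
  unfold chi
  rw [min_eq_right (by linarith), max_eq_right zero_le_one]

theorem chi_zero {q y : ℂ} {D : ℝ} (hD : 0 < D) (h : 3 * D ≤ ‖y - q‖) : chi q D y = 0 := by
  have : 3 ≤ ‖y - q‖ / D := by rwa [le_div_iff₀ hD]
  unfold chi
  exact max_eq_left ((min_le_left _ _).trans (by linarith))

theorem lip_const_sub {L : ℝ} {f : ℂ → ℝ} (h : Lip L f) (a : ℝ) : Lip L (fun y => a - f y) :=
  fun y y' => by
    have e : a - f y - (a - f y') = -(f y - f y') := by ring
    rw [e, norm_neg]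
    exact h y y'

theorem cone_of {θ e v : ℂ} {s : ℝ} (hθ : ‖θ‖ = 1) (he : ‖e - θ‖ ≤ 1 / 2) (hs : 0 ≤ s)
    (hv : ‖v‖ ≤ s / 4) : Cone θ (v + s • e) := by
  have hI : ‖Complex.I * θ‖ = 1 := by simp [hθ]
  have h1 := abs_dot_le θ v
  have h2 := abs_dot_le (Complex.I * θ) v
  have h3 := abs_dot_le θ (e - θ)
  have h4 := abs_dot_le (Complex.I * θ) (e - θ)
  rw [hθ, one_mul] at h1 h3
  rw [hI, one_mul] at h2 h4
  have h5 : dot θ θ = 1 := by rw [dot_self, hθ]; norm_num
  have h6 : dot (Complex.I * θ) θ = 0 := by simp [dot]; ring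
  rw [dot_sub_right] at h3 h4
  rw [h5] at h3
  rw [h6, sub_zero] at h4
  unfold Cone
  rw [dot_add_right, dot_add_right, Complex.real_smul, dot_real_mul_right, dot_real_mul_right]
  rw [abs_le] at h1 h2 h3 h4 ⊢
  constructor <;> nlinarith [h1.1, h1.2, h2.1, h2.2, h3.1, h3.2, h4.1, h4.2]

/-- the far part -/
theorem far {γ : ℂ → ℂ} {θ e x q : ℂ} {Ω : Set ℂ} {σ' σ D r lam : ℝ} {d : Atoms}
    (hd : LevelData γ θ Ω σ' d) (h0 : 0 < σ') (hσ : 2 * σ' ≤ σ) (hD : σ ≤ D) (hr : D ≤ r / 2)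
    (hΩ : closedBall x (2 * r) ⊆ Ω) (he : ‖e‖ ≤ 3 / 2) (hlam : |lam| ≤ 3 / 2) {Ψ : ℂ → ℝ}
    (Ψ1 : ∀ y, |Ψ y| ≤ 1) (ΨL : Lip (4 / σ') Ψ) (Ψ0 : ∀ y, σ < |‖y - x‖ - r| → Ψ y = 0) :
    |∫ y, dot (((1 - chi q D y) * Ψ y) • WW x e lam r y) (γ y)| ≤
      84 / r * d.mΓ (Ann x r (2 * σ) \ ball q D) := by
  have hr0 : 0 < r := by linarith
  have hD0 : 0 < D := by linarith
  have c1 : ∀ y, |1 - chi q D y| ≤ 1 := fun y => by
    have := chi_nonneg q D y
    have := chi_le q D y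
    rw [abs_le]; constructor <;> linarith
  have s1 : ∀ y, |(1 - chi q D y) * Ψ y| ≤ 1 := fun y => by
    rw [abs_mul]
    exact mul_le_one₀ (c1 y) (abs_nonneg _) (Ψ1 y)
  have L1 : Lip (5 / σ') (fun y => (1 - chi q D y) * Ψ y) := by
    refine ((lip_const_sub (chi_lip q hD0) 1).mul ΨL c1 Ψ1).mono ?_
    have : 1 / D ≤ 1 / σ' := one_div_le_one_div_of_le h0 (by linarith)
    have e1 : 5 / σ' = 4 / σ' + 1 / σ' := by ring
    linarith
  have g1 : ∀ y, |lam - dot e (n0 x r y)| ≤ 3 := fun y => by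
    have h1 := abs_dot_le e (n0 x r y)
    have h2 : ‖e‖ * ‖n0 x r y‖ ≤ 3 / 2 * 1 :=
      mul_le_mul he (n0_le hr0 x y) (norm_nonneg _) (by norm_num)
    rw [abs_le] at *
    constructor <;> linarith [h1.1, h1.2, hlam.1, hlam.2]
  have gL := lip_dot he (n0_lip hr0 x) lam
  have W1 : ∀ y, ‖WW x e lam r y‖ ≤ 6 / r := fun y => by
    unfold WW
    rw [norm_smul, Real.norm_eq_abs]
    calc _ ≤ 3 * (2 / r) := mul_le_mul (g1 y) (n1_le hr0 x y) (norm_nonneg _) (by norm_num)
      _ = _ := by ring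
  have WL : Lip (48 / r ^ 2) (WW x e lam r) := by
    refine Lip.mono (gL.smul (n1_lip hr0 x) g1 (n1_le hr0 x)) (le_of_eq ?_)
    field_simp
    ring
  have VL := L1.smul WL s1 W1
  have V1 : ∀ y, ‖((1 - chi q D y) * Ψ y) • WW x e lam r y‖ ≤ 6 / r := fun y => by
    rw [norm_smul, Real.norm_eq_abs]
    calc _ ≤ 1 * (6 / r) := mul_le_mul (s1 y) (W1 y) (norm_nonneg _) (by norm_num)
      _ = _ := one_mul _
  have key := hd.ub _ ({y | |‖y - x‖ - r| ≤ σ} \ ball q (2 * D)) (6 / r) _ (by positivity)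
    (by positivity) ?_ ?_ V1 VL
  · refine key.trans (mul_le_mul ?_ (d.mΓ_mono hd.Γ_nonneg ?_) (d.mΓ_nonneg hd.Γ_nonneg _)
      (by positivity))
    · have e1 : (1 * (48 / r ^ 2) + 6 / r * (5 / σ')) * σ' = 48 / r * (σ' / r) + 30 / r := by
        field_simp
        ring
      have e2 : σ' / r ≤ 1 := by rw [div_le_one hr0]; linarith
      have e3 : 48 / r * (σ' / r) ≤ 48 / r * 1 := mul_le_mul_of_nonneg_left e2 (by positivity)
      have e4 : 84 / r = 6 / r + 48 / r * 1 + 30 / r := by ring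
      linarith
    · rintro p ⟨y, ⟨hy1, hy2⟩, hp⟩
      simp only [mem_ofPred_eq, mem_ball, not_lt] at hy1 hy2
      rw [← dist_eq_norm] at hy1
      have t1 := dist_triangle p y x
      have t2 := dist_triangle y p x
      have t3 := dist_triangle y p q
      have t4 := dist_comm y p
      refine ⟨?_, ?_⟩
      · simp only [Ann, mem_ofPred_eq]
        rw [abs_le] at hy1 ⊢
        constructor <;> linarith [hy1.1, hy1.2]
      · simp only [mem_ball, not_lt]
        linarith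
  · rintro y ⟨hy1, -⟩
    refine hΩ ?_
    simp only [mem_ofPred_eq] at hy1
    rw [mem_closedBall, dist_eq_norm]
    linarith [(abs_le.mp hy1).2]
  · intro y hy
    by_cases h1 : |‖y - x‖ - r| ≤ σ
    · have h2 : y ∈ ball q (2 * D) := by
        by_contra h2
        exact hy ⟨h1, h2⟩
      rw [mem_ball, dist_eq_norm] at h2
      simp [chi_one hD0 h2.le]
    · simp [Ψ0 y (not_le.mp h1)]

/-- the near part -/
theorem near' {γ : ℂ → ℂ} {θ e x q : ℂ} {Ω : Set ℂ} {σ' D r : ℝ} {d : Atoms}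
    (hd : LevelData γ θ Ω σ' d) (h0 : 0 < σ') (hD : σ' ≤ D) (hr : D ≤ r / 2)
    (hΩ : closedBall x (2 * r) ⊆ Ω) (hθ : ‖θ‖ = 1) (heθ : ‖e - θ‖ ≤ 1 / 2) (he : ‖e‖ ≤ 3 / 2)
    {Ψ τ : ℂ → ℝ} (Ψ1 : ∀ y, |Ψ y| ≤ 1) (ΨL : Lip (4 / σ') Ψ) (Ψτ : ∀ y, |Ψ y| ≤ 2 * r * τ y)
    (τ0 : ∀ y, 0 ≤ τ y) (τ1 : ∀ y, τ y ≤ 4 / r) (τL : Lip (4 / (σ' * r)) τ)
    (τz : ∀ y, 2 * r < ‖y - x‖ → τ y = 0) :
    -(3900 * (D / r ^ 2) * d.mν univ) ≤
      ∫ y, dot ((chi q D y * Ψ y) • WW x e (dot e (n0 x r q)) r y + (288 * (D / r) * τ y) • e)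
        (γ y) := by
  have hr0 : 0 < r := by linarith
  have hD0 : 0 < D := by linarith
  set δ := 18 * (D / r) with hδ
  have hδ0 : 0 < δ := by positivity
  have gL := lip_dot he (n0_lip hr0 x) (dot e (n0 x r q))
  set g := fun y => dot e (n0 x r q) - dot e (n0 x r y) with hg
  set gc := fun y => max (-δ) (min (g y) δ) with hgc
  have gc1 : ∀ y, |gc y| ≤ δ := fun y =>
    abs_le.mpr ⟨clamp_ge _ _ _, clamp_le (by linarith) _⟩
  have gcL : Lip (6 / r) gc := fun y y' => by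
    refine (abs_clamp_sub_le _ _ _ _).trans ((gL y y').trans (le_of_eq ?_))
    ring
  have c1 : ∀ y, |chi q D y| ≤ 1 := fun y => by
    rw [abs_of_nonneg (chi_nonneg q D y)]; exact chi_le q D y
  have eg : ∀ y, chi q D y * g y = chi q D y * gc y := fun y => by
    by_cases hy : 3 * D ≤ ‖y - q‖
    · rw [chi_zero hD0 hy, zero_mul, zero_mul]
    · have h1 := gL y q
      have h2 : g q = 0 := sub_self _
      change ‖g y - g q‖ ≤ _ at h1
      rw [h2, sub_zero, Real.norm_eq_abs] at h1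
      have h3 : 3 / 2 * (4 / r) * ‖y - q‖ ≤ 3 / 2 * (4 / r) * (3 * D) :=
        mul_le_mul_of_nonneg_left (not_le.mp hy).le (by positivity)
      have h4 : 3 / 2 * (4 / r) * (3 * D) = δ := by rw [hδ]; ring
      have h5 := abs_le.mp (h1.trans (h3.trans h4.le))
      simp only [hgc]
      rw [min_eq_left h5.2, max_eq_right h5.1]
  have h1 : ∀ y, |chi q D y * gc y| ≤ δ := fun y => by
    rw [abs_mul]
    calc _ ≤ 1 * δ := mul_le_mul (c1 y) (gc1 y) (abs_nonneg _) zero_le_one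
      _ = _ := one_mul _
  have hL := (chi_lip q hD0).mul gcL c1 gc1
  have s1 : ∀ y, |Ψ y * (chi q D y * gc y)| ≤ δ := fun y => by
    rw [abs_mul]
    calc _ ≤ 1 * δ := mul_le_mul (Ψ1 y) (h1 y) (abs_nonneg _) zero_le_one
      _ = _ := one_mul _
  have sL := ΨL.mul hL Ψ1 h1
  have VL := sL.smul (n1_lip hr0 x) s1 (n1_le hr0 x)
  have eV : ∀ y, (chi q D y * Ψ y) • WW x e (dot e (n0 x r q)) r y =
      (Ψ y * (chi q D y * gc y)) • n1 x r y := fun y => by
    rw [← eg y]
    unfold WW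
    rw [smul_smul]
    congr 1
    simp only [hg]
    ring
  simp_rw [eV]
  have V1 : ∀ y, ‖(Ψ y * (chi q D y * gc y)) • n1 x r y‖ ≤ δ * (2 / r) := fun y => by
    rw [norm_smul, Real.norm_eq_abs]
    exact mul_le_mul (s1 y) (n1_le hr0 x y) (norm_nonneg _) hδ0.le
  have V2 : ∀ y, ‖(Ψ y * (chi q D y * gc y)) • n1 x r y‖ ≤ 288 * (D / r) * τ y / 4 := fun y => by
    rw [norm_smul, Real.norm_eq_abs, abs_mul]
    have := τ0 y
    calc _ ≤ 2 * r * τ y * δ * (2 / r) :=
          mul_le_mul (mul_le_mul (Ψτ y) (h1 y) (abs_nonneg _) (by positivity)) (n1_le hr0 x y)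
            (norm_nonneg _) (by positivity)
      _ = _ := by rw [hδ]; field_simp; ring
  have T1 : ∀ y, |288 * (D / r) * τ y| ≤ 288 * (D / r) * (4 / r) := fun y => by
    have := τ0 y
    rw [abs_of_nonneg (by positivity)]
    exact mul_le_mul_of_nonneg_left (τ1 y) (by positivity)
  have TL : Lip (288 * (D / r) * (4 / (σ' * r)) * (3 / 2))
      (fun y => (288 * (D / r) * τ y) • e) := fun y y' => by
    rw [← sub_smul, ← mul_sub, norm_smul, norm_mul, Real.norm_of_nonneg (by positivity)]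
    have := τL y y'
    calc _ ≤ 288 * (D / r) * (4 / (σ' * r) * ‖y - y'‖) * (3 / 2) :=
          mul_le_mul (mul_le_mul_of_nonneg_left this (by positivity)) he (norm_nonneg _)
            (by positivity)
      _ = _ := by ring
  have key := hd.lb _ (closedBall x (2 * r)) (δ * (2 / r) + 288 * (D / r) * (4 / r) * (3 / 2)) _
    (by positivity) (by positivity) hΩ ?_ ?_ (VL.add TL) ?_
  · refine le_trans (neg_le_neg ?_) key
    refine mul_le_mul ?_ (d.mν_mono hd.ν_nonneg (subset_univ _)) (d.mν_nonneg hd.ν_nonneg _)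
      (by positivity)
    have e1 : δ * (2 / r) + 288 * (D / r) * (4 / r) * (3 / 2) +
        (δ * (12 / r ^ 2) + 2 / r * (1 * (1 * (6 / r) + δ * (1 / D)) + δ * (4 / σ')) +
          288 * (D / r) * (4 / (σ' * r)) * (3 / 2)) * σ' =
        3636 * (D / r ^ 2) + 216 * (D / r ^ 2) * (σ' / r) + 48 * (σ' / r ^ 2) := by
      rw [hδ]
      field_simp
      ring
    have e2 : σ' / r ≤ 1 := by rw [div_le_one hr0]; linarith
    have e3 : 216 * (D / r ^ 2) * (σ' / r) ≤ 216 * (D / r ^ 2) * 1 :=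
      mul_le_mul_of_nonneg_left e2 (by positivity)
    have e4 : σ' / r ^ 2 ≤ D / r ^ 2 := div_le_div_of_nonneg_right hD (by positivity)
    linarith
  · intro y hy
    rw [mem_closedBall, dist_eq_norm, not_le] at hy
    have h2 := τz y hy
    have h3 := Ψτ y
    rw [h2, mul_zero] at h3
    simp [h2, abs_nonpos_iff.mp h3]
  · intro y
    refine (norm_add_le _ _).trans (add_le_add (V1 y) ?_)
    rw [norm_smul, Real.norm_eq_abs]
    exact mul_le_mul (T1 y) he (norm_nonneg _) (by positivity)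
  · intro y
    have := τ0 y
    exact cone_of hθ heθ (by positivity) (V2 y)

end Step

open Step in
theorem step (h1 : IBP1Stmt) (h2 : IBP2Stmt) : StepStmt := by
  refine ⟨7800, 1 / 576, by norm_num, by norm_num, by norm_num, ?_⟩
  intro b hb θ e Ω σ' σ D d x q r t t' hθ heθ hd h0 hσ hD hr hΩ hB hB' hy'
  have hr0 : 0 < r := by linarith
  have hD0 : 0 < D := by linarith
  have he : ‖e‖ ≤ 3 / 2 := by
    have := norm_add_le (e - θ) θ
    rw [sub_add_cancel] at this
    linarith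
  have a1 : σ' ≤ σ := by linarith
  have a2 : σ ≤ r / 2 := by linarith
  have a3 : σ' ≤ r / 2 := by linarith
  obtain ⟨t0, t1, -⟩ := id hB
  obtain ⟨t0', t1', -⟩ := id hB'
  set lam := dot e (n0 x r q) with hlam
  have hl : |lam| ≤ 3 / 2 := by
    have h2 : ‖e‖ * ‖n0 x r q‖ ≤ 3 / 2 * 1 :=
      mul_le_mul he (n0_le hr0 x q) (norm_nonneg _) (by norm_num)
    exact (abs_dot_le _ _).trans (by linarith)
  have hsub := yv_sub h1 h2 hb x e lam h0 a1 a2 hB hB'
  set Ψ := fun y : ℂ => tailM r σ t ‖y - x‖ - tailM r σ' t' ‖y - x‖ with hΨ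
  set τ := fun y : ℂ => tauM r σ t ‖y - x‖ + tauM r σ' t' ‖y - x‖ with hτ
  have Ψ1 : ∀ y, |Ψ y| ≤ 1 := fun y => by
    have := tailM_nonneg h0 a1 a2 t0 t1 ‖y - x‖
    have := tailM_le_one h0 a1 a2 t0 t1 ‖y - x‖
    have := tailM_nonneg h0 le_rfl a3 t0' t1' ‖y - x‖
    have := tailM_le_one h0 le_rfl a3 t0' t1' ‖y - x‖
    rw [abs_le]; constructor <;> simp only [hΨ] <;> linarith
  have ΨL : Lip (4 / σ') Ψ := by
    refine ((Lip.radial (by positivity) (tailM_lip h0 a1 a2 t0 t1) x).sub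
      (Lip.radial (by positivity) (tailM_lip h0 le_rfl a3 t0' t1') x)).mono (le_of_eq ?_)
    ring
  have Ψ0 : ∀ y, σ < |‖y - x‖ - r| → Ψ y = 0 := fun y hy => by
    simp only [hΨ]
    rcases lt_abs.mp hy with h | h
    · rw [tailM_of_ge h0 a1 (by linarith), tailM_of_ge h0 le_rfl (by linarith), sub_self]
    · rw [tailM_of_le h0 a1 a2 (by linarith), tailM_of_le h0 le_rfl a3 (by linarith), sub_self]
  have Ψτ : ∀ y, |Ψ y| ≤ 2 * r * τ y := fun y => by
    have := tailM_nonneg h0 a1 a2 t0 t1 ‖y - x‖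
    have := tailM_le_tau h0 a1 a2 t0 t1 ‖y - x‖
    have := tailM_nonneg h0 le_rfl a3 t0' t1' ‖y - x‖
    have := tailM_le_tau h0 le_rfl a3 t0' t1' ‖y - x‖
    rw [abs_le]; constructor <;> simp only [hΨ, hτ] <;> linarith
  have τ0 : ∀ y, 0 ≤ τ y := fun y =>
    add_nonneg (tauM_nonneg h0 a1 a2 t0 t1 _) (tauM_nonneg h0 le_rfl a3 t0' t1' _)
  have τ1 : ∀ y, τ y ≤ 4 / r := fun y => by
    have := tauM_le h0 a1 a2 t0 t1 ‖y - x‖
    have := tauM_le h0 le_rfl a3 t0' t1' ‖y - x‖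
    have e1 : 4 / r = 2 / r + 2 / r := by ring
    simp only [hτ]
    linarith
  have τL : Lip (4 / (σ' * r)) τ := by
    refine ((Lip.radial (by positivity) (tauM_lip h0 a1 a2 t0 t1) x).add
      (Lip.radial (by positivity) (tauM_lip h0 le_rfl a3 t0' t1') x)).mono (le_of_eq ?_)
    ring
  have τz : ∀ y, 2 * r < ‖y - x‖ → τ y = 0 := fun y hy => by
    simp only [hτ]
    rw [tauM_of_ge h0 a1 (by linarith), tauM_of_ge h0 le_rfl (by linarith), add_zero]
  have hfar := far (q := q) hd h0 hσ hD (by linarith) hΩ he hl Ψ1 ΨL Ψ0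
  have hnear := near' (q := q) hd h0 (by linarith : σ' ≤ D) (by linarith) hΩ hθ heθ he Ψ1 ΨL Ψτ
    τ0 τ1 τL τz
  have cW := cont_WW x e lam hr0
  have cΨ := ΨL.continuous
  have cχ := (chi_lip q hD0).continuous
  have i1 := int_dot hb (V := fun y => ((1 - chi q D y) * Ψ y) • WW x e lam r y)
    (((continuous_const.sub cχ).mul cΨ).smul cW)
  have i2 := int_dot hb (V := fun y => (chi q D y * Ψ y) • WW x e lam r y) ((cχ.mul cΨ).smul cW)
  have i3 := int_tau hb (cont_tauM r σ t x) e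
  have i4 := int_tau hb (cont_tauM r σ' t' x) e
  have split : ∫ y, Ψ y * dot (WW x e lam r y) (grad b y) =
      (∫ y, dot (((1 - chi q D y) * Ψ y) • WW x e lam r y) (grad b y)) +
        ∫ y, dot ((chi q D y * Ψ y) • WW x e lam r y) (grad b y) := by
    rw [← integral_add i1 i2]
    refine integral_congr_ae (ae_of_all _ fun y => ?_)
    simp only [dot_smul_left]
    ring
  have split2 : ∫ y, dot ((chi q D y * Ψ y) • WW x e lam r y + (288 * (D / r) * τ y) • e)
      (grad b y) = (∫ y, dot ((chi q D y * Ψ y) • WW x e lam r y) (grad b y)) -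
        288 * (D / r) * (yv (grad b) e x r σ t + yv (grad b) e x r σ' t') := by
    unfold yv
    rw [← neg_add, ← integral_add i3 i4, mul_neg, sub_neg_eq_add, ← integral_const_mul,
      ← integral_add i2]
    · refine integral_congr_ae (ae_of_all _ fun y => ?_)
      simp only [dot_add_left, dot_smul_left, hτ]
      ring
    · exact (i3.add i4).const_mul _
  rw [split2] at hnear
  change _ = ∫ y, Ψ y * dot (WW x e lam r y) (grad b y) at hsub
  rw [split] at hsub
  have hf := (abs_le.mp hfar).1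
  have hc : D / r ≤ 1 / 576 := by rw [div_le_iff₀ hr0]; linarith
  have hc0 : 0 ≤ D / r := by positivity
  have m1 := d.mΓ_nonneg hd.Γ_nonneg (Ann x r (2 * σ) \ ball q D)
  have m2 := d.mν_nonneg hd.ν_nonneg univ
  set G := d.mΓ (Ann x r (2 * σ) \ ball q D)
  set N := d.mν univ
  set y := yv (grad b) e x r σ t
  set y' := yv (grad b) e x r σ' t'
  set c := D / r
  have e1 : 3900 * (D / r ^ 2) * N = 3900 * (c * N) / r := by
    simp only [c]; field_simp
  have e2 : 84 / r * G = 84 * G / r := by ring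
  have hE : -((84 * G + 3900 * (c * N)) / r) + 288 * c * (y + y') ≤ y - y' := by
    rw [add_div]; linarith
  have hE0 : 0 ≤ (84 * G + 3900 * (c * N)) / r := by positivity
  have hE2 : y' - 2 * ((84 * G + 3900 * (c * N)) / r) ≤ y := by
    by_contra hcon
    push Not at hcon
    nlinarith [mul_nonneg hc0 hy']
  have hE3 := mul_le_mul_of_nonneg_left hE2 hr0.le
  have e3 : r * (y' - 2 * ((84 * G + 3900 * (c * N)) / r)) =
      r * y' - 2 * (84 * G + 3900 * (c * N)) := by field_simp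
  rw [e3] at hE3
  linarith

end

end Crest.Agent.R112
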