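import Crest.Agent.R112.Basic

/-! Row 112: the strip lemma and the integration by parts on a tree. -/

set_option autoImplicit false

namespace Crest.Agent.R112

open MeasureTheory Set Metric Filter Topology
open scoped ENNReal NNReal Classical

noncomputable section

theorem strip : StripStmt := by
  refine ⟨8 * Real.pi, by positivity, fun ρ hρ p L w hL hw => ?_⟩
  set A := {x : ℂ | |dist p x - ρ x| ≤ w ∧ dist p x ≤ L} with hA
  have hc := hρ.continuous
  have mA : MeasurableSet A := by
    have c1 : Continuous fun x : ℂ => |dist p x - ρ x| := by fun_prop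
    have c2 : Continuous fun x : ℂ => dist p x := by fun_prop
    exact ((isClosed_le c1 continuous_const).inter (isClosed_le c2 continuous_const)).measurableSet
  have hd : ∀ q : ℝ × ℝ, 0 < q.1 → dist p (p + Complex.polarCoord.symm q) = q.1 := fun q hq => by
    rw [dist_self_add_right, Complex.norm_polarCoord_symm, abs_of_pos hq]
  set B : Set (ℝ × ℝ) := polarCoord.target ∩ {q | p + Complex.polarCoord.symm q ∈ A} with hB
  have mB : MeasurableSet B := by
    refine polarCoord.open_target.measurableSet.inter (mA.preimage (Continuous.measurable ?_))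
    simp only [Complex.polarCoord_symm_apply]
    fun_prop
  have h1 : volume A ≤ ENNReal.ofReal L * volume B := by
    rw [← lintegral_indicator_one mA, ← lintegral_add_left_eq_self _ p,
      ← Complex.lintegral_comp_polarCoord_symm, ← lintegral_indicator_one mB,
      ← lintegral_const_mul' _ _ ENNReal.ofReal_ne_top,
      ← lintegral_indicator polarCoord.open_target.measurableSet]
    refine lintegral_mono fun q => ?_
    by_cases hq : q ∈ polarCoord.target
    · by_cases hq' : p + Complex.polarCoord.symm q ∈ A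
      · rw [indicator_of_mem hq, indicator_of_mem hq', indicator_of_mem (show q ∈ B from ⟨hq, hq'⟩)]
        have := hq'.2
        rw [hd q hq.1] at this
        simpa using ENNReal.ofReal_le_ofReal this
      · rw [indicator_of_mem hq, indicator_of_notMem hq']; simp
    · rw [indicator_of_notMem hq]; simp
  have h2 : volume B ≤ ENNReal.ofReal (4 * w) * ENNReal.ofReal (2 * Real.pi) := by
    rw [Measure.volume_eq_prod, Measure.prod_apply_symm mB]
    calc _ ≤ ∫⁻ θ, (Ioo (-Real.pi) Real.pi).indicator (fun _ => ENNReal.ofReal (4 * w)) θ := by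
          refine lintegral_mono fun θ => ?_
          by_cases hθ : θ ∈ Ioo (-Real.pi) Real.pi
          · rw [indicator_of_mem hθ]
            refine (Real.volume_le_diam _).trans (ediam_le fun t ht t' ht' => ?_)
            have a1 := ht.2.1
            have a2 := ht'.2.1
            rw [hd _ ht.1.1] at a1
            rw [hd _ ht'.1.1] at a2
            have a3 := hρ (p + Complex.polarCoord.symm (t, θ)) (p + Complex.polarCoord.symm (t', θ))
            have a4 : ‖p + Complex.polarCoord.symm (t, θ) - (p + Complex.polarCoord.symm (t', θ))‖ =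
                |t - t'| := by
              have := Complex.norm_polarCoord_symm (t - t', θ)
              rw [← this]
              simp only [Complex.polarCoord_symm_apply]
              congr 1; push_cast; ring
            rw [a4, Real.norm_eq_abs] at a3
            rw [edist_dist, Real.dist_eq]
            refine ENNReal.ofReal_le_ofReal ?_
            simp only [abs_le] at a1 a2 a3
            rcases abs_cases (t - t') with h | h <;> linarith [h.1]
          · have : (fun t => (t, θ)) ⁻¹' B = ∅ := eq_empty_of_forall_notMem fun t ht => hθ ht.1.2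
            simp [this]
      _ = _ := by
          rw [lintegral_indicator measurableSet_Ioo, setLIntegral_const, Real.volume_Ioo]
          congr 2; ring
  refine h1.trans ((mul_le_mul_right h2 _).trans_eq ?_)
  rw [← ENNReal.ofReal_mul (by positivity), ← ENNReal.ofReal_mul hL.le]
  congr 1; ring

theorem strip_pointwise (W : ℂ → ℝ) (x : ℂ) {e : ℂ} (he : ‖e‖ = 1) :
    ‖grad W x‖ ≤ 5 * fderiv ℝ W x e + 5 * max (-fderiv ℝ W x (e * (1 + Complex.I / 4))) 0 +
      5 * max (-fderiv ℝ W x (e * (1 - Complex.I / 4))) 0 := by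
  have h1 := sq_norm_eq_dot e (grad W x) he
  have e1 : fderiv ℝ W x e = dot e (grad W x) := by rw [fderiv_eq_dot, dot_comm]
  have e2 : fderiv ℝ W x (e * (1 + Complex.I / 4)) =
      dot e (grad W x) + dot (Complex.I * e) (grad W x) / 4 := by
    rw [fderiv_eq_dot]; simp [dot]; ring
  have e3 : fderiv ℝ W x (e * (1 - Complex.I / 4)) =
      dot e (grad W x) - dot (Complex.I * e) (grad W x) / 4 := by
    rw [fderiv_eq_dot]; simp [dot]; ring
  rw [e1, e2, e3]
  set a := dot e (grad W x)
  set b := dot (Complex.I * e) (grad W x)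
  have h2 : ‖grad W x‖ ≤ |a| + |b| := by
    refine (abs_le_of_sq_le_sq' ?_ (by positivity)).2
    rw [h1, add_sq, sq_abs, sq_abs]
    have := mul_nonneg (abs_nonneg a) (abs_nonneg b)
    linarith
  have m1 := le_max_left (-(a + b / 4)) 0
  have m2 := le_max_right (-(a + b / 4)) 0
  have m3 := le_max_left (-(a - b / 4)) 0
  have m4 := le_max_right (-(a - b / 4)) 0
  rcases abs_cases a with h | h <;> rcases abs_cases b with h' | h' <;> linarith [h.1, h'.1]

theorem tree : TreeStmt := by
  refine ⟨5, fun W L hW e z S κ₀ Np Nm G he hS _ _ _ hN hG => ?_⟩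
  set ψ : ℂ → ℝ := fun y => max 0 (min (3 - ‖y - z‖ / S) 1) with hψ
  have ψ0 : ∀ y, 0 ≤ ψ y := fun y => le_max_left _ _
  have ψ1 : ∀ y, ψ y ≤ 1 := fun y => max_le zero_le_one (min_le_right _ _)
  have ψa : ∀ y ∈ ball z (2 * S), ψ y = 1 := fun y hy => by
    rw [mem_ball, dist_eq_norm, ← div_lt_iff₀ hS] at hy
    simp only [hψ]
    rw [min_eq_right (by linarith), max_eq_right zero_le_one]
  have ψb : ∀ y, y ∉ ball z (3 * S) → ψ y = 0 := fun y hy => by
    rw [mem_ball, dist_eq_norm, not_lt, ← le_div_iff₀ hS] at hy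
    exact max_eq_left ((min_le_left _ _).trans (by linarith))
  have ψL : Lip (1 / S) ψ := Lip.radial (by positivity) (g := fun t => max 0 (min (3 - t / S) 1))
    (fun s t => (abs_clamp_sub_le _ _ _ _).trans_eq (by
      rw [show 3 - s / S - (3 - t / S) = -(1 / S * (s - t)) by ring, abs_neg, abs_mul,
        abs_of_pos (by positivity)])) z
  have ψc : HasCompactSupport ψ := HasCompactSupport.intro (isCompact_closedBall z (3 * S))
    fun y hy => ψb y fun h => hy (ball_subset_closedBall h)
  have ψi : Integrable ψ := ψL.continuous.integrable_of_hasCompactSupport ψc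
  have hF : ∀ x, ‖fderiv ℝ W x‖ ≤ L := fun x => norm_fderiv_le_of_lipschitz ℝ hW
  have hv : ∀ x v, ‖fderiv ℝ W x v‖ ≤ L * ‖v‖ := fun x v =>
    ((fderiv ℝ W x).le_opNorm v).trans (mul_le_mul_of_nonneg_right (hF x) (norm_nonneg _))
  have i0 : Integrable fun x => ‖grad W x‖ * ψ x :=
    ψi.bdd_mul (c := L) (measurable_grad W).norm.aestronglyMeasurable
      (ae_of_all _ fun x => by rw [norm_norm, norm_grad_eq]; exact hF x)
  have i1 : Integrable fun x => fderiv ℝ W x e * ψ x :=
    ψi.bdd_mul (measurable_fderiv_apply_const ℝ W e).aestronglyMeasurable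
      (ae_of_all _ fun x => hv x e)
  have i2 : ∀ v, Integrable fun x => max (-fderiv ℝ W x v) 0 * ψ x := fun v =>
    ψi.bdd_mul (c := L * ‖v‖)
      ((measurable_fderiv_apply_const ℝ W v).neg.max measurable_const).aestronglyMeasurable
      (ae_of_all _ fun x => by
        rw [Real.norm_eq_abs, abs_of_nonneg (le_max_right _ _)]
        exact max_le ((neg_le_abs _).trans (hv x v)) (by positivity))
  have bd : ∀ f : ℂ → ℝ, ENNReal.ofReal (∫ x, f x) ≤ ∫⁻ x, ‖f x‖ₑ := fun f =>
    (Real.ofReal_le_enorm _).trans (enorm_integral_le_lintegral_enorm _)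
  have b2 : ∀ (v : ℂ) (N : ℂ → ℝ≥0∞), (∀ x ∈ ball z (4 * S), DifferentiableAt ℝ W x →
      ENNReal.ofReal (-fderiv ℝ W x v) ≤ N x) →
      ENNReal.ofReal (∫ x, max (-fderiv ℝ W x v) 0 * ψ x) ≤ ∫⁻ x, N x := by
    intro v N h
    refine (bd _).trans (lintegral_mono_ae ?_)
    filter_upwards [hW.ae_differentiableAt] with x hx
    by_cases hb : x ∈ ball z (3 * S)
    · refine le_trans ?_ (h x (ball_subset_ball (by linarith) hb) hx)
      rw [Real.enorm_eq_ofReal (mul_nonneg (le_max_right _ _) (ψ0 x)),
        show ENNReal.ofReal (-fderiv ℝ W x v) = ENNReal.ofReal (max (-fderiv ℝ W x v) 0) by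
          simp [ENNReal.ofReal_max]]
      exact ENNReal.ofReal_le_ofReal (mul_le_of_le_one_right (le_max_right _ _) (ψ1 x))
    · simp [ψb x hb]
  have b1 : ENNReal.ofReal (∫ x, fderiv ℝ W x e * ψ x) ≤ (ENNReal.ofReal S)⁻¹ * ∫⁻ x, G x := by
    have hW' : LipschitzWith L fun x => W x - κ₀ := by
      simpa using hW.sub (LipschitzWith.const κ₀)
    have e1 : ∫ x, fderiv ℝ W x e * ψ x = ∫ x, lineDeriv ℝ (fun x => W x - κ₀) x e * ψ x := by
      refine integral_congr_ae ?_
      filter_upwards [hW.ae_differentiableAt] with x hx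
      rw [(hx.sub_const κ₀).lineDeriv_eq_fderiv, fderiv_sub_const]
    rw [e1, hW'.integral_lineDeriv_mul_eq ψL.lipschitzWith ψc,
      ← lintegral_const_mul' _ _ (ENNReal.inv_ne_top.2 (ENNReal.ofReal_pos.2 hS).ne')]
    refine (bd _).trans (lintegral_mono fun x => ?_)
    by_cases hb : x ∈ ball z (4 * S)
    · rw [enorm_mul]
      refine mul_le_mul' ?_ (le_trans (le_of_eq (Real.enorm_eq_ofReal_abs _)) (hG x hb))
      rw [← ENNReal.ofReal_inv_of_pos hS, ← ofReal_norm]
      refine ENNReal.ofReal_le_ofReal ((norm_lineDeriv_le_of_lipschitz ℝ ψL.lipschitzWith).trans ?_)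
      rw [norm_neg, he, mul_one, Real.coe_toNNReal _ (by positivity), one_div]
    · have : ψ =ᶠ[𝓝 x] fun _ => 0 := by
        have : (closedBall z (3 * S))ᶜ ∈ 𝓝 x := isClosed_closedBall.isOpen_compl.mem_nhds
          fun h => hb (closedBall_subset_ball (by linarith) h)
        filter_upwards [this] with y hy using ψb y fun h => hy (ball_subset_closedBall h)
      simp only [this.lineDeriv_eq]
      simp [lineDeriv]
  calc ∫⁻ x in ball z (2 * S), ‖grad W x‖ₑ
      ≤ ∫⁻ x, ENNReal.ofReal (‖grad W x‖ * ψ x) := by
        refine le_trans (le_of_eq ?_) (setLIntegral_le_lintegral (ball z (2 * S)) _)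
        refine setLIntegral_congr_fun measurableSet_ball fun x hx => ?_
        simp only [ψa x hx, mul_one, ofReal_norm]
    _ = ENNReal.ofReal (∫ x, ‖grad W x‖ * ψ x) :=
        (ofReal_integral_eq_lintegral_ofReal i0
          (ae_of_all _ fun x => mul_nonneg (norm_nonneg _) (ψ0 x))).symm
    _ ≤ ENNReal.ofReal (5 * ((∫ x, max (-fderiv ℝ W x (e * (1 + Complex.I / 4))) 0 * ψ x) +
          (∫ x, max (-fderiv ℝ W x (e * (1 - Complex.I / 4))) 0 * ψ x) +
          ∫ x, fderiv ℝ W x e * ψ x)) := by
        refine ENNReal.ofReal_le_ofReal ?_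
        rw [← integral_add' (i2 _) (i2 _), ← integral_add' ((i2 _).add (i2 _)) i1,
          ← integral_const_mul]
        refine integral_mono i0 ((((i2 _).add (i2 _)).add i1).const_mul 5) fun x => ?_
        have := mul_le_mul_of_nonneg_right (strip_pointwise W x he) (ψ0 x)
        simp only [Pi.add_apply]
        linarith
    _ ≤ _ := by
        rw [ENNReal.ofReal_mul (by norm_num)]
        refine mul_le_mul' (by simp) (ENNReal.ofReal_add_le.trans (add_le_add
          (ENNReal.ofReal_add_le.trans (add_le_add (b2 _ _ fun x hx h => (hN x hx h).1)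
            (b2 _ _ fun x hx h => (hN x hx h).2))) b1))

end

end Crest.Agent.R112
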