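import Crest.Agent.R112.Basic

/-!
# Row 112: trivial level data below the lattice scale, and level data at a node
-/

set_option autoImplicit false

namespace Crest.Agent.R112

open MeasureTheory Set Metric Filter Topology
open scoped ENNReal NNReal Classical

noncomputable section

/-- the index of the cube containing `y` -/
def Sub_idx (σ : ℝ) (y : ℂ) : ℤ × ℤ := (⌊y.re / σ⌋, ⌊y.im / σ⌋)

theorem Sub_mem_cube {σ : ℝ} (hσ : 0 < σ) (i : ℤ × ℤ) (y : ℂ) :
    y ∈ cube σ i ↔ Sub_idx σ y = i := by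
  have key : ∀ (t : ℝ) (k : ℤ), ⌊t / σ⌋ = k ↔ σ * k ≤ t ∧ t < σ * (k + 1) := by
    intro t k
    rw [Int.floor_eq_iff, le_div_iff₀ hσ, div_lt_iff₀ hσ, mul_comm σ, mul_comm σ]
  rw [Sub_idx, Prod.ext_iff, key, key, and_assoc]
  rfl

theorem Sub_measurable_cube (σ : ℝ) (i : ℤ × ℤ) : MeasurableSet (cube σ i) := by
  have h1 := Complex.measurable_re
  have h2 := Complex.measurable_im
  exact (measurableSet_le measurable_const h1).inter ((measurableSet_lt h1 measurable_const).inter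
    ((measurableSet_le measurable_const h2).inter (measurableSet_lt h2 measurable_const)))

theorem Sub_dist_cen {σ : ℝ} (hσ : 0 < σ) (y : ℂ) : dist (cen σ (Sub_idx σ y)) y ≤ σ := by
  obtain ⟨h1, h2, h3, h4⟩ := (Sub_mem_cube hσ _ y).2 rfl
  rw [dist_eq_norm]
  refine (Complex.norm_le_abs_re_add_abs_im _).trans ?_
  have e1 : |(cen σ (Sub_idx σ y) - y).re| ≤ σ / 2 := by
    rw [Complex.sub_re, abs_le]
    simp only [cen]
    constructor <;> linarith
  have e2 : |(cen σ (Sub_idx σ y) - y).im| ≤ σ / 2 := by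
    rw [Complex.sub_im, abs_le]
    simp only [cen]
    constructor <;> linarith
  linarith

theorem Sub_sum_indicator {σ : ℝ} (hσ : 0 < σ) (S : Finset (ℤ × ℤ)) (B : Set ℂ) (f : ℂ → ℝ)
    (y : ℂ) : ∑ i ∈ S, (cube σ i ∩ B).indicator f y =
      if Sub_idx σ y ∈ S then B.indicator f y else 0 := by
  rw [← Finset.sum_ite_eq S (Sub_idx σ y) fun _ => B.indicator f y]
  refine Finset.sum_congr rfl fun i _ => ?_
  rw [← Set.indicator_indicator, Set.indicator_apply]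
  simp only [Sub_mem_cube hσ]

theorem Sub_sum_integral (σ : ℝ) (S : Finset (ℤ × ℤ)) {B : Set ℂ} (hB : MeasurableSet B)
    {f : ℂ → ℝ} (hf : Integrable f) :
    Integrable (fun y => ∑ i ∈ S, (cube σ i ∩ B).indicator f y) ∧
    ∑ i ∈ S, ∫ y in cube σ i ∩ B, f y = ∫ y, ∑ i ∈ S, (cube σ i ∩ B).indicator f y := by
  have h : ∀ i ∈ S, Integrable ((cube σ i ∩ B).indicator f) :=
    fun i _ => hf.indicator ((Sub_measurable_cube σ i).inter hB)
  refine ⟨integrable_finsetSum S h, ?_⟩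
  rw [integral_finsetSum S h]
  exact Finset.sum_congr rfl fun i _ =>
    (integral_indicator ((Sub_measurable_cube σ i).inter hB)).symm

theorem Sub_key {σ : ℝ} (hσ : 0 < σ) (S : Finset (ℤ × ℤ)) {B F : Set ℂ} (hB : MeasurableSet B)
    {f g : ℂ → ℝ} (hf : Integrable f) (hf0 : ∀ y, 0 ≤ f y) {a : ℝ} (ha : 0 ≤ a)
    (hg : ∀ y, |g y| ≤ a * f y) (hg0 : ∀ y, y ∉ F → g y = 0) (hFB : F ⊆ B)
    (hS : ∀ y ∈ F, Sub_idx σ y ∈ S) :
    |∫ y, g y| ≤ a * ∑ i ∈ S, ∫ y in cube σ i ∩ B, f y := by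
  obtain ⟨h1, h2⟩ := Sub_sum_integral σ S hB hf
  rw [h2, ← integral_const_mul, ← Real.norm_eq_abs]
  refine norm_integral_le_of_norm_le (h1.const_mul a) (Eventually.of_forall fun y => ?_)
  by_cases hy : y ∈ F
  · rw [Sub_sum_indicator hσ, if_pos (hS y hy), Set.indicator_of_mem (hFB hy)]
    exact hg y
  · rw [hg0 y hy, norm_zero]
    exact mul_nonneg ha (Finset.sum_nonneg fun i _ => Set.indicator_nonneg (fun y _ => hf0 y) y)

theorem Sub_sum_le {σ : ℝ} (hσ : 0 < σ) (S : Finset (ℤ × ℤ)) {B : Set ℂ} (hB : MeasurableSet B)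
    {f : ℂ → ℝ} (hf : Integrable f) (hf0 : ∀ y, 0 ≤ f y) :
    ∑ i ∈ S, ∫ y in cube σ i ∩ B, f y ≤ ∫ y in B, f y := by
  obtain ⟨h1, h2⟩ := Sub_sum_integral σ S hB hf
  rw [h2, ← integral_indicator hB]
  refine integral_mono h1 (hf.indicator hB) fun y => ?_
  simp only [Sub_sum_indicator hσ]
  split_ifs
  · exact le_rfl
  · exact Set.indicator_nonneg (fun y _ => hf0 y) y

theorem sub : SubStmt := by
  intro γ hγ θ z ρ σ hθ hσ
  let d : Atoms :=
    { I := Finset.Icc ⌊(z.re - ρ) / σ⌋ ⌊(z.re + ρ) / σ⌋ ×ˢ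
        Finset.Icc ⌊(z.im - ρ) / σ⌋ ⌊(z.im + ρ) / σ⌋
      pos := cen σ
      Γ := fun i => ∫ y in cube σ i ∩ ball z ρ, ‖γ y‖
      ν := fun i => 2 * ∫ y in cube σ i ∩ ball z ρ, ‖γ y‖ }
  have hΓ : ∀ i, 0 ≤ d.Γ i := fun i => integral_nonneg fun y => norm_nonneg _
  have hν : ∀ F, d.mν F = 2 * d.mΓ F := fun F => by
    rw [Atoms.mν, Atoms.mΓ, Finset.mul_sum]
  have hI : ∀ y ∈ ball z ρ, Sub_idx σ y ∈ d.I := by
    intro y hy
    rw [mem_ball, dist_eq_norm] at hy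
    have h1 := (Complex.abs_re_le_norm (y - z)).trans hy.le
    have h2 := (Complex.abs_im_le_norm (y - z)).trans hy.le
    rw [Complex.sub_re, abs_le] at h1
    rw [Complex.sub_im, abs_le] at h2
    refine Finset.mem_product.2 ⟨Finset.mem_Icc.2 ⟨?_, ?_⟩, Finset.mem_Icc.2 ⟨?_, ?_⟩⟩ <;>
      exact Int.floor_mono (div_le_div_of_nonneg_right (by linarith) hσ.le)
  have hkey : ∀ (g : ℂ → ℝ) (F : Set ℂ) (a : ℝ), 0 ≤ a → F ⊆ ball z ρ →
      (∀ y, y ∉ F → g y = 0) → (∀ y, |g y| ≤ a * ‖γ y‖) →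
      |∫ y, g y| ≤ a * d.mΓ (near F (2 * σ)) := by
    intro g F a ha hF hg0 hg
    refine Sub_key hσ _ measurableSet_ball hγ.norm (fun y => norm_nonneg _) ha hg hg0 hF
      fun y hy => Finset.mem_filter.2 ⟨hI y (hF hy), y, hy, ?_⟩
    exact (Sub_dist_cen hσ y).trans (by linarith)
  have hub : ∀ (V : ℂ → ℂ) (F : Set ℂ) (a Λ : ℝ), 0 ≤ a → 0 ≤ Λ → F ⊆ ball z ρ →
      (∀ y, y ∉ F → V y = 0) → (∀ y, ‖V y‖ ≤ a) →
      |∫ y, dot (V y) (γ y)| ≤ (a + Λ * σ) * d.mΓ (near F (2 * σ)) := by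
    intro V F a Λ ha hΛ hF hV0 hV
    refine (hkey _ F a ha hF (fun y hy => by rw [hV0 y hy, dot_zero_left]) fun y =>
      (abs_dot_le _ _).trans (mul_le_mul_of_nonneg_right (hV y) (norm_nonneg _))).trans ?_
    exact mul_le_mul_of_nonneg_right (le_add_of_nonneg_right (mul_nonneg hΛ hσ.le))
      (d.mΓ_nonneg hΓ _)
  have htot : d.mΓ univ ≤ ∫ y in ball z ρ, ‖γ y‖ :=
    Sub_sum_le hσ _ measurableSet_ball hγ.norm fun y => norm_nonneg _
  refine ⟨d, ⟨hΓ, fun i => mul_nonneg zero_le_two (hΓ i),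
    fun V F a Λ ha hΛ hF hV0 hV _ => hub V F a Λ ha hΛ hF hV0 hV,
    fun V F a Λ ha hΛ hF hV0 hV _ _ => ?_,
    fun τ e F G a Λ c he ha hΛ hc hF hτ0 hτ _ hG => ?_⟩, by rw [hν]; linarith, htot⟩
  · have h1 := hub V F a Λ ha hΛ hF hV0 hV
    have h2 := neg_abs_le (∫ y, dot (V y) (γ y))
    have h3 := abs_nonneg (∫ y, dot (V y) (γ y))
    rw [hν]
    linarith
  · have he' : ‖e‖ ≤ 3 / 2 := by
      have := norm_add_le (e - θ) θ
      rw [sub_add_cancel, hθ] at this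
      linarith
    have h1 := hkey (fun y => τ y * dot e (γ y)) F (a * (3 / 2)) (by positivity) hF
      (fun y hy => by rw [hτ0 y hy, zero_mul]) fun y => by
        rw [abs_mul, abs_of_nonneg (hτ y).1, mul_assoc]
        exact mul_le_mul (hτ y).2 ((abs_dot_le _ _).trans
          (mul_le_mul_of_nonneg_right he' (norm_nonneg _))) (abs_nonneg _) ha
    have h2 := neg_abs_le (∫ y, τ y * dot e (γ y))
    have h3 : c * d.mΓ {p | closedBall p (2 * σ) ⊆ G} ≤
        a * d.mΓ {p | closedBall p (2 * σ) ⊆ G} := by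
      rw [Atoms.mΓ, Finset.mul_sum, Finset.mul_sum]
      refine Finset.sum_le_sum fun i hi => mul_le_mul_of_nonneg_right ?_ (hΓ i)
      exact (hG _ ((Finset.mem_filter.1 hi).2 (mem_closedBall_self (by linarith)))).trans (hτ _).2
    have h4 := mul_le_mul_of_nonneg_left
      (d.mΓ_mono hΓ (subset_univ {p | closedBall p (2 * σ) ⊆ G})) ha
    have h5 := mul_le_mul_of_nonneg_left (d.mΓ_mono hΓ (subset_univ (near F (2 * σ)))) ha
    have h6 := mul_nonneg ha (d.mΓ_nonneg hΓ univ)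
    have h7 := mul_nonneg (mul_nonneg hΛ hσ.le) (d.mΓ_nonneg hΓ univ)
    rw [hν]
    linarith

theorem Sub_ball_le {s : ℝ} (hs : 0 < s) (a : ℤ × ℤ) {f : ℂ → ℝ} (hf : Integrable f)
    (hf0 : ∀ y, 0 ≤ f y) :
    ∫ y in ball (cen s a) (15 * s), f y ≤ ∑ c ∈ nbhd 16 a, ∫ y in cube s c, f y := by
  have h := Sub_key hs (nbhd 16 a) (B := univ) (F := ball (cen s a) (15 * s))
    (g := (ball (cen s a) (15 * s)).indicator f) MeasurableSet.univ hf hf0 zero_le_one
    (fun y => by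
      rw [one_mul, abs_of_nonneg (Set.indicator_nonneg (fun y _ => hf0 y) y)]
      exact Set.indicator_le_self' (fun y _ => hf0 y) y)
    (fun y hy => Set.indicator_of_notMem hy _) (subset_univ _) ?_
  · rw [integral_indicator measurableSet_ball, one_mul] at h
    simp only [inter_univ] at h
    exact (le_abs_self _).trans h
  · intro y hy
    rw [mem_ball, dist_eq_norm] at hy
    have h1 := (Complex.abs_re_le_norm _).trans hy.le
    have h2 := (Complex.abs_im_le_norm _).trans hy.le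
    rw [Complex.sub_re, abs_le] at h1
    rw [Complex.sub_im, abs_le] at h2
    simp only [cen] at h1 h2
    have key : ∀ (t : ℝ) (k : ℤ), -(15 * s) ≤ t - s * (k + 1 / 2) → t - s * (k + 1 / 2) ≤ 15 * s →
        |⌊t / s⌋ - k| ≤ (16 : ℕ) := by
      intro t k h1 h2
      have h3 : k - 16 ≤ ⌊t / s⌋ := by
        rw [Int.le_floor, le_div_iff₀ hs]
        push_cast
        linarith
      have h4 : ⌊t / s⌋ < k + 16 := by
        rw [Int.floor_lt, div_lt_iff₀ hs]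
        push_cast
        linarith
      rw [abs_le]
      constructor <;> omega
    exact (mem_nbhd 16 a _).2 ⟨key _ _ h1.1 h1.2, key _ _ h2.1 h2.2⟩

theorem nodeData (hL : LatStmt) (hF : FineStmt) (hS : SubStmt) : NodeDataStmt := by
  obtain ⟨C, hC, hF⟩ := hF
  refine ⟨max C 2, le_max_of_le_left hC, fun K hK γ hγ θ hθ m a => ?_⟩
  obtain ⟨-, -, hX0, hX, -⟩ := hL K (by omega) γ hγ
  have hK0 : (0 : ℝ) < K := by exact_mod_cast (by omega : 0 < K)
  have hA : 0 ≤ ∑ c ∈ nbhd 16 a, (aexc θ (lat K γ m c) + X K γ m c) :=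
    Finset.sum_nonneg fun c _ => add_nonneg (aexc_nonneg hθ.le _) (hX0 _ _)
  have hB : 0 ≤ ∑ c ∈ nbhd 16 a, (‖lat K γ m c‖ + X K γ m c) :=
    Finset.sum_nonneg fun c _ => add_nonneg (norm_nonneg _) (hX0 _ _)
  have key : ∀ j : ℕ, ∃ d : Atoms,
      LevelData γ θ (ball (cen ((K : ℝ) ^ m) a) (15 * (K : ℝ) ^ m))
        ((K : ℝ) ^ m / (K : ℝ) ^ j) d ∧
      d.mν univ ≤ 2 ^ j * (max C 2 * ∑ c ∈ nbhd 16 a, (aexc θ (lat K γ m c) + X K γ m c)) ∧
      d.mΓ univ ≤ 2 ^ j * (max C 2 * ∑ c ∈ nbhd 16 a, (‖lat K γ m c‖ + X K γ m c)) := by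
    intro j
    by_cases hj : j ≤ m
    · obtain ⟨d, h1, h2, h3⟩ := hF K hK γ hγ θ hθ m j a hj
      refine ⟨d, h1, h2.trans ?_, h3.trans ?_⟩ <;> gcongr <;> exact le_max_left _ _
    · obtain ⟨d, h1, h2, h3⟩ := hS γ hγ θ (cen ((K : ℝ) ^ m) a) (15 * (K : ℝ) ^ m)
        ((K : ℝ) ^ m / (K : ℝ) ^ j) hθ (by positivity)
      have h4 : ∫ y in ball (cen ((K : ℝ) ^ m) a) (15 * (K : ℝ) ^ m), ‖γ y‖ ≤
          2 ^ j * ∑ c ∈ nbhd 16 a, X K γ m c := by
        refine (Sub_ball_le (by positivity) a hγ.norm fun y => norm_nonneg _).trans ?_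
        rw [Finset.mul_sum]
        refine Finset.sum_le_sum fun c _ => (hX m c).trans ?_
        exact mul_le_mul_of_nonneg_right (pow_le_pow_right₀ one_le_two (by omega)) (hX0 _ _)
      have h5 : ∑ c ∈ nbhd 16 a, X K γ m c ≤
          ∑ c ∈ nbhd 16 a, (aexc θ (lat K γ m c) + X K γ m c) :=
        Finset.sum_le_sum fun c _ => le_add_of_nonneg_left (aexc_nonneg hθ.le _)
      have h6 : ∑ c ∈ nbhd 16 a, X K γ m c ≤ ∑ c ∈ nbhd 16 a, (‖lat K γ m c‖ + X K γ m c) :=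
        Finset.sum_le_sum fun c _ => le_add_of_nonneg_left (norm_nonneg _)
      have h7 := mul_le_mul_of_nonneg_right (le_max_right C 2) hA
      have h8 := mul_le_mul_of_nonneg_right (le_max_right C 2) hB
      have h9 : (0 : ℝ) ≤ 2 ^ j := by positivity
      refine ⟨d, h1, h2.trans ?_, h3.trans (h4.trans ?_)⟩
      · calc _ ≤ 2 * (2 ^ j * ∑ c ∈ nbhd 16 a, X K γ m c) := by linarith
          _ = 2 ^ j * (2 * ∑ c ∈ nbhd 16 a, X K γ m c) := by ring
          _ ≤ _ := mul_le_mul_of_nonneg_left (by linarith) h9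
      · exact mul_le_mul_of_nonneg_left (by linarith) h9
  choose d hd using key
  exact ⟨d, hd⟩

end

end Crest.Agent.R112
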