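import Crest.Agent.R112.Basic

/-! Row 112: oscillation of the disc averages at and below the top scale. -/

set_option autoImplicit false

namespace Crest.Agent.R112

open MeasureTheory Set Metric Filter Topology
open scoped ENNReal NNReal Classical

noncomputable section

/-! ### The radial comparison -/

theorem Top_lipV {φ : ℝ → ℝ} {a L R : ℝ} (hL : 0 ≤ L) (hR : 0 ≤ R) (ha : ∀ t, |φ t| ≤ a)
    (hφ : ∀ t t', |φ t - φ t'| ≤ L * |t - t'|) (h0 : ∀ t, R ≤ t → φ t = 0) (x : ℂ) :
    Lip (a + L * R) (fun y => φ ‖y - x‖ • (y - x)) := by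
  have ha0 : 0 ≤ a := (abs_nonneg _).trans (ha 0)
  have key : ∀ y y' : ℂ, ‖y' - x‖ ≤ ‖y - x‖ →
      ‖φ ‖y - x‖ • (y - x) - φ ‖y' - x‖ • (y' - x)‖ ≤ (a + L * R) * ‖y - y'‖ := by
    intro y y' h
    by_cases h1 : R ≤ ‖y' - x‖
    · rw [h0 _ h1, h0 _ (h1.trans h), zero_smul, zero_smul, sub_zero, norm_zero]
      positivity
    · have e : φ ‖y - x‖ • (y - x) - φ ‖y' - x‖ • (y' - x) =
          φ ‖y - x‖ • (y - y') + (φ ‖y - x‖ - φ ‖y' - x‖) • (y' - x) := by module
      have h2 : |‖y - x‖ - ‖y' - x‖| ≤ ‖y - y'‖ := by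
        simpa using abs_norm_sub_norm_le (y - x) (y' - x)
      have h3 : |φ ‖y - x‖ - φ ‖y' - x‖| ≤ L * ‖y - y'‖ :=
        (hφ _ _).trans (mul_le_mul_of_nonneg_left h2 hL)
      rw [e]
      refine (norm_add_le _ _).trans ?_
      rw [norm_smul, norm_smul, Real.norm_eq_abs, Real.norm_eq_abs]
      have h4 : |φ ‖y - x‖| * ‖y - y'‖ ≤ a * ‖y - y'‖ :=
        mul_le_mul_of_nonneg_right (ha _) (norm_nonneg _)
      have h5 : |φ ‖y - x‖ - φ ‖y' - x‖| * ‖y' - x‖ ≤ (L * ‖y - y'‖) * R :=
        mul_le_mul h3 (not_le.1 h1).le (norm_nonneg _) (by positivity)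
      linarith
  intro y y'
  rcases le_total ‖y' - x‖ ‖y - x‖ with h | h
  · exact key y y' h
  · rw [norm_sub_rev, norm_sub_rev y y']
    exact key y' y h

/-- the radial profile of the comparison field -/
def Top_phi (r R t : ℝ) : ℝ := 1 / (max r (min t R)) ^ 2 - 1 / R ^ 2

theorem Top_phi_zero {r R t : ℝ} (h : r ≤ R) (ht : R ≤ t) : Top_phi r R t = 0 := by
  rw [Top_phi, min_eq_right ht, max_eq_right h, sub_self]

theorem Top_phi_abs {r R : ℝ} (hr : 0 < r) (h : r ≤ R) (t : ℝ) : |Top_phi r R t| ≤ 1 / r ^ 2 := by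
  have h1 : r ≤ max r (min t R) := le_max_left _ _
  have h2 : max r (min t R) ≤ R := max_le h (min_le_right _ _)
  have h3 : 1 / (max r (min t R)) ^ 2 ≤ 1 / r ^ 2 := by gcongr
  have h4 : 1 / R ^ 2 ≤ 1 / (max r (min t R)) ^ 2 := by
    have := hr.trans_le h1
    gcongr
  have h5 : 0 ≤ 1 / R ^ 2 := by positivity
  rw [Top_phi, abs_le]
  constructor <;> linarith

theorem Top_phi_lip {r R : ℝ} (hr : 0 < r) (h : r ≤ R) (t t' : ℝ) :
    |Top_phi r R t - Top_phi r R t'| ≤ 2 * R / r ^ 4 * |t - t'| := by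
  have h0 := abs_clamp_sub_le r R t t'
  have h1 : r ≤ max r (min t R) := le_max_left _ _
  have h2 : max r (min t R) ≤ R := max_le h (min_le_right _ _)
  have h3 : r ≤ max r (min t' R) := le_max_left _ _
  have h4 : max r (min t' R) ≤ R := max_le h (min_le_right _ _)
  unfold Top_phi
  generalize max r (min t R) = c at *
  generalize max r (min t' R) = c' at *
  have hc := hr.trans_le h1
  have hc' := hr.trans_le h3
  have e : 1 / c ^ 2 - 1 / R ^ 2 - (1 / c' ^ 2 - 1 / R ^ 2) =
      -((c + c') / (c ^ 2 * c' ^ 2) * (c - c')) := by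
    field_simp
    ring
  rw [e, abs_neg, abs_mul, abs_of_pos (by positivity : 0 < (c + c') / (c ^ 2 * c' ^ 2))]
  refine mul_le_mul ?_ h0 (abs_nonneg _) (by have := hr.trans_le h; positivity)
  calc (c + c') / (c ^ 2 * c' ^ 2) ≤ (R + R) / (r ^ 2 * r ^ 2) := by
        have := hr.trans_le h
        gcongr
    _ = 2 * R / r ^ 4 := by ring

theorem Top_tail {r R t : ℝ} (hr : 0 < r) (h : r ≤ R) (ht : 0 ≤ t) :
    tailA 0 R t - tailA 0 r t = t ^ 2 * Top_phi r R t := by
  have hR := hr.trans_le h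
  unfold tailA Top_phi
  rcases le_total t r with h1 | h1
  · rw [min_eq_left h1, min_eq_left (h1.trans h), max_eq_right ht, max_eq_left h1]
    field_simp
    ring
  · rw [min_eq_right h1, max_eq_right hr.le]
    rcases le_total t R with h2 | h2
    · have := hr.trans_le h1
      rw [min_eq_left h2, max_eq_right ht, max_eq_right h1]
      field_simp
      ring
    · rw [min_eq_right h2, max_eq_right hR.le, max_eq_right h]
      simp

theorem Top_radial (h2 : IBP2Stmt) {b : ℂ → ℝ} (hb : C1c b) (x : ℂ) {r R : ℝ} (hr : 0 < r)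
    (h : r ≤ R) : 2 * Real.pi * (avg b x R - avg b x r) =
      ∫ y, dot (Top_phi r R ‖y - x‖ • (y - x)) (grad b y) := by
  have hR := hr.trans_le h
  have h1 := h2 b hb x 0 1 0 0 R 0 r le_rfl hR le_rfl hr
  simp only [ann, ball_zero, sdiff_empty, dot_zero_left, sub_zero, mul_one] at h1
  have h3 : 2 * Real.pi * (avg b x R - avg b x r) =
      (∫ y in ball x R, b y) / ((R ^ 2 - 0 ^ 2) / 2) -
        (∫ y in ball x r, b y) / ((r ^ 2 - 0 ^ 2) / 2) := by
    have := Real.pi_pos
    unfold avg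
    field_simp
    ring
  rw [h3, h1]
  refine integral_congr_ae (Eventually.of_forall fun y => ?_)
  beta_reduce
  rw [Top_tail hr h (norm_nonneg _), dot_smul_left]
  by_cases hy : y - x = 0
  · simp [hy]
  · have hn : ‖y - x‖ ≠ 0 := norm_ne_zero_iff.2 hy
    rw [nhat, div_eq_inv_mul (y - x), ← Complex.ofReal_inv, dot_real_mul_left]
    field_simp

theorem Top_near (x : ℂ) (σ : ℝ) : near (closedBall x σ) (2 * σ) ⊆ closedBall x (3 * σ) := by
  rintro p ⟨y, hy, hp⟩
  rw [mem_closedBall] at hy ⊢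
  linarith [dist_triangle p y x]

theorem Top_step (h2 : IBP2Stmt) {b : ℂ → ℝ} (hb : C1c b) {θ : ℂ} {Ω : Set ℂ} {σ K r : ℝ}
    {d : Atoms} (hd : LevelData (grad b) θ Ω σ d) (x : ℂ) (hΩ : closedBall x σ ⊆ Ω) (hr : 0 < r)
    (h : r ≤ σ) (hK : σ ≤ K * r) :
    |avg b x r - avg b x σ| ≤ (K ^ 2 + K ^ 4) / σ * d.mΓ (closedBall x (3 * σ)) := by
  have hσ := hr.trans_le h
  have hV := Top_lipV (φ := Top_phi r σ) (by positivity) hσ.le (Top_phi_abs hr h)
    (Top_phi_lip hr h) (fun t ht => Top_phi_zero h ht) x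
  have h1 := hd.ub (fun y => Top_phi r σ ‖y - x‖ • (y - x)) (closedBall x σ) (1 / r ^ 2 * σ) _
    (by positivity) (by positivity) hΩ
    (fun y hy => by
      rw [mem_closedBall, dist_eq_norm, not_le] at hy
      rw [Top_phi_zero h hy.le, zero_smul])
    (fun y => by
      rcases le_total σ ‖y - x‖ with hy | hy
      · rw [Top_phi_zero h hy, zero_smul, norm_zero]
        positivity
      · rw [norm_smul, Real.norm_eq_abs]
        exact mul_le_mul (Top_phi_abs hr h _) hy (norm_nonneg _) (by positivity)) hV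
  rw [← Top_radial h2 hb x hr h, abs_mul, abs_sub_comm,
    abs_of_pos (by have := Real.pi_pos; positivity : 0 < 2 * Real.pi)] at h1
  have h3 := d.mΓ_mono hd.Γ_nonneg (Top_near x σ)
  have h4 := d.mΓ_nonneg hd.Γ_nonneg (near (closedBall x σ) (2 * σ))
  have h5 : σ / r ≤ K := (div_le_iff₀ hr).2 hK
  have h6 : 1 / r ^ 2 * σ + (1 / r ^ 2 + 2 * σ / r ^ 4 * σ) * σ ≤ 2 * ((K ^ 2 + K ^ 4) / σ) := by
    calc 1 / r ^ 2 * σ + (1 / r ^ 2 + 2 * σ / r ^ 4 * σ) * σ
        = 2 * (((σ / r) ^ 2 + (σ / r) ^ 4) / σ) := by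
          field_simp
          ring
      _ ≤ 2 * ((K ^ 2 + K ^ 4) / σ) := by gcongr
  have h7 := mul_le_mul h6 h3 h4 (by positivity)
  have h8 := Real.pi_gt_three
  have h9 := abs_nonneg (avg b x r - avg b x σ)
  nlinarith

/-! ### The error functions -/

/-- the error at one level, as a sum of indicators -/
def Top_g (A σ : ℝ) (d : Atoms) (x : ℂ) : ℝ≥0∞ :=
  ∑ i ∈ d.I, (closedBall (d.pos i) (3 * σ)).indicator (fun _ => ENNReal.ofReal (A / σ * d.Γ i)) x

theorem Top_g_meas (A σ : ℝ) (d : Atoms) : Measurable (Top_g A σ d) :=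
  Finset.measurable_sum _ fun _ _ => measurable_const.indicator measurableSet_closedBall

theorem Top_g_eq {A σ : ℝ} (hA : 0 ≤ A) (hσ : 0 < σ) {d : Atoms} (hd : ∀ i, 0 ≤ d.Γ i) (x : ℂ) :
    ENNReal.ofReal (A / σ * d.mΓ (closedBall x (3 * σ))) = Top_g A σ d x := by
  rw [Atoms.mΓ, Finset.mul_sum, ENNReal.ofReal_sum_of_nonneg fun i _ => by
    have := hd i
    positivity, Finset.sum_filter, Top_g]
  refine Finset.sum_congr rfl fun i _ => ?_
  rw [indicator_apply]
  exact if_congr mem_closedBall_comm rfl rfl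

theorem Top_g_int {A σ : ℝ} (hA : 0 ≤ A) (hσ : 0 < σ) {d : Atoms} (hd : ∀ i, 0 ≤ d.Γ i) :
    ∫⁻ x, Top_g A σ d x = ENNReal.ofReal (9 * Real.pi * A * σ * d.mΓ univ) := by
  have h0 : d.mΓ univ = ∑ i ∈ d.I, d.Γ i := by simp [Atoms.mΓ]
  unfold Top_g
  rw [lintegral_finsetSum _ fun _ _ => measurable_const.indicator measurableSet_closedBall,
    h0, Finset.mul_sum,
    ENNReal.ofReal_sum_of_nonneg fun i _ => by
      have := hd i
      have := Real.pi_pos
      positivity]
  refine Finset.sum_congr rfl fun i _ => ?_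
  have := hd i
  rw [lintegral_indicator_const measurableSet_closedBall, Complex.volume_closedBall,
    ← ENNReal.ofReal_pow (by positivity), ← ENNReal.ofReal_coe_nnreal, NNReal.coe_real_pi,
    ← ENNReal.ofReal_mul (by positivity), ← ENNReal.ofReal_mul (by positivity)]
  congr 1
  field_simp
  ring

/-- all radii below the top scale -/
theorem Top_vert (h2 : IBP2Stmt) {b : ℂ → ℝ} (hb : C1c b) {θ : ℂ} {Ω : Set ℂ} {s K : ℝ}
    (hK : 4 ≤ K) (hs : 0 < s) {d : ℕ → Atoms}
    (hd : ∀ j, LevelData (grad b) θ Ω (s / K ^ j) (d j)) (x : ℂ) (hΩ : closedBall x s ⊆ Ω)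
    {r : ℝ} (hr : 0 < r) (h : r ≤ s) :
    ENNReal.ofReal |avg b x r - avg b x s| ≤
      ∑' j, Top_g (K ^ 2 + K ^ 4) (s / K ^ j) (d j) x := by
  have hK0 : 0 < K := by linarith
  have hK1 : 1 ≤ K := by linarith
  have hσ : ∀ j : ℕ, 0 < s / K ^ j := fun j => by positivity
  have step : ∀ (j : ℕ) (r : ℝ), s / K ^ (j + 1) ≤ r → r ≤ s / K ^ j →
      ENNReal.ofReal |avg b x r - avg b x (s / K ^ j)| ≤
        Top_g (K ^ 2 + K ^ 4) (s / K ^ j) (d j) x := by
    intro j r h1 h3
    rw [← Top_g_eq (by positivity) (hσ j) (hd j).Γ_nonneg]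
    refine ENNReal.ofReal_le_ofReal (Top_step h2 hb (hd j) x
      ((closedBall_subset_closedBall (div_le_self hs.le (one_le_pow₀ hK1))).trans hΩ)
      ((hσ _).trans_le h1) h3 ?_)
    calc s / K ^ j = K * (s / K ^ (j + 1)) := by rw [pow_succ]; field_simp
      _ ≤ K * r := by gcongr
  have tele : ∀ j : ℕ, ENNReal.ofReal |avg b x (s / K ^ j) - avg b x s| ≤
      ∑ i ∈ Finset.range j, Top_g (K ^ 2 + K ^ 4) (s / K ^ i) (d i) x := by
    intro j
    induction j with
    | zero => simp
    | succ j ih =>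
      rw [Finset.sum_range_succ_comm]
      refine (ENNReal.ofReal_le_ofReal (abs_sub_le _ (avg b x (s / K ^ j)) _)).trans
        (ENNReal.ofReal_add_le.trans (add_le_add (step j _ le_rfl ?_) ih))
      exact div_le_div_of_nonneg_left hs.le (by positivity) (pow_le_pow_right₀ hK1 j.le_succ)
  obtain ⟨j, h3, h4⟩ := exists_nat_pow_near_of_lt_one (x := r / s) (y := K⁻¹) (by positivity)
    ((div_le_one hs).2 h) (by positivity) (inv_lt_one_of_one_lt₀ (by linarith))
  rw [lt_div_iff₀ hs, inv_pow, mul_comm, ← div_eq_mul_inv] at h3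
  rw [div_le_iff₀ hs, inv_pow, mul_comm, ← div_eq_mul_inv] at h4
  refine le_trans ?_ (ENNReal.sum_le_tsum (Finset.range (j + 1)))
  rw [Finset.sum_range_succ_comm]
  exact (ENNReal.ofReal_le_ofReal (abs_sub_le _ (avg b x (s / K ^ j)) _)).trans
    (ENNReal.ofReal_add_le.trans (add_le_add (step j _ h3.le h4) (tele j)))

theorem Top_sum_int {s K M A : ℝ} (hK : 4 ≤ K) (hs : 0 < s) (hM : 0 ≤ M) (hA : 0 ≤ A)
    {d : ℕ → Atoms} (hd : ∀ j i, 0 ≤ (d j).Γ i) (hm : ∀ j, (d j).mΓ univ ≤ 2 ^ j * M) :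
    ∫⁻ x, ∑' j, Top_g A (s / K ^ j) (d j) x ≤ ENNReal.ofReal (18 * Real.pi * A * s * M) := by
  have hK0 : 0 < K := by linarith
  have hπ := Real.pi_pos
  rw [lintegral_tsum fun j => (Top_g_meas _ _ _).aemeasurable]
  have h1 : ∀ j : ℕ, ∫⁻ x, Top_g A (s / K ^ j) (d j) x ≤
      ENNReal.ofReal (9 * Real.pi * A * s * M * (1 / 2) ^ j) := by
    intro j
    rw [Top_g_int hA (by positivity) (hd j)]
    refine ENNReal.ofReal_le_ofReal ?_
    calc 9 * Real.pi * A * (s / K ^ j) * (d j).mΓ univ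
        ≤ 9 * Real.pi * A * (s / 4 ^ j) * (2 ^ j * M) := by
          have := hm j
          have := (d j).mΓ_nonneg (hd j) univ
          gcongr
      _ = 9 * Real.pi * A * s * M * (1 / 2) ^ j := by
          rw [show (4 : ℝ) = 2 * 2 by norm_num, mul_pow, one_div, inv_pow]
          field_simp
  refine (ENNReal.tsum_le_tsum h1).trans ?_
  rw [← ENNReal.ofReal_tsum_of_nonneg (fun j => by positivity)
    (summable_geometric_two.mul_left _), tsum_mul_left, tsum_geometric_two]
  exact ENNReal.ofReal_le_ofReal (le_of_eq (by ring))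

/-! ### The horizontal comparison -/

/-- the average against the cone kernel (not normalised) -/
def Top_T (b : ℂ → ℝ) (s : ℝ) (x : ℂ) : ℝ := ∫ y, max (s - ‖y - x‖) 0 * b y

theorem Top_layer {b : ℂ → ℝ} (hb : Integrable b) (x : ℂ) (s : ℝ) :
    IntegrableOn (fun r => ∫ y in ball x r, b y) (Ioc 0 s) ∧
      ∫ r in Ioc 0 s, ∫ y in ball x r, b y = Top_T b s x := by
  have hS : MeasurableSet {p : ℝ × ℂ | ‖p.2 - x‖ < p.1} :=
    (isOpen_lt (by fun_prop) (by fun_prop)).measurableSet
  have h1 : Integrable ({p : ℝ × ℂ | ‖p.2 - x‖ < p.1}.indicator fun p => b p.2)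
      ((volume.restrict (Ioc 0 s)).prod volume) := (hb.comp_snd _).indicator hS
  have h2 : ∀ r, ∫ y, {p : ℝ × ℂ | ‖p.2 - x‖ < p.1}.indicator (fun p => b p.2) (r, y) =
      ∫ y in ball x r, b y := by
    intro r
    rw [← integral_indicator measurableSet_ball]
    refine integral_congr_ae (Eventually.of_forall fun y => ?_)
    simp only [indicator_apply, mem_ofPred_eq, mem_ball, dist_eq_norm]
  refine ⟨h1.integral_prod_left.congr (Eventually.of_forall h2), ?_⟩
  simp_rw [← h2]
  rw [integral_integral_swap (f := fun r y =>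
    {p : ℝ × ℂ | ‖p.2 - x‖ < p.1}.indicator (fun p => b p.2) (r, y)) h1, Top_T]
  refine integral_congr_ae (Eventually.of_forall fun y => ?_)
  have h3 : ∀ r : ℝ, {p : ℝ × ℂ | ‖p.2 - x‖ < p.1}.indicator (fun p => b p.2) (r, y) =
      (Ioi ‖y - x‖).indicator (fun _ => b y) r := fun r => by
    simp only [indicator_apply, mem_ofPred_eq, mem_Ioi]
  simp_rw [h3]
  rw [integral_indicator measurableSet_Ioi, Measure.restrict_restrict measurableSet_Ioi,
    setIntegral_const, inter_comm, Ioc_inter_Ioi, sup_eq_right.2 (norm_nonneg _),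
    Real.volume_real_Ioc, smul_eq_mul]

theorem Top_cmp {b : ℂ → ℝ} (hb : Integrable b) (x : ℂ) {s S : ℝ} (hs : 0 < s)
    (h : ∀ r, 0 < r → r ≤ s → |avg b x r - avg b x s| ≤ S) :
    |avg b x s - Top_T b s x / (Real.pi * s ^ 3 / 3)| ≤ S := by
  have hπ := Real.pi_pos
  obtain ⟨h1, h2⟩ := Top_layer hb x s
  have h3 : ∀ c : ℝ, IntegrableOn (fun r : ℝ => Real.pi * r ^ 2 * c) (Ioc 0 s) := fun c =>
    (by fun_prop : Continuous fun r : ℝ => Real.pi * r ^ 2 * c).integrableOn_Ioc
  have h4 : ∀ c : ℝ, ∫ r in Ioc 0 s, Real.pi * r ^ 2 * c = Real.pi * s ^ 3 / 3 * c := by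
    intro c
    rw [← intervalIntegral.integral_of_le hs.le, intervalIntegral.integral_mul_const,
      intervalIntegral.integral_const_mul, integral_pow]
    ring
  have h5 := norm_integral_le_of_norm_le (μ := volume.restrict (Ioc 0 s))
    (f := fun r => (∫ y in ball x r, b y) - Real.pi * r ^ 2 * avg b x s) (h3 S)
    ((ae_restrict_mem measurableSet_Ioc).mono fun r hr => by
      have hr0 := hr.1
      have e : (∫ y in ball x r, b y) - Real.pi * r ^ 2 * avg b x s =
          Real.pi * r ^ 2 * (avg b x r - avg b x s) := by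
        rw [avg.eq_1 b x r]
        field_simp
      rw [e, Real.norm_eq_abs, abs_mul, abs_of_pos (by positivity)]
      exact mul_le_mul_of_nonneg_left (h r hr.1 hr.2) (by positivity))
  rw [integral_sub h1 (h3 _), h2, h4, h4, Real.norm_eq_abs] at h5
  have hc : 0 < Real.pi * s ^ 3 / 3 := by positivity
  have e : avg b x s - Top_T b s x / (Real.pi * s ^ 3 / 3) =
      -(Top_T b s x - Real.pi * s ^ 3 / 3 * avg b x s) / (Real.pi * s ^ 3 / 3) := by
    field_simp
    ring
  rw [e, abs_div, abs_neg, abs_of_pos hc, div_le_iff₀ hc, mul_comm S]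
  exact h5

theorem Top_shift (f : ℂ → ℝ) (s : ℝ) (x : ℂ) :
    Top_T f s x = ∫ w, max (s - ‖w‖) 0 * f (w + x) := by
  rw [Top_T, ← integral_add_right_eq_self _ x]
  simp only [add_sub_cancel_right]

theorem Top_deriv {b : ℂ → ℝ} (hb : C1c b) (s : ℝ) (z v : ℂ) (t : ℝ) :
    HasDerivAt (fun t : ℝ => Top_T b s (z + t • v))
      (Top_T (fun y => dot v (grad b y)) s (z + t • v)) t := by
  obtain ⟨L, hL0, hL⟩ := hb.exists_bound
  have hc := hb.continuous
  have hg := hb.continuous_grad
  have hk : HasCompactSupport fun w : ℂ => max (s - ‖w‖) 0 := by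
    refine HasCompactSupport.intro (isCompact_closedBall 0 s) fun w hw => ?_
    rw [mem_closedBall_zero_iff, not_le] at hw
    exact max_eq_right (by linarith)
  simp_rw [Top_shift]
  exact (hasDerivAt_integral_of_dominated_loc_of_deriv_le (μ := (volume : Measure ℂ))
    (bound := fun w => max (s - ‖w‖) 0 * (‖v‖ * L))
    (F := fun (t : ℝ) (w : ℂ) => max (s - ‖w‖) 0 * b (w + (z + t • v))) (x₀ := t) (s := univ)
    (F' := fun (t : ℝ) (w : ℂ) => max (s - ‖w‖) 0 * dot v (grad b (w + (z + t • v))))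
    univ_mem (Eventually.of_forall fun t => Continuous.aestronglyMeasurable (by fun_prop))
    (Continuous.integrable_of_hasCompactSupport (by fun_prop) hk.mul_right)
    (Continuous.aestronglyMeasurable (by fun_prop))
    (Eventually.of_forall fun w t _ => by
      rw [norm_mul, Real.norm_eq_abs, abs_of_nonneg (le_max_right _ _)]
      exact mul_le_mul_of_nonneg_left ((abs_dot_le _ _).trans
        (mul_le_mul_of_nonneg_left (hL _) (norm_nonneg _))) (le_max_right _ _))
    (Continuous.integrable_of_hasCompactSupport (by fun_prop) hk.mul_right)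
    (Eventually.of_forall fun w t _ => by
      have h2 : HasDerivAt (fun t : ℝ => w + (z + t • v)) v t := by
        have h3 := (((hasDerivAt_id t).smul_const v).const_add z).const_add w
        rw [one_smul] at h3
        exact h3
      have h4 := ((hb.1.differentiable one_ne_zero) _).hasFDerivAt.comp_hasDerivAt t h2
      rw [fderiv_eq_dot, dot_comm] at h4
      exact h4.const_mul _)).2

theorem Top_horiz {b : ℂ → ℝ} (hb : C1c b) {θ z x : ℂ} {s M : ℝ} (hs : 0 < s) {d : Atoms}
    (hd : LevelData (grad b) θ (ball z (15 * s)) s d) (hm : d.mΓ univ ≤ M)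
    (hx : x ∈ ball z (4 * s)) : |Top_T b s x - Top_T b s z| ≤ 8 * s ^ 2 * M := by
  rw [mem_ball, dist_eq_norm] at hx
  have h1 := norm_image_sub_le_of_norm_deriv_le_segment_01'
    (f := fun t : ℝ => Top_T b s (z + t • (x - z))) (C := 8 * s ^ 2 * M)
    (fun t _ => (Top_deriv hb s z (x - z) t).hasDerivWithinAt) fun t ht => ?_
  · simpa using h1
  have hp : ‖z + t • (x - z) - z‖ ≤ 4 * s := by
    rw [add_sub_cancel_left, norm_smul, Real.norm_eq_abs, abs_of_nonneg ht.1]
    nlinarith [ht.1, ht.2, norm_nonneg (x - z)]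
  generalize z + t • (x - z) = p at hp ⊢
  have hτ : Lip 1 fun y => max (s - ‖y - p‖) 0 :=
    Lip.radial (g := fun ρ => max (s - ρ) 0) zero_le_one (fun ρ ρ' => by
      refine (abs_max_sub_max_le_abs _ _ _).trans (le_of_eq ?_)
      rw [one_mul, abs_sub_comm]
      congr 1
      ring) p
  have hτ' : ∀ y, |max (s - ‖y - p‖) 0| ≤ s := fun y => by
    rw [abs_of_nonneg (le_max_right _ _)]
    exact max_le (by linarith [norm_nonneg (y - p)]) hs.le
  have hV := hτ.smul (V := fun _ => x - z) (L' := 0) (a' := 4 * s) (fun _ _ => by simp) hτ'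
    fun _ => hx.le
  have h2 := hd.ub (fun y => max (s - ‖y - p‖) 0 • (x - z)) (closedBall p s) (s * (4 * s)) _
    (by positivity) (by positivity)
    (fun y hy => by
      rw [mem_closedBall] at hy
      rw [← dist_eq_norm] at hp
      rw [mem_ball]
      linarith [dist_triangle y p z])
    (fun y hy => by
      rw [mem_closedBall, dist_eq_norm, not_le] at hy
      rw [max_eq_right (by linarith), zero_smul])
    (fun y => by
      rw [norm_smul, Real.norm_eq_abs]
      exact mul_le_mul (hτ' y) hx.le (norm_nonneg _) hs.le) hV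
  simp_rw [dot_smul_left] at h2
  refine h2.trans ?_
  have h3 := (d.mΓ_mono hd.Γ_nonneg (subset_univ (near (closedBall p s) (2 * s)))).trans hm
  calc (s * (4 * s) + (s * 0 + 4 * s * 1) * s) * d.mΓ (near (closedBall p s) (2 * s))
      = 8 * s ^ 2 * d.mΓ (near (closedBall p s) (2 * s)) := by ring
    _ ≤ 8 * s ^ 2 * M := by gcongr

theorem top (h2 : IBP2Stmt) : TopStmt := by
  intro K hK
  have hπ := Real.pi_pos
  have hK0 : 0 < K := by linarith
  refine ⟨128 * Real.pi + 2 * (18 * Real.pi * (K ^ 2 + K ^ 4)), by positivity, ?_⟩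
  intro b hb θ z s M d hs hM hd hm
  have hH : Measurable fun x => ∑' j, Top_g (K ^ 2 + K ^ 4) (s / K ^ j) (d j) x :=
    Measurable.tsum fun j => Top_g_meas _ _ _
  refine ⟨Top_T b s z / (Real.pi * s ^ 3 / 3), fun x =>
    (ball z (4 * s)).indicator (fun _ => ENNReal.ofReal (8 * M / s)) x +
      2 * ∑' j, Top_g (K ^ 2 + K ^ 4) (s / K ^ j) (d j) x,
    (measurable_const.indicator measurableSet_ball).add (hH.const_mul 2), ?_, ?_⟩
  · rw [lintegral_add_left (measurable_const.indicator measurableSet_ball),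
      lintegral_const_mul _ hH, lintegral_indicator_const measurableSet_ball, Complex.volume_ball,
      ← ENNReal.ofReal_pow (by positivity), ← ENNReal.ofReal_coe_nnreal, NNReal.coe_real_pi,
      ← ENNReal.ofReal_mul (by positivity), ← ENNReal.ofReal_mul (by positivity)]
    refine (add_le_add le_rfl (mul_le_mul' le_rfl
      (Top_sum_int hK hs hM (by positivity) (fun j => (hd j).Γ_nonneg) hm))).trans ?_
    rw [← ENNReal.ofReal_ofNat 2, ← ENNReal.ofReal_mul (by positivity),
      ← ENNReal.ofReal_add (by positivity) (by positivity)]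
    refine ENNReal.ofReal_le_ofReal (le_of_eq ?_)
    field_simp
    ring
  · intro x hx r hr hrs
    have hΩ : closedBall x s ⊆ ball z (15 * s) := fun y hy => by
      rw [mem_closedBall] at hy
      rw [mem_ball] at hx ⊢
      linarith [dist_triangle y x z]
    have hv := fun r hr hrs => Top_vert h2 hb hK hs hd x hΩ (r := r) hr hrs
    beta_reduce
    rw [indicator_of_mem hx]
    generalize ∑' j, Top_g (K ^ 2 + K ^ 4) (s / K ^ j) (d j) x = H at hv ⊢
    induction H with
    | top => simp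
    | coe S =>
      have hv' : ∀ r, 0 < r → r ≤ s → |avg b x r - avg b x s| ≤ S := fun r hr hrs =>
        ENNReal.ofReal_le_coe.1 (hv r hr hrs)
      have h3 := Top_cmp hb.integrable x hs hv'
      have h4 := Top_horiz hb hs (by simpa using hd 0) (by simpa using hm 0) hx
      have h5 : |Top_T b s x / (Real.pi * s ^ 3 / 3) - Top_T b s z / (Real.pi * s ^ 3 / 3)| ≤
          8 * M / s := by
        rw [← sub_div, abs_div, abs_of_pos (by positivity : 0 < Real.pi * s ^ 3 / 3)]
        calc |Top_T b s x - Top_T b s z| / (Real.pi * s ^ 3 / 3)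
            ≤ 8 * s ^ 2 * M / (3 * s ^ 3 / 3) := by
              have := Real.pi_gt_three
              gcongr
          _ = 8 * M / s := by field_simp
      rw [← ENNReal.ofReal_coe_nnreal, ← ENNReal.ofReal_ofNat 2,
        ← ENNReal.ofReal_mul (by positivity), ← ENNReal.ofReal_add (by positivity) (by positivity)]
      refine ENNReal.ofReal_le_ofReal ?_
      have h6 := hv' r hr hrs
      have h7 := abs_sub_le (avg b x r) (avg b x s) (Top_T b s z / (Real.pi * s ^ 3 / 3))
      have h8 := abs_sub_le (avg b x s) (Top_T b s x / (Real.pi * s ^ 3 / 3))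
        (Top_T b s z / (Real.pi * s ^ 3 / 3))
      linarith

end

end Crest.Agent.R112
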