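import Crest.Agent.R112.Basic

/-! Row 112: packing of the tree tops. -/

set_option autoImplicit false

namespace Crest.Agent.R112

open MeasureTheory Set Metric Filter Topology
open scoped ENNReal NNReal Classical

noncomputable section

def topsPhi (K : ℕ) (u : ℕ → ℤ × ℤ → ℂ) (root : Node → Node) (fresh : Node → Prop) (P : Node)
    (v : ℂ) : ℝ := if fresh P then 1024 * aexc (thw K u (root P)) v else ‖v‖

def topsG (K : ℕ) (u : ℕ → ℤ × ℤ → ℂ) (root : Node → Node) (P : Node) : ℝ :=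
  if Heavy K u P ∧ ¬ Stay K u root P then ‖u P.1 P.2‖ else 0

variable {K : ℕ} {u : ℕ → ℤ × ℤ → ℂ} {root : Node → Node} {fresh : Node → Prop} {N : ℕ}

theorem tops_aexc_nonneg (P : Node) (v : ℂ) : 0 ≤ aexc (thw K u P) v :=
  aexc_nonneg (norm_thw K u P).le v

theorem topsPhi_nonneg (P : Node) (v : ℂ) : 0 ≤ topsPhi K u root fresh P v := by
  unfold topsPhi
  split_ifs
  · have := tops_aexc_nonneg (K := K) (u := u) (root P) v
    positivity
  · exact norm_nonneg _

theorem topsG_nonneg (P : Node) : 0 ≤ topsG K u root P := by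
  unfold topsG
  split_ifs
  · exact norm_nonneg _
  · exact le_rfl

theorem tops_Dch_nonneg (hadd : ∀ n a, u (n + 1) a = ∑ c ∈ children K a, u n c) (n : ℕ)
    (a : ℤ × ℤ) : 0 ≤ Dch K u n a := by
  unfold Dch
  rw [hadd, sub_nonneg]
  exact norm_sum_le _ _

theorem tops_Dhat_nonneg (n : ℕ) (a : ℤ × ℤ) : 0 ≤ Dhat K u n a := by
  unfold Dhat
  rw [sub_nonneg]
  exact norm_sum_le _ _

theorem tops_children (hadd : ∀ n a, u (n + 1) a = ∑ c ∈ children K a, u n c) (n : ℕ)
    (a : ℤ × ℤ) : ∑ c ∈ children K a, topsPhi K u root fresh (n + 1, a) (u n c) ≤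
      topsPhi K u root fresh (n + 1, a) (u (n + 1) a) + 1024 * Dch K u n a := by
  have h0 := tops_Dch_nonneg hadd n a
  unfold topsPhi
  split_ifs
  · rw [← Finset.mul_sum, sum_aexc, ← hadd]
    unfold Dch aexc
    linarith
  · unfold Dch at h0 ⊢
    linarith

theorem tops_mem_win (hK : 128 ≤ K) {a c : ℤ × ℤ} (hc : c ∈ nbhd (K / 8) a) : c ∈ win K a := by
  rw [mem_nbhd, abs_le, abs_le] at hc
  simp only [win, Finset.mem_product, Finset.mem_Ico]
  omega

theorem tops_self_mem (A : ℕ) (a : ℤ × ℤ) : a ∈ nbhd A a := by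
  rw [mem_nbhd]; simp

theorem tops_aexc_le (hK : 128 ≤ K) (n : ℕ) {a c : ℤ × ℤ} (hc : c ∈ nbhd (K / 8) a) :
    aexc (thw K u (n, a)) (u n c) ≤ Dhat K u n a := by
  rw [← sum_aexc_thw]
  exact Finset.single_le_sum (f := fun c => aexc (thw K u (n, a)) (u n c))
    (fun c _ => tops_aexc_nonneg _ _) (tops_mem_win hK hc)

theorem tops_far {P Q : Node} (h : 1 / 16 < ‖thw K u P - thw K u Q‖) (v : ℂ) :
    ‖v‖ ≤ 1024 * (aexc (thw K u P) v + aexc (thw K u Q) v) := by
  have h1 := norm_mul_sq_le_aexc (norm_thw K u P) (norm_thw K u Q) v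
  have h2 : (1 / 16 : ℝ) ^ 2 ≤ ‖thw K u P - thw K u Q‖ ^ 2 :=
    pow_le_pow_left₀ (by norm_num) h.le 2
  have h3 := mul_le_mul_of_nonneg_left h2 (norm_nonneg v)
  linarith

theorem tops_not_stay {P : Node} (h : ¬ Stay K u root P) (v : ℂ) :
    ‖v‖ ≤ topsPhi K u root fresh (P.1 + 1, up K P.2) v + 1024 * aexc (thw K u P) v := by
  have h1 := tops_far (not_le.1 h) v
  have h2 := tops_aexc_nonneg (K := K) (u := u) P v
  unfold topsPhi
  split_ifs <;> linarith

theorem tops_node (hK : 128 ≤ K) (hR : Rules K u N root fresh) {n : ℕ} (hn : n < N) (a : ℤ × ℤ) :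
    topsPhi K u root fresh (n, a) (u n a) + topsG K u root (n, a) ≤
      topsPhi K u root fresh (n + 1, up K a) (u n a) + 2048 * Dhat K u n a := by
  have h1 := tops_aexc_le (u := u) hK n (tops_self_mem (K / 8) a)
  have h2 := tops_Dhat_nonneg (K := K) (u := u) n a
  have h3 := topsPhi_nonneg (K := K) (u := u) (root := root) (fresh := fresh) (n + 1, up K a) (u n a)
  have self : root (n, a) = (n, a) → fresh (n, a) →
      topsPhi K u root fresh (n, a) (u n a) ≤ 1024 * Dhat K u n a := fun e1 e2 => by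
    unfold topsPhi
    rw [if_pos e2, e1]
    linarith
  have same : root (n, a) = root (n + 1, up K a) → (fresh (n, a) ↔ fresh (n + 1, up K a)) →
      topsPhi K u root fresh (n, a) (u n a) = topsPhi K u root fresh (n + 1, up K a) (u n a) :=
    fun e1 e2 => by
      unfold topsPhi
      rw [e1]
      simp only [e2]
  unfold topsG
  split_ifs with hg
  · obtain ⟨e1, e2⟩ := hR.heavy n a hn hg.1 hg.2
    have := tops_not_stay (fresh := fresh) hg.2 (u n a)
    have := self e1 e2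
    simp only at *
    linarith
  · rcases hR.cases n a hn with ⟨-, e1, e2⟩ | ⟨-, -, e1, e2⟩ | ⟨e1, -, e2⟩ | ⟨-, e1, e2⟩
    · rw [same e1 e2]; linarith
    · linarith [self e1 e2]
    · have := tops_not_stay (fresh := fresh) e1 (u n a)
      have e3 : topsPhi K u root fresh (n, a) (u n a) = ‖u n a‖ := if_neg e2
      simp only at this
      linarith
    · rw [same e1 e2]; linarith

theorem tops_top (hK : 128 ≤ K) (hR : Rules K u N root fresh) (hG : Geom K N root) {n : ℕ}
    (hn : n < N) {a : ℤ × ℤ} (hr : root (n, a) = (n, a)) :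
    Mloc u (n, a) ≤ C1 * (∑ c ∈ nbhd (K / 8) a, (topsG K u root (n, c) + 1024 * Dhat K u n c) +
      1024 * Dhat K u n a) := by
  have lvl : ∀ c, root (n, a) ≠ root (n + 1, c) := fun c e => by
    have := (hG (n + 1, c) hn).1
    rw [← e, hr] at this
    simp at this
  rcases hR.cases n a hn with ⟨-, e1, -⟩ | ⟨-, ⟨c, hc, h1, h2, h3⟩, -⟩ | ⟨-, ⟨c, -, -, -, e1⟩, -⟩ |
    ⟨-, e1, -⟩
  · exact absurd e1 (lvl _)
  · refine h2.trans (mul_le_mul_of_nonneg_left ?_ (by unfold C1; positivity))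
    have h4 := Finset.single_le_sum (f := fun c => topsG K u root (n, c) + 1024 * Dhat K u n c)
      (fun c _ => add_nonneg (topsG_nonneg _) (by
        have := tops_Dhat_nonneg (K := K) (u := u) n c; positivity)) hc
    have h5 := tops_Dhat_nonneg (K := K) (u := u) n c
    have h6 := tops_Dhat_nonneg (K := K) (u := u) n a
    have h7 := topsG_nonneg (K := K) (u := u) (root := root) (n, c)
    rcases h3 with h3 | h3
    · have : topsG K u root (n, c) = ‖u n c‖ := if_pos ⟨h1, h3⟩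
      linarith
    · have := tops_far h3 (u n c)
      have a1 := tops_aexc_le (u := u) hK n hc
      have a2 := tops_aexc_le (u := u) hK n (tops_self_mem (K / 8) c)
      linarith
  · exact absurd e1 (lvl _)
  · exact absurd e1 (lvl _)

theorem tops : TopsStmt := by
  intro K hK _
  set B : ℝ≥0∞ := ((2 * (K / 8) + 1 : ℕ) : ℝ≥0∞) ^ 2 with hB
  set c1 : ℝ≥0∞ := ENNReal.ofReal C1 with hc1
  set c : ℝ≥0∞ := c1 * (B * (1024 + 2048 * (K : ℝ≥0∞) ^ 2) + (B + 1) * 1024 * (K : ℝ≥0∞) ^ 2) +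
    33 ^ 2 with hc
  have hct : c ≠ ⊤ := by
    simp only [hc, hB, hc1]
    finiteness
  refine ⟨c.toNNReal, fun u N m₀ root fresh ⟨hadd, h0, hH⟩ hR hG => ?_⟩
  rw [ENNReal.coe_toNNReal hct]
  have hK1 : 1 ≤ K := by omega
  set SW : ℕ → ℝ≥0∞ := fun n => ∑' a, ENNReal.ofReal (topsPhi K u root fresh (n, a) (u n a))
    with hSW
  set Sg : ℕ → ℝ≥0∞ := fun n => ∑' a, ENNReal.ofReal (topsG K u root (n, a)) with hSg
  set SD : ℕ → ℝ≥0∞ := fun n => ∑' a, ENNReal.ofReal (Dch K u n a) with hSD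
  set SH : ℕ → ℝ≥0∞ := fun n => ∑' a, ENNReal.ofReal (Dhat K u n a) with hSH
  set SU : ℕ → ℝ≥0∞ := fun n => ∑' a, ‖u n a‖ₑ with hSU
  have ofn : ∀ (k : ℕ) (x : ℝ), ENNReal.ofReal (k * x) = k * ENNReal.ofReal x := fun k x => by
    rw [ENNReal.ofReal_mul (Nat.cast_nonneg k), ENNReal.ofReal_natCast]
  have o1 : ∀ x : ℝ, ENNReal.ofReal (1024 * x) = 1024 * ENNReal.ofReal x := fun x => by
    simpa using ofn 1024 x
  have o2 : ∀ x : ℝ, ENNReal.ofReal (2048 * x) = 2048 * ENNReal.ofReal x := fun x => by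
    simpa using ofn 2048 x
  have s1 : ∀ n, n < N → SW n + Sg n ≤ SW (n + 1) + 1024 * SD n + 2048 * SH n := by
    intro n hn
    have k1 : SW n + Sg n ≤
        (∑' a, ENNReal.ofReal (topsPhi K u root fresh (n + 1, up K a) (u n a))) + 2048 * SH n := by
      simp only [hSW, hSg, hSH]
      rw [← ENNReal.tsum_add, ← ENNReal.tsum_mul_left, ← ENNReal.tsum_add]
      refine ENNReal.tsum_le_tsum fun a => ?_
      rw [← ENNReal.ofReal_add (topsPhi_nonneg _ _) (topsG_nonneg _), ← o2]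
      exact (ENNReal.ofReal_le_ofReal (tops_node hK hR hn a)).trans ENNReal.ofReal_add_le
    refine k1.trans (add_le_add ?_ le_rfl)
    rw [← tsum_children hK1]
    simp only [hSW, hSD]
    rw [← ENNReal.tsum_mul_left, ← ENNReal.tsum_add]
    refine ENNReal.tsum_le_tsum fun a => ?_
    rw [Finset.sum_congr rfl (fun c hc => by rw [(mem_children hK1 a c).mp hc]),
      ← ENNReal.ofReal_sum_of_nonneg (fun c _ => topsPhi_nonneg _ _), ← o1]
    exact (ENNReal.ofReal_le_ofReal (tops_children hadd n a)).trans ENNReal.ofReal_add_le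
  have s2 : ∀ k, k ≤ N → SW 0 + ∑ n ∈ Finset.range k, Sg n ≤
      SW k + 1024 * ∑ n ∈ Finset.range k, SD n + 2048 * ∑ n ∈ Finset.range k, SH n := by
    intro k hk
    induction k with
    | zero => simp
    | succ k ih =>
      rw [Finset.sum_range_succ, Finset.sum_range_succ, Finset.sum_range_succ]
      calc SW 0 + (∑ n ∈ Finset.range k, Sg n + Sg k)
          = (SW 0 + ∑ n ∈ Finset.range k, Sg n) + Sg k := by ring
        _ ≤ (SW k + 1024 * ∑ n ∈ Finset.range k, SD n + 2048 * ∑ n ∈ Finset.range k, SH n) +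
            Sg k := add_le_add (ih (by omega)) le_rfl
        _ = (SW k + Sg k) + (1024 * ∑ n ∈ Finset.range k, SD n +
            2048 * ∑ n ∈ Finset.range k, SH n) := by ring
        _ ≤ (SW (k + 1) + 1024 * SD k + 2048 * SH k) + (1024 * ∑ n ∈ Finset.range k, SD n +
            2048 * ∑ n ∈ Finset.range k, SH n) := add_le_add (s1 k (by omega)) le_rfl
        _ = _ := by ring
  have s3 : ∀ k, ∑ n ∈ Finset.range k, SD n + SU k = SU 0 := by
    intro k
    induction k with
    | zero => simp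
    | succ k ih =>
      rw [Finset.sum_range_succ, add_assoc, ← ih]
      congr 1
      simp only [hSD, hSU]
      rw [← ENNReal.tsum_add, ← tsum_children hK1 fun c => ‖u k c‖ₑ]
      refine tsum_congr fun a => ?_
      simp only [← ofReal_norm]
      rw [← ENNReal.ofReal_add (tops_Dch_nonneg hadd k a) (norm_nonneg _),
        ← ENNReal.ofReal_sum_of_nonneg fun c _ => norm_nonneg _]
      unfold Dch
      rw [sub_add_cancel]
  have s4 : SW N ≤ 1024 * SH N := by
    simp only [hSW, hSH]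
    rw [← ENNReal.tsum_mul_left]
    refine ENNReal.tsum_le_tsum fun a => ?_
    rw [← o1]
    refine ENNReal.ofReal_le_ofReal ?_
    unfold topsPhi
    rw [if_pos (hR.top a).2, (hR.top a).1]
    linarith [tops_aexc_le (u := u) hK N (tops_self_mem (K / 8) a)]
  have hH' : ∑ n ∈ Finset.range N, SH n + SH N ≤ (K : ℝ≥0∞) ^ 2 * m₀ := by
    rw [← Finset.sum_range_succ]; exact hH
  have hH'' : ∑ n ∈ Finset.range N, SH n ≤ (K : ℝ≥0∞) ^ 2 * m₀ := le_self_add.trans hH'
  have hD : ∑ n ∈ Finset.range N, SD n ≤ m₀ := (le_self_add.trans (s3 N).le).trans h0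
  have hU : SU N ≤ m₀ := (le_add_self.trans (s3 N).le).trans h0
  have s5 : ∑ n ∈ Finset.range N, Sg n ≤ (1024 + 2048 * (K : ℝ≥0∞) ^ 2) * m₀ := by
    calc _ ≤ SW N + 1024 * ∑ n ∈ Finset.range N, SD n + 2048 * ∑ n ∈ Finset.range N, SH n :=
          le_add_self.trans (s2 N le_rfl)
      _ ≤ 2048 * SH N + 1024 * m₀ + 2048 * ∑ n ∈ Finset.range N, SH n := by
          gcongr
          exact s4.trans (by gcongr; norm_num)
      _ = 1024 * m₀ + 2048 * (∑ n ∈ Finset.range N, SH n + SH N) := by ring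
      _ ≤ 1024 * m₀ + 2048 * ((K : ℝ≥0∞) ^ 2 * m₀) := by gcongr
      _ = _ := by ring
  have s6 : ∀ n ∈ Finset.range N, ∑' a,
      (if root (n, a) = (n, a) then ENNReal.ofReal (Mloc u (n, a)) else 0) ≤
      c1 * (B * Sg n + (B + 1) * 1024 * SH n) := by
    intro n hn
    have hn' := Finset.mem_range.1 hn
    have k1 : ∀ a, (if root (n, a) = (n, a) then ENNReal.ofReal (Mloc u (n, a)) else 0) ≤
        c1 * (∑ c ∈ nbhd (K / 8) a, (ENNReal.ofReal (topsG K u root (n, c)) +
          1024 * ENNReal.ofReal (Dhat K u n c)) + 1024 * ENNReal.ofReal (Dhat K u n a)) := by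
      intro a
      split_ifs with hr
      · refine (ENNReal.ofReal_le_ofReal (tops_top hK hR hG hn' hr)).trans ?_
        rw [ENNReal.ofReal_mul (by unfold C1; positivity)]
        refine mul_le_mul_right (ENNReal.ofReal_add_le.trans (add_le_add ?_ (o1 _).le)) _
        rw [ENNReal.ofReal_sum_of_nonneg fun c _ => add_nonneg (topsG_nonneg _) (by
          have := tops_Dhat_nonneg (K := K) (u := u) n c; positivity)]
        exact Finset.sum_le_sum fun c _ => ENNReal.ofReal_add_le.trans (add_le_add le_rfl (o1 _).le)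
      · exact zero_le
    refine (ENNReal.tsum_le_tsum k1).trans (le_of_eq ?_)
    rw [ENNReal.tsum_mul_left, ENNReal.tsum_add, tsum_nbhd, ENNReal.tsum_add,
      ENNReal.tsum_mul_left]
    simp only [hSg, hSH, hB]
    ring
  have s7 : ∑' a, (if root (N, a) = (N, a) then ENNReal.ofReal (Mloc u (N, a)) else 0) ≤
      33 ^ 2 * m₀ := by
    calc _ ≤ ∑' a, ∑ c ∈ nbhd 16 a, ‖u N c‖ₑ := ENNReal.tsum_le_tsum fun a => by
          rw [if_pos (hR.top a).1]
          unfold Mloc
          rw [ENNReal.ofReal_sum_of_nonneg fun c _ => norm_nonneg _]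
          simp only [ofReal_norm, le_refl]
      _ = 33 ^ 2 * SU N := by rw [tsum_nbhd]; norm_num [hSU]
      _ ≤ _ := by gcongr
  rw [Finset.sum_range_succ]
  calc _ ≤ ∑ n ∈ Finset.range N, c1 * (B * Sg n + (B + 1) * 1024 * SH n) + 33 ^ 2 * m₀ :=
        add_le_add (Finset.sum_le_sum s6) s7
    _ = c1 * (B * ∑ n ∈ Finset.range N, Sg n + (B + 1) * 1024 * ∑ n ∈ Finset.range N, SH n) +
        33 ^ 2 * m₀ := by
        rw [← Finset.mul_sum, Finset.sum_add_distrib, ← Finset.mul_sum, ← Finset.mul_sum]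
    _ ≤ c1 * (B * ((1024 + 2048 * (K : ℝ≥0∞) ^ 2) * m₀) +
        (B + 1) * 1024 * ((K : ℝ≥0∞) ^ 2 * m₀)) + 33 ^ 2 * m₀ := by gcongr
    _ = c * m₀ := by rw [hc]; ring

end

end Crest.Agent.R112
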