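import Crest.Agent.R112.Basic

/-! Transfer of the theorem from `ℂ` to `EuclideanSpace ℝ (Fin 2)`. -/

set_option autoImplicit false

namespace Crest.Agent.R112

open MeasureTheory Set Metric Filter Topology
open scoped ENNReal NNReal Classical

noncomputable section

namespace Transfer

section gen
variable {E F : Type} [NormedAddCommGroup E] [InnerProductSpace ℝ E] [FiniteDimensional ℝ E]
  [MeasurableSpace E] [BorelSpace E] [NormedAddCommGroup F] [InnerProductSpace ℝ F]
  [FiniteDimensional ℝ F] [MeasurableSpace F] [BorelSpace F]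

/-- weak gradient in a Euclidean space -/
def WGg (u : E → ℝ) (g : E → E) : Prop :=
  LocallyIntegrable u volume ∧ LocallyIntegrable g volume ∧
    ∀ φ : E → ℝ, ContDiff ℝ (⊤ : ℕ∞) φ → HasCompactSupport φ →
      ∀ v : E, ∫ x, u x * fderiv ℝ φ x v = -∫ x, inner ℝ (g x) v * φ x

theorem locInt {G : Type} [NormedAddCommGroup G] (T : E ≃ₗᵢ[ℝ] F) {u : F → G}
    (h : LocallyIntegrable u volume) : LocallyIntegrable (fun x => u (T x)) volume := by
  have h1 := (locallyIntegrable_map_homeomorph T.toHomeomorph (f := u) (μ := volume)).mp (by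
    have : Measure.map T.toHomeomorph (volume : Measure E) = volume := T.measurePreserving.map_eq
    rwa [this])
  exact h1

theorem int {G : Type} [NormedAddCommGroup G] (T : E ≃ₗᵢ[ℝ] F) {u : F → G}
    (h : Integrable u) : Integrable (fun x => u (T x)) :=
  T.measurePreserving.integrable_comp_of_integrable h

theorem integral_T (T : E ≃ₗᵢ[ℝ] F) (u : F → ℝ) : ∫ x, u (T x) = ∫ y, u y :=
  T.measurePreserving.integral_comp T.toHomeomorph.measurableEmbedding u

theorem locInt_vec (T : E ≃ₗᵢ[ℝ] F) {g : F → F} (h : LocallyIntegrable g volume) :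
    LocallyIntegrable (fun x => T.symm (g (T x))) volume := by
  intro x
  obtain ⟨s, hs, hi⟩ := locInt T h x
  exact ⟨s, hs, T.symm.toContinuousLinearEquiv.toContinuousLinearMap.integrable_comp hi⟩

theorem int_vec (T : E ≃ₗᵢ[ℝ] F) {g : F → F} (h : Integrable g) :
    Integrable (fun x => T.symm (g (T x))) :=
  T.symm.toContinuousLinearEquiv.toContinuousLinearMap.integrable_comp (int T h)

theorem wg (T : E ≃ₗᵢ[ℝ] F) {u : F → ℝ} {g : F → F} (h : WGg u g) :
    WGg (fun x => u (T x)) (fun x => T.symm (g (T x))) := by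
  refine ⟨locInt T h.1, locInt_vec T h.2.1, fun φ hφ hc v => ?_⟩
  have h1 := h.2.2 (φ ∘ T.symm.toContinuousLinearEquiv)
    (hφ.comp T.symm.toContinuousLinearEquiv.contDiff) (hc.comp_homeomorph T.symm.toHomeomorph)
    (T v)
  rw [← integral_T T, ← integral_T T (fun y => inner ℝ (g y) (T v) * _)] at h1
  have e1 : ∀ x, fderiv ℝ (φ ∘ T.symm.toContinuousLinearEquiv) (T x) (T v) = fderiv ℝ φ x v := by
    intro x
    rw [ContinuousLinearEquiv.comp_right_fderiv]
    simp
  have e2 : ∀ x, inner ℝ (g (T x)) (T v) * (φ ∘ T.symm.toContinuousLinearEquiv) (T x) =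
      inner ℝ (T.symm (g (T x))) v * φ x := by
    intro x
    rw [← T.inner_map_map (T.symm (g (T x))) v]
    simp
  simp only [e1, e2] at h1
  exact h1

/-- the maximal function in a Euclidean space -/
def cMg (f : E → ℝ) (x : E) : ℝ≥0∞ :=
  ⨆ (r : ℝ) (_ : 0 < r), (∫⁻ y in ball x r, ‖f y‖ₑ) / volume (ball x r)

theorem cMg_comp (T : E ≃ₗᵢ[ℝ] F) (f : F → ℝ) (x : E) :
    cMg (fun y => f (T y)) x = cMg f (T x) := by
  unfold cMg
  refine iSup_congr fun r => iSup_congr fun _ => ?_
  have hb : T ⁻¹' ball (T x) r = ball x r := by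
    ext y
    simp [mem_ball]
  rw [← hb, T.measurePreserving.setLIntegral_comp_preimage_emb T.toHomeomorph.measurableEmbedding
    (fun y => ‖f y‖ₑ), T.measurePreserving.measure_preimage measurableSet_ball.nullMeasurableSet]

end gen

theorem wg_iff (u : ℂ → ℝ) (g : ℂ → ℂ) : WG u g ↔ WGg u g := by
  unfold WG WGg
  simp only [dot_eq_inner]

end Transfer

open Transfer in
theorem transfer (h : FinalCStmt) : TargetStmt := by
  obtain ⟨C, hC⟩ := h
  refine ⟨C, fun f g hf hw hg => ?_⟩
  set T : ℂ ≃ₗᵢ[ℝ] EuclideanSpace ℝ (Fin 2) := Complex.orthonormalBasisOneI.repr with hT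
  obtain ⟨h1, h2, G, h3, h4, h5⟩ := hC (fun x => f (T x)) (fun x => T.symm (g (T x))) (int T hf)
    ((wg_iff _ _).mpr (wg T hw)) (int_vec T hg)
  have e : ∀ y, Crest.AnalysisR.centredMaximalFunction f y = cM (fun x => f (T x)) (T.symm y) := by
    intro y
    have := cMg_comp T f (T.symm y)
    rw [T.apply_symm_apply] at this
    exact this.symm
  simp only [e]
  refine ⟨T.symm.measurePreserving.quasiMeasurePreserving.ae h1, locInt T.symm h2,
    fun y => T.symm.symm (G (T.symm y)), wg T.symm ((wg_iff _ _).mp h3), int_vec T.symm h4, ?_⟩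
  simp only [LinearIsometryEquiv.norm_map] at h5 ⊢
  rw [integral_T T.symm (fun x => ‖G x‖), ← integral_T T (fun x => ‖g x‖)]
  exact h5

end

end Crest.Agent.R112
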